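import Vale.Agent.P224.MathlibUsed

namespace Vale.Agent.P224

open scoped Manifold ContDiff RealInnerProductSpace
open MeasureTheory Metric Module

/-- The volume of the unit sphere of dimension k. -/
noncomputable def sphereVol (k : ℕ) : ℝ :=
  2 * Real.pi ^ (((k : ℝ) + 1) / 2) / Real.Gamma (((k : ℝ) + 1) / 2)

/-- The volume of the minimal Clifford product with factors of dimensions k and m - k. -/
noncomputable def cliffordVol (m k : ℕ) : ℝ :=
  ((k : ℝ) / m) ^ ((k : ℝ) / 2) * (((m - k : ℕ) : ℝ) / m) ^ (((m - k : ℕ) : ℝ) / 2)
    * sphereVol k * sphereVol (m - k)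

/-- The least volume of a minimal Clifford product of dimension m. -/
noncomputable def leastClifford (m : ℕ) : ℝ := ⨅ k : Set.Ico 1 m, cliffordVol m k

section

variable {V W : Type*} [NormedAddCommGroup V] [InnerProductSpace ℝ V] [FiniteDimensional ℝ V]
  [NormedAddCommGroup W] [InnerProductSpace ℝ W]

/-- i-th partial derivative of a map between Euclidean spaces. -/
noncomputable def pd (f : V → W) (i : Fin (finrank ℝ V)) (u : V) : W :=
  fderiv ℝ f u (stdOrthonormalBasis ℝ V i)

/-- The coefficients of the induced metric. -/
noncomputable def metricMat (f : V → W) (u : V) :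
    Matrix (Fin (finrank ℝ V)) (Fin (finrank ℝ V)) ℝ :=
  Matrix.gram ℝ fun i => pd f i u

/-- The matrix of the shape operator with respect to the normal vector n. -/
noncomputable def shapeMat (f : V → W) (u : V) (n : W) :
    Matrix (Fin (finrank ℝ V)) (Fin (finrank ℝ V)) ℝ :=
  (metricMat f u)⁻¹ * Matrix.of fun i j => ⟪pd (pd f j) i u, n⟫

variable {M : Type*} [TopologicalSpace M] [ChartedSpace V M]

/-- The map F read in the chart at x. -/
noncomputable def rep (F : M → W) (x : M) (u : V) : W := F ((chartAt V x).symm u)

variable (V)

/-- The Riemannian volume of the induced metric: the least measure on M dominating, for each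
chart, the measure with density the square root of the determinant of the metric. -/
noncomputable def volM [MeasurableSpace V] [BorelSpace V] [MeasurableSpace M] (F : M → W) :
    Measure M :=
  ⨆ x : M, ((volume.withDensity fun u : V =>
    ENNReal.ofReal (Real.sqrt (metricMat (rep F x) u).det)).restrict (chartAt V x).target).map
      (chartAt V x).symm

/-- n is a unit vector tangent to the unit sphere at F x and normal to F at x. -/
def IsUnitNormal (F : M → W) (x : M) (n : W) : Prop :=
  ‖n‖ = 1 ∧ ⟪F x, n⟫ = 0 ∧ ∀ i, ⟪pd (rep F x) i (chartAt V x x), n⟫ = 0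

/-- The mean curvature at x with respect to the unit normal n. -/
noncomputable def meanCurv (F : M → W) (x : M) (n : W) : ℝ :=
  (shapeMat (rep F x) (chartAt V x x) n).trace

/-- The squared norm of the second fundamental form at x with respect to the unit normal n. -/
noncomputable def normSqA (F : M → W) (x : M) (n : W) : ℝ :=
  (shapeMat (rep F x) (chartAt V x x) n ^ 2).trace

end

end Vale.Agent.P224
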