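import Mathlib

namespace Vale.Agent.P224

open Matrix

variable {n : Type*} [Fintype n] [DecidableEq n]

lemma exists_orth_diag (A : Matrix n n ℝ) (hA : A.IsHermitian) :
    ∃ U : Matrix n n ℝ, Uᵀ * U = 1 ∧ Uᵀ * A * U = diagonal hA.eigenvalues := by
  refine ⟨hA.eigenvectorUnitary, ?_, ?_⟩
  · have := Unitary.coe_star_mul_self hA.eigenvectorUnitary
    rw [star_eq_conjTranspose, conjTranspose_eq_transpose_of_trivial] at this
    exact this
  · have := hA.conjStarAlgAut_star_eigenvectorUnitary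
    rw [Unitary.conjStarAlgAut_star_apply] at this
    rw [star_eq_conjTranspose, conjTranspose_eq_transpose_of_trivial] at this
    rw [this]
    rfl

/-- simultaneous diagonalisation -/
lemma exists_simul_diag (G H : Matrix n n ℝ) (hG : G.PosDef) (hH : Hᵀ = H) :
    ∃ (T : Matrix n n ℝ) (κ : n → ℝ), Tᵀ * G * T = 1 ∧ Tᵀ * H * T = diagonal κ := by
  obtain ⟨U, hU, hUG⟩ := exists_orth_diag G hG.1
  set C : Matrix n n ℝ := U * diagonal (fun i => (Real.sqrt (hG.1.eigenvalues i))⁻¹) with hC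
  have hCG : Cᵀ * G * C = 1 := by
    rw [hC, transpose_mul, diagonal_transpose]
    calc diagonal (fun i => (Real.sqrt (hG.1.eigenvalues i))⁻¹) * Uᵀ * G *
          (U * diagonal (fun i => (Real.sqrt (hG.1.eigenvalues i))⁻¹))
        = diagonal (fun i => (Real.sqrt (hG.1.eigenvalues i))⁻¹) * (Uᵀ * G * U) *
          diagonal (fun i => (Real.sqrt (hG.1.eigenvalues i))⁻¹) := by
          simp only [Matrix.mul_assoc]
      _ = 1 := by
          rw [hUG, diagonal_mul_diagonal, diagonal_mul_diagonal, ← diagonal_one]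
          congr 1
          funext i
          have hp := hG.eigenvalues_pos i
          have hs : 0 < Real.sqrt (hG.1.eigenvalues i) := Real.sqrt_pos.mpr hp
          have := Real.mul_self_sqrt hp.le
          field_simp
          linarith
  have hK : (Cᵀ * H * C).IsHermitian := by
    rw [IsHermitian, conjTranspose_eq_transpose_of_trivial]
    simp only [transpose_mul, transpose_transpose, hH, Matrix.mul_assoc]
  obtain ⟨V, hV, hVK⟩ := exists_orth_diag _ hK
  refine ⟨C * V, hK.eigenvalues, ?_, ?_⟩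
  · calc (C * V)ᵀ * G * (C * V) = Vᵀ * (Cᵀ * G * C) * V := by
          simp only [transpose_mul, Matrix.mul_assoc]
      _ = 1 := by rw [hCG, Matrix.mul_one, hV]
  · calc (C * V)ᵀ * H * (C * V) = Vᵀ * (Cᵀ * H * C) * V := by
          simp only [transpose_mul, Matrix.mul_assoc]
      _ = _ := hVK

/-- The principal curvatures. -/
theorem exists_kappa (G H : Matrix n n ℝ) (hG : G.PosDef) (hH : Hᵀ = H) :
    ∃ κ : n → ℝ, (G⁻¹ * H).trace = ∑ i, κ i ∧
      ((G⁻¹ * H) * (G⁻¹ * H)).trace = ∑ i, κ i ^ 2 ∧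
      (∀ a b : ℝ, (a • G - b • H).det = G.det * ∏ i, (a - b * κ i)) ∧
      (∀ a b : ℝ, (∀ v : n → ℝ, 0 ≤ v ⬝ᵥ ((a • G - b • H) *ᵥ v)) → ∀ i, 0 ≤ a - b * κ i) := by
  obtain ⟨T, κ, hTG, hTH⟩ := exists_simul_diag G H hG hH
  have hdet : T.det * T.det * G.det = 1 := by
    have := congrArg Matrix.det hTG
    rw [det_mul, det_mul, det_transpose, det_one] at this
    linarith
  have hTdet : T.det ≠ 0 := by
    intro h
    rw [h] at hdet
    simp at hdet
  have hTu : IsUnit T.det := isUnit_iff_ne_zero.mpr hTdet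
  have hGdet : IsUnit G.det := isUnit_iff_ne_zero.mpr hG.det_pos.ne'
  have hTt : IsUnit (Tᵀ).det := by rw [det_transpose]; exact hTu
  -- G⁻¹ = T Tᵀ
  have hGinv : G⁻¹ = T * Tᵀ := by
    have h1 : G * (T * Tᵀ) = 1 := by
      have : Tᵀ * (G * (T * Tᵀ)) = Tᵀ * 1 := by
        calc Tᵀ * (G * (T * Tᵀ)) = (Tᵀ * G * T) * Tᵀ := by simp only [Matrix.mul_assoc]
          _ = Tᵀ * 1 := by rw [hTG, Matrix.one_mul, Matrix.mul_one]
      have h2 := congrArg (fun X => (Tᵀ)⁻¹ * X) this
      simpa [← Matrix.mul_assoc, Matrix.nonsing_inv_mul _ hTt] using h2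
    exact inv_eq_right_inv h1
  have hW : G⁻¹ * H = T * (diagonal κ * T⁻¹) := by
    have h1 : (Tᵀ * H) = diagonal κ * T⁻¹ := by
      rw [← hTH, Matrix.mul_assoc (Tᵀ * H), Matrix.mul_nonsing_inv _ hTu, Matrix.mul_one]
    rw [hGinv, Matrix.mul_assoc, h1]
  refine ⟨κ, ?_, ?_, ?_, ?_⟩
  · rw [hW, trace_mul_comm, Matrix.mul_assoc, Matrix.nonsing_inv_mul _ hTu, Matrix.mul_one,
      trace_diagonal]
  · rw [hW]
    have : T * (diagonal κ * T⁻¹) * (T * (diagonal κ * T⁻¹))
        = T * (diagonal κ * diagonal κ * T⁻¹) := by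
      calc T * (diagonal κ * T⁻¹) * (T * (diagonal κ * T⁻¹))
          = T * (diagonal κ * (T⁻¹ * T) * (diagonal κ * T⁻¹)) := by
            simp only [Matrix.mul_assoc]
        _ = _ := by
            rw [Matrix.nonsing_inv_mul _ hTu, Matrix.mul_one]
            simp only [Matrix.mul_assoc]
    rw [this, trace_mul_comm, Matrix.mul_assoc, Matrix.nonsing_inv_mul _ hTu, Matrix.mul_one,
      diagonal_mul_diagonal, trace_diagonal]
    simp only [pow_two]
  · intro a b
    have h1 : Tᵀ * (a • G - b • H) * T = diagonal (fun i => a - b * κ i) := by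
      rw [Matrix.mul_sub, Matrix.sub_mul, Matrix.mul_smul, Matrix.mul_smul, Matrix.smul_mul,
        Matrix.smul_mul, hTG, hTH]
      ext i j
      by_cases hij : i = j
      · subst hij
        simp
      · simp [hij]
    have h2 := congrArg Matrix.det h1
    rw [det_mul, det_mul, det_transpose, det_diagonal] at h2
    have h3 : G.det * (T.det * (a • G - b • H).det * T.det) = (a • G - b • H).det := by
      calc G.det * (T.det * (a • G - b • H).det * T.det)
          = (T.det * T.det * G.det) * (a • G - b • H).det := by ring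
        _ = _ := by rw [hdet, one_mul]
    rw [← h3, h2]
  · intro a b hnn i
    have h1 : Tᵀ * (a • G - b • H) * T = diagonal (fun i => a - b * κ i) := by
      rw [Matrix.mul_sub, Matrix.sub_mul, Matrix.mul_smul, Matrix.mul_smul, Matrix.smul_mul,
        Matrix.smul_mul, hTG, hTH]
      ext i j
      by_cases hij : i = j
      · subst hij
        simp
      · simp [hij]
    have h2 := hnn (T *ᵥ Pi.single i 1)
    have h3 : (T *ᵥ Pi.single i 1) ⬝ᵥ ((a • G - b • H) *ᵥ (T *ᵥ Pi.single i 1))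
        = (Tᵀ * (a • G - b • H) * T) i i := by
      calc (T *ᵥ Pi.single i 1) ⬝ᵥ ((a • G - b • H) *ᵥ (T *ᵥ Pi.single i 1))
          = (Pi.single i 1 ᵥ* Tᵀ) ⬝ᵥ ((a • G - b • H) *ᵥ (T *ᵥ Pi.single i 1)) := by
            rw [vecMul_transpose]
        _ = Pi.single i 1 ⬝ᵥ (Tᵀ *ᵥ ((a • G - b • H) *ᵥ (T *ᵥ Pi.single i 1))) :=
            (dotProduct_mulVec _ _ _).symm
        _ = (Tᵀ * (a • G - b • H) * T) i i := by
            rw [mulVec_mulVec, mulVec_mulVec, single_one_dotProduct, mulVec_single_one,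
              Matrix.col_apply, Matrix.mul_assoc]
    rw [h3, h1, diagonal_apply_eq] at h2
    exact h2

end Vale.Agent.P224
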