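import Mathlib
import Vale.Agent.P224.LinAlg

namespace Vale.Agent.P224

open MeasureTheory Metric Set Matrix
open scoped RealInnerProductSpace

/-- splitting of coordinates -/
noncomputable abbrev Te (m : ℕ) : EuclideanSpace ℝ (Fin (m + 2)) ≃L[ℝ]
    EuclideanSpace ℝ (Fin m) × EuclideanSpace ℝ (Fin 2) := EuclideanSpace.finAddEquivProd

lemma Te_measurePreserving (m : ℕ) : MeasurePreserving (Te m) := by
  have h1 := (LinearIsometryEquiv.piLpCongrLeft 2 ℝ ℝ
    (finSumFinEquiv (m := m) (n := 2)).symm).measurePreserving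
  have h2 := (PiLp.sumPiLpEquivProdLpPiLp (𝕜 := ℝ) 2
    (fun _ : Fin m ⊕ Fin 2 => ℝ)).measurePreserving
  have h3 := WithLp.volume_preserving_ofLp (EuclideanSpace ℝ (Fin m)) (EuclideanSpace ℝ (Fin 2))
  exact h3.comp (h2.comp h1)

/-- matrix whose columns are the given vectors -/
noncomputable def Mat {m : ℕ} (q : Fin m ⊕ Fin 2 → EuclideanSpace ℝ (Fin (m + 2))) :
    Matrix (Fin m ⊕ Fin 2) (Fin m ⊕ Fin 2) ℝ :=
  Matrix.of fun s t => q t (finSumFinEquiv s)

lemma Mat_transpose_mul {m : ℕ} (q r : Fin m ⊕ Fin 2 → EuclideanSpace ℝ (Fin (m + 2))) :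
    (Mat q)ᵀ * Mat r = Matrix.of fun s t => ⟪q s, r t⟫ := by
  ext s t
  simp only [Matrix.mul_apply, Mat, transpose_apply, of_apply]
  rw [Equiv.sum_comp (finSumFinEquiv (m := m) (n := 2)) (fun a => q s a * r t a)]
  simp [PiLp.inner_apply, mul_comm]

lemma det_Te_comp {m : ℕ} (D : EuclideanSpace ℝ (Fin m) × EuclideanSpace ℝ (Fin 2) →L[ℝ]
    EuclideanSpace ℝ (Fin (m + 2))) :
    ((Te m : _ →L[ℝ] _).comp D).det =
      (Mat (Sum.elim (fun i => D (EuclideanSpace.single i 1, 0))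
        (fun j => D (0, EuclideanSpace.single j 1)))).det := by
  rw [ContinuousLinearMap.det, ← LinearMap.det_toMatrix
    ((EuclideanSpace.basisFun (Fin m) ℝ).toBasis.prod (EuclideanSpace.basisFun (Fin 2) ℝ).toBasis)]
  congr 1
  ext s t
  rw [LinearMap.toMatrix_apply]
  rcases s with s | s <;> rcases t with t | t <;> simp [Mat]

end Vale.Agent.P224
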