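import Mathlib
import Vale.Agent.P224.Frame

namespace Vale.Agent.P224

open MeasureTheory Metric Set Matrix
open scoped RealInnerProductSpace ContDiff

section

variable {m : ℕ}

/-- the frame d_1, ..., d_m, p, n -/
def frame (d : Fin m → EuclideanSpace ℝ (Fin (m + 2))) (p n : EuclideanSpace ℝ (Fin (m + 2))) :
    Fin m ⊕ Fin 2 → EuclideanSpace ℝ (Fin (m + 2)) := Sum.elim d ![p, n]

/-- generalised cross product of d_1, ..., d_m, p -/
noncomputable def crossN (d : Fin m → EuclideanSpace ℝ (Fin (m + 2)))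
    (p : EuclideanSpace ℝ (Fin (m + 2))) : EuclideanSpace ℝ (Fin (m + 2)) :=
  WithLp.toLp 2 fun a => (Mat (frame d p (EuclideanSpace.single a 1))).det

lemma Mat_frame_eq (d : Fin m → EuclideanSpace ℝ (Fin (m + 2)))
    (p n : EuclideanSpace ℝ (Fin (m + 2))) :
    Mat (frame d p n) = (Mat (frame d p 0)).updateCol (Sum.inr 1)
      (fun s => n (finSumFinEquiv s)) := by
  ext s t
  rcases t with t | t
  · simp [Mat, frame]
  · fin_cases t
    · simp [Mat, frame]
    · simp [Mat, frame]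

lemma inner_crossN (d : Fin m → EuclideanSpace ℝ (Fin (m + 2)))
    (p n : EuclideanSpace ℝ (Fin (m + 2))) :
    ⟪crossN d p, n⟫ = (Mat (frame d p n)).det := by
  have h : ∀ w : EuclideanSpace ℝ (Fin (m + 2)), (Mat (frame d p w)).det
      = cramer (Mat (frame d p 0)) (fun s => w (finSumFinEquiv s)) (Sum.inr 1) := by
    intro w
    rw [Mat_frame_eq, cramer_apply]
  have h1 : ∀ a, crossN d p a
      = cramer (Mat (frame d p 0)) (Pi.single (finSumFinEquiv.symm a) 1) (Sum.inr 1) := by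
    intro a
    have := h (EuclideanSpace.single a 1)
    simp only [crossN]
    rw [this]
    have e : (fun s => (EuclideanSpace.single a (1 : ℝ)) (finSumFinEquiv s))
        = (Pi.single (finSumFinEquiv.symm a) 1 : Fin m ⊕ Fin 2 → ℝ) := by
      funext s
      by_cases hs : finSumFinEquiv s = a
      · subst hs
        simp
      · have hs' : s ≠ finSumFinEquiv.symm a := by
          intro h; apply hs; rw [h]; simp
        simp [hs, hs']
    rw [e]
  rw [h n]
  have h2 : (fun s => n (finSumFinEquiv s)) = ∑ s : Fin m ⊕ Fin 2,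
      n (finSumFinEquiv s) • (Pi.single s (1 : ℝ) : Fin m ⊕ Fin 2 → ℝ) := by
    funext s
    simp [Finset.sum_apply, Pi.single_apply]
  rw [h2, map_sum, Finset.sum_apply, PiLp.inner_apply]
  rw [← Equiv.sum_comp (finSumFinEquiv (m := m) (n := 2))]
  apply Finset.sum_congr rfl
  intro s _
  rw [h1, map_smul]
  simp

lemma inner_crossN_p (d : Fin m → EuclideanSpace ℝ (Fin (m + 2)))
    (p : EuclideanSpace ℝ (Fin (m + 2))) : ⟪crossN d p, p⟫ = 0 := by
  rw [inner_crossN]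
  apply det_zero_of_column_eq (i := Sum.inr 0) (j := Sum.inr 1) (by simp)
  intro k
  simp [Mat, frame]

lemma inner_crossN_d (d : Fin m → EuclideanSpace ℝ (Fin (m + 2)))
    (p : EuclideanSpace ℝ (Fin (m + 2))) (i : Fin m) : ⟪crossN d p, d i⟫ = 0 := by
  rw [inner_crossN]
  apply det_zero_of_column_eq (i := Sum.inl i) (j := Sum.inr 1) (by simp)
  intro k
  simp [Mat, frame]

lemma frame_gram (d : Fin m → EuclideanSpace ℝ (Fin (m + 2)))
    (p n : EuclideanSpace ℝ (Fin (m + 2))) (hp : ‖p‖ = 1) (hn : ‖n‖ = 1) (hpn : ⟪p, n⟫ = 0)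
    (hdp : ∀ i, ⟪d i, p⟫ = 0) (hdn : ∀ i, ⟪d i, n⟫ = 0) :
    (Mat (frame d p n))ᵀ * Mat (frame d p n) = fromBlocks (Matrix.gram ℝ d) 0 0 1 := by
  rw [Mat_transpose_mul]
  have hdp' : ∀ i, ⟪p, d i⟫ = 0 := fun i => by rw [real_inner_comm]; exact hdp i
  have hdn' : ∀ i, ⟪n, d i⟫ = 0 := fun i => by rw [real_inner_comm]; exact hdn i
  have hnp : ⟪n, p⟫ = 0 := by rw [real_inner_comm]; exact hpn
  ext s t
  rcases s with s | s <;> rcases t with t | t
  · simp [frame]
  · fin_cases t <;> simp [frame, hdp, hdn]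
  · fin_cases s <;> simp [frame, hdp', hdn']
  · fin_cases s <;> fin_cases t <;> simp [frame, hp, hn, hpn, hnp]

lemma frame_det_sq (d : Fin m → EuclideanSpace ℝ (Fin (m + 2)))
    (p n : EuclideanSpace ℝ (Fin (m + 2))) (hp : ‖p‖ = 1) (hn : ‖n‖ = 1) (hpn : ⟪p, n⟫ = 0)
    (hdp : ∀ i, ⟪d i, p⟫ = 0) (hdn : ∀ i, ⟪d i, n⟫ = 0) :
    (Mat (frame d p n)).det ^ 2 = (Matrix.gram ℝ d).det := by
  have := congrArg Matrix.det (frame_gram d p n hp hn hpn hdp hdn)
  rw [det_mul, det_transpose, det_fromBlocks_zero₂₁, det_one, mul_one] at this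
  rw [← this]; ring

lemma exists_unit_normal (d : Fin m → EuclideanSpace ℝ (Fin (m + 2)))
    (p : EuclideanSpace ℝ (Fin (m + 2))) :
    ∃ n : EuclideanSpace ℝ (Fin (m + 2)), ‖n‖ = 1 ∧ ⟪p, n⟫ = 0 ∧ ∀ i, ⟪d i, n⟫ = 0 := by
  set S : Submodule ℝ (EuclideanSpace ℝ (Fin (m + 2))) :=
    Submodule.span ℝ (Set.range (Fin.cons p d : Fin (m + 1) → EuclideanSpace ℝ (Fin (m + 2))))
    with hS
  have hfin : Module.finrank ℝ S ≤ m + 1 := by
    have := finrank_range_le_card (R := ℝ)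
      (b := (Fin.cons p d : Fin (m + 1) → EuclideanSpace ℝ (Fin (m + 2))))
    simpa [Set.finrank] using this
  have hperp : 0 < Module.finrank ℝ Sᗮ := by
    have := Submodule.finrank_add_finrank_orthogonal S
    rw [finrank_euclideanSpace_fin] at this
    omega
  obtain ⟨⟨v, hv⟩, hv0⟩ := (Module.finrank_pos_iff_exists_ne_zero (R := ℝ)).mp hperp
  have hv0' : v ≠ 0 := fun h => hv0 (by ext1; exact h)
  have hnv : ‖v‖ ≠ 0 := norm_ne_zero_iff.mpr hv0'
  have hin : ∀ w ∈ S, ⟪w, v⟫ = 0 := fun w hw => (Submodule.mem_orthogonal S v).mp hv w hw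
  refine ⟨‖v‖⁻¹ • v, ?_, ?_, ?_⟩
  · rw [norm_smul, norm_inv, norm_norm, inv_mul_cancel₀ hnv]
  · rw [inner_smul_right, hin p (Submodule.subset_span ⟨0, by simp⟩), mul_zero]
  · intro i
    rw [inner_smul_right, hin (d i) (Submodule.subset_span ⟨i.succ, by simp⟩), mul_zero]

lemma crossN_ne_zero (d : Fin m → EuclideanSpace ℝ (Fin (m + 2)))
    (p : EuclideanSpace ℝ (Fin (m + 2))) (hp : ‖p‖ = 1) (hdp : ∀ i, ⟪d i, p⟫ = 0)
    (hd : LinearIndependent ℝ d) : crossN d p ≠ 0 := by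
  intro h0
  obtain ⟨n, hn, hpn, hdn⟩ := exists_unit_normal d p
  have h1 := frame_det_sq d p n hp hn hpn hdp hdn
  rw [← inner_crossN, h0, inner_zero_left] at h1
  have h2 := (Matrix.det_gram_ne_zero_iff_linearIndependent (𝕜 := ℝ)).mpr hd
  apply h2
  rw [← h1]; norm_num

end

end Vale.Agent.P224
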