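import Mathlib
import Vale.Agent.P224.Normal

namespace Vale.Agent.P224

open MeasureTheory Metric Set Matrix
open scoped RealInnerProductSpace ContDiff

section

variable {m : ℕ}

/-- first partial derivatives -/
noncomputable def D1 (f : EuclideanSpace ℝ (Fin m) → EuclideanSpace ℝ (Fin (m + 2))) (i : Fin m)
    (u : EuclideanSpace ℝ (Fin m)) : EuclideanSpace ℝ (Fin (m + 2)) :=
  fderiv ℝ f u (EuclideanSpace.single i 1)

/-- second partial derivatives -/
noncomputable def D2 (f : EuclideanSpace ℝ (Fin m) → EuclideanSpace ℝ (Fin (m + 2))) (i j : Fin m)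
    (u : EuclideanSpace ℝ (Fin m)) : EuclideanSpace ℝ (Fin (m + 2)) :=
  fderiv ℝ (D1 f j) u (EuclideanSpace.single i 1)

/-- unnormalised normal -/
noncomputable def N0 (f : EuclideanSpace ℝ (Fin m) → EuclideanSpace ℝ (Fin (m + 2)))
    (u : EuclideanSpace ℝ (Fin m)) : EuclideanSpace ℝ (Fin (m + 2)) :=
  crossN (fun i => D1 f i u) (f u)

/-- unit normal -/
noncomputable def nu (f : EuclideanSpace ℝ (Fin m) → EuclideanSpace ℝ (Fin (m + 2)))
    (u : EuclideanSpace ℝ (Fin m)) : EuclideanSpace ℝ (Fin (m + 2)) :=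
  ‖N0 f u‖⁻¹ • N0 f u

/-- A smooth immersion of an open set into the unit sphere. -/
structure Imm (f : EuclideanSpace ℝ (Fin m) → EuclideanSpace ℝ (Fin (m + 2)))
    (T : Set (EuclideanSpace ℝ (Fin m))) : Prop where
  isOpen : IsOpen T
  smooth : ContDiffOn ℝ ∞ f T
  unit : ∀ u ∈ T, ‖f u‖ = 1
  inj : ∀ u ∈ T, Function.Injective (fderiv ℝ f u)

variable {f : EuclideanSpace ℝ (Fin m) → EuclideanSpace ℝ (Fin (m + 2))}
  {T : Set (EuclideanSpace ℝ (Fin m))}

namespace Imm

lemma contDiffOn_D1 (h : Imm f T) (i : Fin m) : ContDiffOn ℝ ∞ (D1 f i) T := by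
  have h1 : ContDiffOn ℝ ∞ (fderiv ℝ f) T :=
    h.smooth.fderiv_of_isOpen h.isOpen (by norm_cast)
  exact h1.clm_apply contDiffOn_const

lemma contDiffOn_D2 (h : Imm f T) (i j : Fin m) : ContDiffOn ℝ ∞ (D2 f i j) T := by
  have h1 : ContDiffOn ℝ ∞ (fderiv ℝ (D1 f j)) T :=
    (h.contDiffOn_D1 j).fderiv_of_isOpen h.isOpen (by norm_cast)
  exact h1.clm_apply contDiffOn_const

lemma contDiffOn_N0 (h : Imm f T) : ContDiffOn ℝ ∞ (N0 f) T := by
  rw [contDiffOn_euclidean]
  intro a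
  have : (fun u => N0 f u a) = fun u =>
      ∑ σ : Equiv.Perm (Fin m ⊕ Fin 2), Equiv.Perm.sign σ •
        ∏ s, Mat (frame (fun i => D1 f i u) (f u) (EuclideanSpace.single a 1)) (σ s) s := by
    funext u
    simp only [N0, crossN]
    rw [det_apply]
  rw [this]
  apply ContDiffOn.sum
  intro σ _
  apply ContDiffOn.const_smul
  apply contDiffOn_prod
  intro s _
  rcases s with s | s
  · have h1 := h.contDiffOn_D1 s
    rw [contDiffOn_euclidean] at h1
    simpa [Mat, frame] using h1 (finSumFinEquiv (σ (Sum.inl s)))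
  · fin_cases s
    · have h1 := h.smooth
      rw [contDiffOn_euclidean] at h1
      simpa [Mat, frame] using h1 (finSumFinEquiv (σ (Sum.inr 0)))
    · simpa [Mat, frame] using contDiffOn_const

lemma inner_f_D1 (h : Imm f T) {u : EuclideanSpace ℝ (Fin m)} (hu : u ∈ T) (i : Fin m) :
    ⟪f u, D1 f i u⟫ = 0 := by
  have hd : DifferentiableAt ℝ f u :=
    (h.smooth.differentiableOn (by norm_num)).differentiableAt (h.isOpen.mem_nhds hu)
  have h1 : (fun v => ⟪f v, f v⟫) =ᶠ[nhds u] fun _ => (1 : ℝ) := by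
    filter_upwards [h.isOpen.mem_nhds hu] with v hv
    rw [real_inner_self_eq_norm_sq, h.unit v hv]; norm_num
  have h2 := fderiv_inner_apply ℝ hd hd (EuclideanSpace.single i 1)
  rw [h1.fderiv_eq, fderiv_fun_const] at h2
  simp only [Pi.zero_apply, _root_.zero_apply] at h2
  rw [real_inner_comm (f u) (fderiv ℝ f u (EuclideanSpace.single i 1))] at h2
  unfold D1
  linarith

lemma inner_D1_f (h : Imm f T) {u : EuclideanSpace ℝ (Fin m)} (hu : u ∈ T) (i : Fin m) :
    ⟪D1 f i u, f u⟫ = 0 := by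
  rw [real_inner_comm]; exact h.inner_f_D1 hu i

lemma linearIndependent (h : Imm f T) {u : EuclideanSpace ℝ (Fin m)} (hu : u ∈ T) :
    LinearIndependent ℝ (fun i => D1 f i u) := by
  have h1 := (EuclideanSpace.basisFun (Fin m) ℝ).toBasis.linearIndependent
  have hk : LinearMap.ker (fderiv ℝ f u).toLinearMap = ⊥ := by
    rw [LinearMap.ker_eq_bot]
    exact h.inj u hu
  have h2 := h1.map' _ hk
  have e : (fun i => D1 f i u) = (⇑(fderiv ℝ f u).toLinearMap ∘
      ⇑(EuclideanSpace.basisFun (Fin m) ℝ).toBasis) := by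
    funext i
    simp [D1]
  rw [e]
  exact h2

lemma N0_ne_zero (h : Imm f T) {u : EuclideanSpace ℝ (Fin m)} (hu : u ∈ T) : N0 f u ≠ 0 :=
  crossN_ne_zero _ _ (h.unit u hu) (fun i => h.inner_D1_f hu i) (h.linearIndependent hu)

lemma norm_nu (h : Imm f T) {u : EuclideanSpace ℝ (Fin m)} (hu : u ∈ T) : ‖nu f u‖ = 1 := by
  unfold nu
  rw [norm_smul, norm_inv, norm_norm, inv_mul_cancel₀ (norm_ne_zero_iff.mpr (h.N0_ne_zero hu))]

lemma inner_nu_f (u : EuclideanSpace ℝ (Fin m)) : ⟪nu f u, f u⟫ = 0 := by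
  unfold nu N0
  rw [inner_smul_left, inner_crossN_p, mul_zero]

lemma inner_nu_D1 (u : EuclideanSpace ℝ (Fin m)) (i : Fin m) : ⟪nu f u, D1 f i u⟫ = 0 := by
  unfold nu N0
  rw [inner_smul_left, inner_crossN_d (fun i => D1 f i u), mul_zero]

lemma contDiffOn_nu (h : Imm f T) : ContDiffOn ℝ ∞ (nu f) T := by
  unfold nu
  refine ContDiffOn.fun_smul ?_ h.contDiffOn_N0
  apply ContDiffOn.inv
  · exact h.contDiffOn_N0.norm ℝ fun u hu => h.N0_ne_zero hu
  · intro u hu
    exact norm_ne_zero_iff.mpr (h.N0_ne_zero hu)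

lemma diffAt (h : Imm f T) {u : EuclideanSpace ℝ (Fin m)} (hu : u ∈ T) :
    DifferentiableAt ℝ f u :=
  (h.smooth.differentiableOn (by norm_num)).differentiableAt (h.isOpen.mem_nhds hu)

lemma diffAt_D1 (h : Imm f T) {u : EuclideanSpace ℝ (Fin m)} (hu : u ∈ T) (i : Fin m) :
    DifferentiableAt ℝ (D1 f i) u :=
  ((h.contDiffOn_D1 i).differentiableOn (by norm_num)).differentiableAt (h.isOpen.mem_nhds hu)

lemma diffAt_nu (h : Imm f T) {u : EuclideanSpace ℝ (Fin m)} (hu : u ∈ T) :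
    DifferentiableAt ℝ (nu f) u :=
  (h.contDiffOn_nu.differentiableOn (by norm_num)).differentiableAt (h.isOpen.mem_nhds hu)

end Imm

/-- differentiating a constant inner product -/
lemma inner_const_deriv {g k : EuclideanSpace ℝ (Fin m) → EuclideanSpace ℝ (Fin (m + 2))}
    {u : EuclideanSpace ℝ (Fin m)} (hT : IsOpen T) (hu : u ∈ T) (c : ℝ)
    (hc : ∀ v ∈ T, ⟪g v, k v⟫ = c) (hg : DifferentiableAt ℝ g u) (hk : DifferentiableAt ℝ k u)
    (w : EuclideanSpace ℝ (Fin m)) :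
    ⟪g u, fderiv ℝ k u w⟫ + ⟪fderiv ℝ g u w, k u⟫ = 0 := by
  have h1 : (fun v => ⟪g v, k v⟫) =ᶠ[nhds u] fun _ => c := by
    filter_upwards [hT.mem_nhds hu] with v hv
    exact hc v hv
  have h2 := fderiv_inner_apply ℝ hg hk w
  rw [h1.fderiv_eq, fderiv_fun_const] at h2
  simp only [Pi.zero_apply, _root_.zero_apply] at h2
  exact h2.symm

/-- partial derivatives of the normal -/
noncomputable def dnu (f : EuclideanSpace ℝ (Fin m) → EuclideanSpace ℝ (Fin (m + 2))) (i : Fin m)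
    (u : EuclideanSpace ℝ (Fin m)) : EuclideanSpace ℝ (Fin (m + 2)) :=
  fderiv ℝ (nu f) u (EuclideanSpace.single i 1)

/-- the metric -/
noncomputable def G (f : EuclideanSpace ℝ (Fin m) → EuclideanSpace ℝ (Fin (m + 2)))
    (u : EuclideanSpace ℝ (Fin m)) : Matrix (Fin m) (Fin m) ℝ := Matrix.gram ℝ (fun i => D1 f i u)

/-- the second fundamental form -/
noncomputable def H (f : EuclideanSpace ℝ (Fin m) → EuclideanSpace ℝ (Fin (m + 2)))
    (u : EuclideanSpace ℝ (Fin m)) : Matrix (Fin m) (Fin m) ℝ :=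
  Matrix.of fun i j => ⟪D2 f i j u, nu f u⟫

namespace Imm

lemma inner_dnu_nu (h : Imm f T) {u : EuclideanSpace ℝ (Fin m)} (hu : u ∈ T) (i : Fin m) :
    ⟪nu f u, dnu f i u⟫ = 0 := by
  have := inner_const_deriv h.isOpen hu 1 (g := nu f) (k := nu f)
    (fun v hv => by rw [real_inner_self_eq_norm_sq, h.norm_nu hv]; norm_num)
    (h.diffAt_nu hu) (h.diffAt_nu hu) (EuclideanSpace.single i 1)
  rw [real_inner_comm (nu f u)] at this
  unfold dnu
  linarith

lemma inner_f_dnu (h : Imm f T) {u : EuclideanSpace ℝ (Fin m)} (hu : u ∈ T) (i : Fin m) :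
    ⟪f u, dnu f i u⟫ = 0 := by
  have := inner_const_deriv h.isOpen hu 0 (g := f) (k := nu f)
    (fun v hv => by rw [real_inner_comm]; exact inner_nu_f v)
    (h.diffAt hu) (h.diffAt_nu hu) (EuclideanSpace.single i 1)
  have h2 : ⟪fderiv ℝ f u (EuclideanSpace.single i 1), nu f u⟫ = 0 := by
    rw [real_inner_comm]; exact inner_nu_D1 u i
  unfold dnu
  linarith

lemma inner_D1_dnu (h : Imm f T) {u : EuclideanSpace ℝ (Fin m)} (hu : u ∈ T) (i j : Fin m) :
    ⟪D1 f j u, dnu f i u⟫ = - H f u i j := by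
  have := inner_const_deriv h.isOpen hu 0 (g := D1 f j) (k := nu f)
    (fun v hv => by rw [real_inner_comm]; exact inner_nu_D1 v j)
    (h.diffAt_D1 hu j) (h.diffAt_nu hu) (EuclideanSpace.single i 1)
  unfold dnu H D2
  simp only [of_apply]
  linarith

lemma inner_D2_f (h : Imm f T) {u : EuclideanSpace ℝ (Fin m)} (hu : u ∈ T) (i j : Fin m) :
    ⟪D2 f i j u, f u⟫ = - G f u i j := by
  have := inner_const_deriv h.isOpen hu 0 (g := D1 f j) (k := f)
    (fun v hv => h.inner_D1_f hv j)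
    (h.diffAt_D1 hu j) (h.diffAt hu) (EuclideanSpace.single i 1)
  unfold G D2
  rw [gram_apply, real_inner_comm (D1 f j u) (D1 f i u)]
  have e : fderiv ℝ f u (EuclideanSpace.single i 1) = D1 f i u := rfl
  rw [e] at this
  linarith

lemma D2_symm (h : Imm f T) {u : EuclideanSpace ℝ (Fin m)} (hu : u ∈ T) (i j : Fin m) :
    D2 f i j u = D2 f j i u := by
  have hc : ContDiffAt ℝ ∞ f u := h.smooth.contDiffAt (h.isOpen.mem_nhds hu)
  have hsym : IsSymmSndFDerivAt ℝ f u := hc.isSymmSndFDerivAt (by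
    simp only [minSmoothness_of_isRCLikeNormedField]; norm_cast)
  have hd : DifferentiableAt ℝ (fderiv ℝ f) u := by
    have h1 : ContDiffOn ℝ ∞ (fderiv ℝ f) T :=
      h.smooth.fderiv_of_isOpen h.isOpen (by norm_cast)
    exact (h1.differentiableOn (by norm_num)).differentiableAt (h.isOpen.mem_nhds hu)
  have e : ∀ i j, D2 f i j u = fderiv ℝ (fderiv ℝ f) u (EuclideanSpace.single i 1)
      (EuclideanSpace.single j 1) := by
    intro i j
    unfold D2 D1
    rw [fderiv_clm_apply hd (differentiableAt_const _)]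
    simp
  rw [e, e]
  exact hsym _ _

lemma H_symm (h : Imm f T) {u : EuclideanSpace ℝ (Fin m)} (hu : u ∈ T) : (H f u)ᵀ = H f u := by
  ext i j
  simp only [transpose_apply, H, of_apply]
  rw [h.D2_symm hu]

lemma G_posDef (h : Imm f T) {u : EuclideanSpace ℝ (Fin m)} (hu : u ∈ T) : (G f u).PosDef :=
  posDef_gram_of_linearIndependent (h.linearIndependent hu)

end Imm

end

end Vale.Agent.P224
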