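import Mathlib
import Vale.Agent.P224.Local

namespace Vale.Agent.P224

open MeasureTheory Metric Set Matrix Filter
open scoped RealInnerProductSpace ContDiff Topology

variable {m : ℕ} {f g : EuclideanSpace ℝ (Fin m) → EuclideanSpace ℝ (Fin (m + 2))}
  {σ : EuclideanSpace ℝ (Fin m) → EuclideanSpace ℝ (Fin m)} {w : EuclideanSpace ℝ (Fin m)}

lemma fderiv_eq_sum (f : EuclideanSpace ℝ (Fin m) → EuclideanSpace ℝ (Fin (m + 2)))
    (u x : EuclideanSpace ℝ (Fin m)) : fderiv ℝ f u x = ∑ b, x b • D1 f b u := by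
  have hx : x = ∑ b, x b • EuclideanSpace.single b (1 : ℝ) := by
    ext j
    simp [Finset.sum_apply, Pi.single_apply]
  conv_lhs => rw [hx]
  rw [map_sum]
  apply Finset.sum_congr rfl
  intro b _
  rw [map_smul]
  rfl

/-- the Jacobian matrix -/
noncomputable def Jac (σ : EuclideanSpace ℝ (Fin m) → EuclideanSpace ℝ (Fin m))
    (w : EuclideanSpace ℝ (Fin m)) : Matrix (Fin m) (Fin m) ℝ :=
  Matrix.of fun b j => (fderiv ℝ σ w (EuclideanSpace.single j 1)) b

lemma D1_comp (hσ : DifferentiableAt ℝ σ w) (hf : DifferentiableAt ℝ f (σ w))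
    (hg : g =ᶠ[𝓝 w] f ∘ σ) (j : Fin m) : D1 g j w = ∑ b, Jac σ w b j • D1 f b (σ w) := by
  unfold D1
  rw [hg.fderiv_eq, fderiv_comp w hf hσ]
  simp only [ContinuousLinearMap.comp_apply]
  rw [fderiv_eq_sum]
  rfl

lemma D2_comp_inner (hσ : ContDiffAt ℝ ∞ σ w) (hf : ContDiffAt ℝ ∞ f (σ w))
    (hg : g =ᶠ[𝓝 w] f ∘ σ) (n : EuclideanSpace ℝ (Fin (m + 2)))
    (hn : ∀ b, ⟪D1 f b (σ w), n⟫ = 0) (i j : Fin m) :
    ⟪D2 g i j w, n⟫ = ∑ b, ∑ a, Jac σ w a i * (Jac σ w b j * ⟪D2 f a b (σ w), n⟫) := by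
  have hσd : DifferentiableAt ℝ σ w := hσ.differentiableAt (by norm_num)
  have hσ1 : ContDiffAt ℝ 1 (fderiv ℝ σ) w :=
    hσ.fderiv_right (m := 1) (by norm_cast)
  have hσ1d : DifferentiableAt ℝ (fderiv ℝ σ) w := hσ1.differentiableAt (by norm_num)
  have hf1 : ContDiffAt ℝ 1 (fderiv ℝ f) (σ w) :=
    hf.fderiv_right (m := 1) (by norm_cast)
  have hf1d : DifferentiableAt ℝ (fderiv ℝ f) (σ w) := hf1.differentiableAt (by norm_num)
  have hD1d : ∀ b, DifferentiableAt ℝ (D1 f b) (σ w) := fun b =>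
    hf1d.clm_apply (differentiableAt_const _)
  have hev : D1 g j =ᶠ[𝓝 w] fun v => ∑ b, Jac σ v b j • D1 f b (σ v) := by
    have h1 : ∀ᶠ v in 𝓝 w, DifferentiableAt ℝ σ v :=
      ((hσ.of_le (m := 1) (by norm_cast)).eventually (by simp)).mono
        fun v hv => hv.differentiableAt (by norm_num)
    have h2 : ∀ᶠ v in 𝓝 w, DifferentiableAt ℝ f (σ v) :=
      hσ.continuousAt.eventually
        (((hf.of_le (m := 1) (by norm_cast)).eventually (by simp)).mono
          fun v hv => hv.differentiableAt (by norm_num))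
    have h3 : ∀ᶠ v in 𝓝 w, g =ᶠ[𝓝 v] f ∘ σ := hg.eventuallyEq_nhds
    filter_upwards [h1, h2, h3] with v k1 k2 k3
    exact D1_comp k1 k2 k3 j
  have hJd : ∀ b, DifferentiableAt ℝ (fun v => Jac σ v b j) w := by
    intro b
    have : DifferentiableAt ℝ (fun v => fderiv ℝ σ v (EuclideanSpace.single j 1)) w :=
      hσ1d.clm_apply (differentiableAt_const _)
    exact (EuclideanSpace.proj (𝕜 := ℝ) b).differentiableAt.comp w this
  have hDd : ∀ b, DifferentiableAt ℝ (fun v => D1 f b (σ v)) w := fun b =>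
    (hD1d b).comp w hσd
  unfold D2
  have hsum := fderiv_fun_sum (𝕜 := ℝ) (x := w) (u := Finset.univ)
    (A := fun b v => Jac σ v b j • D1 f b (σ v)) (fun b _ => (hJd b).fun_smul (hDd b))
  rw [hev.fderiv_eq, hsum]
  rw [_root_.sum_apply, sum_inner]
  apply Finset.sum_congr rfl
  intro b _
  rw [fderiv_fun_smul (hJd b) (hDd b)]
  simp only [_root_.add_apply, _root_.smul_apply,
    ContinuousLinearMap.smulRight_apply, inner_add_left, inner_smul_left, hn b, mul_zero,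
    add_zero, conj_trivial]
  have h5 : fderiv ℝ (fun v => D1 f b (σ v)) w (EuclideanSpace.single i 1)
      = ∑ a, Jac σ w a i • D2 f a b (σ w) := by
    have : (fun v => D1 f b (σ v)) = D1 f b ∘ σ := rfl
    rw [this, fderiv_comp w (hD1d b) hσd]
    simp only [ContinuousLinearMap.comp_apply]
    rw [fderiv_eq_sum]
    rfl
  rw [h5, sum_inner, Finset.mul_sum]
  apply Finset.sum_congr rfl
  intro a _
  rw [inner_smul_left]
  simp only [conj_trivial, D2]
  ring

/-- transformation rule of the forms -/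
lemma forms_comp (hσ : ContDiffAt ℝ ∞ σ w) (hf : ContDiffAt ℝ ∞ f (σ w))
    (hg : g =ᶠ[𝓝 w] f ∘ σ) (n : EuclideanSpace ℝ (Fin (m + 2)))
    (hn : ∀ b, ⟪D1 f b (σ w), n⟫ = 0) :
    Matrix.gram ℝ (fun i => D1 g i w) =
      (Jac σ w)ᵀ * Matrix.gram ℝ (fun i => D1 f i (σ w)) * Jac σ w ∧
    (Matrix.of fun i j => ⟪D2 g i j w, n⟫) =
      (Jac σ w)ᵀ * (Matrix.of fun i j => ⟪D2 f i j (σ w), n⟫) * Jac σ w := by
  have hσd : DifferentiableAt ℝ σ w := hσ.differentiableAt (by norm_num)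
  have hfd : DifferentiableAt ℝ f (σ w) := hf.differentiableAt (by norm_num)
  constructor
  · ext i j
    rw [gram_apply, D1_comp hσd hfd hg, D1_comp hσd hfd hg]
    simp only [Matrix.mul_apply, transpose_apply, gram_apply, sum_inner, inner_sum,
      inner_smul_left, inner_smul_right, conj_trivial, Finset.sum_mul]
    apply Finset.sum_congr rfl
    intro b _
    rw [Finset.mul_sum]
    apply Finset.sum_congr rfl
    intro a _
    ring
  · ext i j
    simp only [of_apply, D2_comp_inner hσ hf hg n hn, Matrix.mul_apply, transpose_apply,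
      Finset.sum_mul]
    apply Finset.sum_congr rfl
    intro b _
    apply Finset.sum_congr rfl
    intro a _
    ring

/-- invariance of the traces -/
lemma trace_conj_forms (B G H : Matrix (Fin m) (Fin m) ℝ) (hB : IsUnit B.det) :
    (((Bᵀ * G * B)⁻¹ * (Bᵀ * H * B)).trace = (G⁻¹ * H).trace) ∧
    ((((Bᵀ * G * B)⁻¹ * (Bᵀ * H * B)) * ((Bᵀ * G * B)⁻¹ * (Bᵀ * H * B))).trace
      = ((G⁻¹ * H) * (G⁻¹ * H)).trace) := by
  have hBt : IsUnit (Bᵀ).det := by rw [det_transpose]; exact hB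
  have e : (Bᵀ * G * B)⁻¹ * (Bᵀ * H * B) = B⁻¹ * (G⁻¹ * H) * B := by
    rw [Matrix.mul_inv_rev, Matrix.mul_inv_rev]
    calc B⁻¹ * (G⁻¹ * (Bᵀ)⁻¹) * (Bᵀ * H * B) = B⁻¹ * G⁻¹ * ((Bᵀ)⁻¹ * Bᵀ) * H * B := by
          simp only [Matrix.mul_assoc]
      _ = _ := by
          rw [Matrix.nonsing_inv_mul _ hBt, Matrix.mul_one]
          simp only [Matrix.mul_assoc]
  rw [e]
  constructor
  · rw [trace_mul_comm, ← Matrix.mul_assoc, Matrix.mul_nonsing_inv _ hB, Matrix.one_mul]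
  · have : B⁻¹ * (G⁻¹ * H) * B * (B⁻¹ * (G⁻¹ * H) * B)
        = B⁻¹ * ((G⁻¹ * H) * (G⁻¹ * H)) * B := by
      calc B⁻¹ * (G⁻¹ * H) * B * (B⁻¹ * (G⁻¹ * H) * B)
          = B⁻¹ * (G⁻¹ * H) * (B * B⁻¹) * (G⁻¹ * H) * B := by simp only [Matrix.mul_assoc]
        _ = _ := by
          rw [Matrix.mul_nonsing_inv _ hB, Matrix.mul_one]
          simp only [Matrix.mul_assoc]
    rw [this, trace_mul_comm, ← Matrix.mul_assoc, Matrix.mul_nonsing_inv _ hB, Matrix.one_mul]

end Vale.Agent.P224
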