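import Mathlib

namespace Vale.Agent.P224

open MeasureTheory Metric Set Finset

/-! ### Three real numbers -/

lemma three_pos {α β γ : ℝ} (h1 : 0 < α + β + γ) (h2 : 0 < α * β + β * γ + γ * α)
    (h3 : 0 < α * β * γ) : 0 < α ∧ 0 < β ∧ 0 < γ := by
  have key : ∀ t : ℝ, (t - α) * (t - β) * (t - γ) = 0 → 0 < t := by
    intro t ht
    by_contra hneg
    push Not at hneg
    have e : (t - α) * (t - β) * (t - γ)
        = t ^ 3 - (α + β + γ) * t ^ 2 + (α * β + β * γ + γ * α) * t - α * β * γ := by ring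
    rw [e] at ht
    have a1 : t ^ 3 ≤ 0 := by
      have : t ^ 3 = t * t ^ 2 := by ring
      rw [this]
      exact mul_nonpos_of_nonpos_of_nonneg hneg (sq_nonneg t)
    have a2 : 0 ≤ (α + β + γ) * t ^ 2 := by positivity
    have a3 : (α * β + β * γ + γ * α) * t ≤ 0 := mul_nonpos_of_nonneg_of_nonpos h2.le hneg
    linarith
  exact ⟨key α (by ring), key β (by ring), key γ (by ring)⟩

/-- product of the positive parts of three numbers -/
lemma pos3_ge {α β γ : ℝ} (h1 : 0 < α + β + γ) (h2 : 0 < α * β + β * γ + γ * α) :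
    α * β * γ ≤ max α 0 * max β 0 * max γ 0 := by
  by_cases h3 : 0 < α * β * γ
  · obtain ⟨a, b, c⟩ := three_pos h1 h2 h3
    rw [max_eq_left a.le, max_eq_left b.le, max_eq_left c.le]
  · push Not at h3
    exact h3.trans (by positivity)

lemma convex3 {α β γ α' β' γ' α'' β'' γ'' s t : ℝ}
    (hs : 0 ≤ s) (ht : 0 ≤ t)
    (e1' : α' + β' + γ' = α + β + γ) (e1'' : α'' + β'' + γ'' = α + β + γ)
    (e2' : α' * β' + β' * γ' + γ' * α' = α * β + β * γ + γ * α)
    (e2'' : α'' * β'' + β'' * γ'' + γ'' * α'' = α * β + β * γ + γ * α)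
    (e3 : α * β * γ = s * (α' * β' * γ') + t * (α'' * β'' * γ'')) :
    max α 0 * max β 0 * max γ 0 ≤
      s * (max α' 0 * max β' 0 * max γ' 0) + t * (max α'' 0 * max β'' 0 * max γ'' 0) := by
  have hnn : 0 ≤ s * (max α' 0 * max β' 0 * max γ' 0)
      + t * (max α'' 0 * max β'' 0 * max γ'' 0) := by positivity
  by_cases ha : 0 < α
  swap
  · push Not at ha
    rw [max_eq_right ha]
    simpa using hnn
  by_cases hb : 0 < β
  swap
  · push Not at hb
    rw [max_eq_right hb]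
    simpa using hnn
  by_cases hc : 0 < γ
  swap
  · push Not at hc
    rw [max_eq_right hc]
    simpa using hnn
  rw [max_eq_left ha.le, max_eq_left hb.le, max_eq_left hc.le, e3]
  have h1 : 0 < α + β + γ := by positivity
  have h2 : 0 < α * β + β * γ + γ * α := by positivity
  have A := pos3_ge (α := α') (β := β') (γ := γ') (by rw [e1']; exact h1) (by rw [e2']; exact h2)
  have B := pos3_ge (α := α'') (β := β'') (γ := γ'') (by rw [e1'']; exact h1)
    (by rw [e2'']; exact h2)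
  exact add_le_add (mul_le_mul_of_nonneg_left A hs) (mul_le_mul_of_nonneg_left B ht)

lemma exists_triples_aux (μ p q : ℝ) (h1 : p - q ≠ 0) (h2 : 2 * p + q ≠ 0) (h3 : p + 2 * q ≠ 0) :
    ∃ d : ℝ, 3 * d ^ 2 = p ^ 2 + p * q + q ^ 2 ∧
      (μ - 2 * d) * (μ + d) * (μ + d) < (μ + p) * (μ + q) * (μ + (- p - q)) ∧
      (μ + p) * (μ + q) * (μ + (- p - q)) < (μ + 2 * d) * (μ - d) * (μ - d) := by
  have hV : 0 < (p ^ 2 + p * q + q ^ 2) / 3 := by
    have h2 : 0 < (p - q) ^ 2 := by positivity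
    have : 0 < p ^ 2 + p * q + q ^ 2 := by linarith [sq_nonneg (p + q)]
    positivity
  obtain ⟨d, hd0, hd⟩ : ∃ d : ℝ, 0 < d ∧ d ^ 2 = (p ^ 2 + p * q + q ^ 2) / 3 :=
    ⟨Real.sqrt _, Real.sqrt_pos.mpr hV, Real.sq_sqrt hV.le⟩
  have hd2 : 3 * d ^ 2 = p ^ 2 + p * q + q ^ 2 := by rw [hd]; ring
  have hdisc : 0 < (p - q) ^ 2 * (2 * p + q) ^ 2 * (p + 2 * q) ^ 2 := by positivity
  have hid : 4 * (p ^ 2 + p * q + q ^ 2) ^ 3 - 27 * (p * q * (- p - q)) ^ 2
      = (p - q) ^ 2 * (2 * p + q) ^ 2 * (p + 2 * q) ^ 2 := by ring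
  have hlt : (p * q * (- p - q)) ^ 2 < (2 * d ^ 3) ^ 2 := by
    have : (2 * d ^ 3) ^ 2 = 4 * (3 * d ^ 2) ^ 3 / 27 := by ring
    rw [this, hd2]
    linarith
  obtain ⟨hl1, hl2⟩ := abs_lt_of_sq_lt_sq' hlt (by positivity)
  refine ⟨d, hd2, ?_, ?_⟩
  · have : (μ + p) * (μ + q) * (μ + (- p - q)) - (μ - 2 * d) * (μ + d) * (μ + d)
        = μ * (3 * d ^ 2 - (p ^ 2 + p * q + q ^ 2)) + (p * q * (-p - q) + 2 * d ^ 3) := by
      ring
    rw [hd2, sub_self, mul_zero] at this
    linarith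
  · have : (μ + 2 * d) * (μ - d) * (μ - d) - (μ + p) * (μ + q) * (μ + (- p - q))
        = - μ * (3 * d ^ 2 - (p ^ 2 + p * q + q ^ 2)) + (2 * d ^ 3 - p * q * (-p - q)) := by
      ring
    rw [hd2, sub_self, mul_zero] at this
    linarith

/-- Given three distinct numbers there are two triples with the same sum and sum of squares and
with strictly smaller, resp. strictly larger product. -/
lemma exists_triples {x y z : ℝ} (hxy : x ≠ y) (hyz : y ≠ z) (hxz : x ≠ z) :
    ∃ x' y' z' x'' y'' z'' : ℝ,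
      x' + y' + z' = x + y + z ∧ x'' + y'' + z'' = x + y + z ∧
      x' ^ 2 + y' ^ 2 + z' ^ 2 = x ^ 2 + y ^ 2 + z ^ 2 ∧
      x'' ^ 2 + y'' ^ 2 + z'' ^ 2 = x ^ 2 + y ^ 2 + z ^ 2 ∧
      x' * y' * z' < x * y * z ∧ x * y * z < x'' * y'' * z'' := by
  obtain ⟨μ, p, q, rfl, rfl, rfl⟩ : ∃ μ p q : ℝ, x = μ + p ∧ y = μ + q ∧ z = μ + (- p - q) :=
    ⟨(x + y + z) / 3, x - (x + y + z) / 3, y - (x + y + z) / 3, by ring, by ring, by ring⟩
  obtain ⟨d, hd, h1, h2⟩ := exists_triples_aux μ p q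
    (by intro h; apply hxy; linarith) (by intro h; apply hxz; linarith)
    (by intro h; apply hyz; linarith)
  refine ⟨μ - 2 * d, μ + d, μ + d, μ + 2 * d, μ - d, μ - d, by ring, by ring, ?_, ?_, h1, h2⟩
  · linear_combination 2 * hd
  · linear_combination 2 * hd

/-! ### The functional -/

/-- product of the positive parts -/
noncomputable def P {m : ℕ} (κ : Fin m → ℝ) (z : EuclideanSpace ℝ (Fin 2)) : ℝ :=
  ∏ i, max (z 0 - z 1 * κ i) 0

lemma P_nonneg {m : ℕ} (κ : Fin m → ℝ) (z : EuclideanSpace ℝ (Fin 2)) : 0 ≤ P κ z :=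
  Finset.prod_nonneg fun _ _ => le_max_right _ _

lemma P_continuous {m : ℕ} :
    Continuous (Function.uncurry (P : (Fin m → ℝ) → EuclideanSpace ℝ (Fin 2) → ℝ)) := by
  unfold Function.uncurry P
  fun_prop

/-- The integral over the unit disc. -/
noncomputable def J {m : ℕ} (κ : Fin m → ℝ) : ℝ :=
  ∫ z in closedBall (0 : EuclideanSpace ℝ (Fin 2)) 1, P κ z

lemma J_continuous {m : ℕ} : Continuous (J : (Fin m → ℝ) → ℝ) :=
  continuous_parametric_integral_of_continuous P_continuous (isCompact_closedBall _ _)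

lemma P_integrableOn {m : ℕ} (κ : Fin m → ℝ) :
    IntegrableOn (P κ) (closedBall (0 : EuclideanSpace ℝ (Fin 2)) 1) := by
  have : Continuous (P κ) := by
    have := (P_continuous (m := m)).comp (Continuous.prodMk_right κ)
    exact this
  exact this.continuousOn.integrableOn_compact (isCompact_closedBall _ _)

lemma J_nonneg {m : ℕ} (κ : Fin m → ℝ) : 0 ≤ J κ :=
  integral_nonneg fun z => P_nonneg κ z

/-- replace the three coordinates i, j, k -/
def upd {m : ℕ} (κ : Fin m → ℝ) (i j k : Fin m) (x y z : ℝ) : Fin m → ℝ :=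
  fun l => if l = i then x else if l = j then y else if l = k then z else κ l

lemma prod_upd {m : ℕ} (κ : Fin m → ℝ) {i j k : Fin m} (hij : i ≠ j) (hjk : j ≠ k) (hik : i ≠ k)
    (x y z : ℝ) (g : ℝ → ℝ) :
    ∏ l, g (upd κ i j k x y z l) = g x * g y * g z * ∏ l ∈ ({i, j, k} : Finset (Fin m))ᶜ, g (κ l) := by
  rw [← Finset.prod_mul_prod_compl ({i, j, k} : Finset (Fin m))]
  congr 1
  · rw [Finset.prod_insert, Finset.prod_insert, Finset.prod_singleton]
    · simp [upd, hij.symm, hik.symm, hjk.symm, mul_assoc]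
    · simpa using hjk
    · simp [hij, hik]
  · apply Finset.prod_congr rfl
    intro l hl
    simp only [Finset.mem_compl, Finset.mem_insert, Finset.mem_singleton, not_or] at hl
    simp [upd, hl.1, hl.2.1, hl.2.2]

lemma sum_upd {m : ℕ} (κ : Fin m → ℝ) {i j k : Fin m} (hij : i ≠ j) (hjk : j ≠ k) (hik : i ≠ k)
    (x y z : ℝ) (g : ℝ → ℝ) :
    ∑ l, g (upd κ i j k x y z l) = g x + g y + g z + ∑ l ∈ ({i, j, k} : Finset (Fin m))ᶜ, g (κ l) := by
  rw [← Finset.sum_add_sum_compl ({i, j, k} : Finset (Fin m))]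
  congr 1
  · rw [Finset.sum_insert, Finset.sum_insert, Finset.sum_singleton]
    · simp [upd, hij.symm, hik.symm, hjk.symm, add_assoc]
    · simpa using hjk
    · simp [hij, hik]
  · apply Finset.sum_congr rfl
    intro l hl
    simp only [Finset.mem_compl, Finset.mem_insert, Finset.mem_singleton, not_or] at hl
    simp [upd, hl.1, hl.2.1, hl.2.2]

lemma upd_self {m : ℕ} (κ : Fin m → ℝ) (i j k : Fin m) : upd κ i j k (κ i) (κ j) (κ k) = κ := by
  funext l
  unfold upd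
  split_ifs with h1 h2 h3
  · rw [h1]
  · rw [h2]
  · rw [h3]
  · rfl

lemma P_convex {m : ℕ} (κ : Fin m → ℝ) {i j k : Fin m} (hij : i ≠ j) (hjk : j ≠ k) (hik : i ≠ k)
    {x y z x' y' z' x'' y'' z'' s t : ℝ} (hs : 0 ≤ s) (ht : 0 ≤ t) (hst : s + t = 1)
    (e1' : x' + y' + z' = x + y + z) (e1'' : x'' + y'' + z'' = x + y + z)
    (e2' : x' ^ 2 + y' ^ 2 + z' ^ 2 = x ^ 2 + y ^ 2 + z ^ 2)
    (e2'' : x'' ^ 2 + y'' ^ 2 + z'' ^ 2 = x ^ 2 + y ^ 2 + z ^ 2)
    (e3 : x * y * z = s * (x' * y' * z') + t * (x'' * y'' * z''))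
    (w : EuclideanSpace ℝ (Fin 2)) :
    P (upd κ i j k x y z) w ≤
      s * P (upd κ i j k x' y' z') w + t * P (upd κ i j k x'' y'' z'') w := by
  unfold P
  rw [prod_upd κ hij hjk hik x y z (fun v => max (w 0 - w 1 * v) 0),
    prod_upd κ hij hjk hik x' y' z' (fun v => max (w 0 - w 1 * v) 0),
    prod_upd κ hij hjk hik x'' y'' z'' (fun v => max (w 0 - w 1 * v) 0)]
  have hR : 0 ≤ ∏ l ∈ ({i, j, k} : Finset (Fin m))ᶜ, max (w 0 - w 1 * κ l) 0 :=
    Finset.prod_nonneg fun _ _ => le_max_right _ _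
  have q' : x' * y' + y' * z' + z' * x' = x * y + y * z + z * x := by
    linear_combination (x' + y' + z' + x + y + z) / 2 * e1' - e2' / 2
  have q'' : x'' * y'' + y'' * z'' + z'' * x'' = x * y + y * z + z * x := by
    linear_combination (x'' + y'' + z'' + x + y + z) / 2 * e1'' - e2'' / 2
  have key := convex3 (α := w 0 - w 1 * x) (β := w 0 - w 1 * y) (γ := w 0 - w 1 * z)
    (α' := w 0 - w 1 * x') (β' := w 0 - w 1 * y') (γ' := w 0 - w 1 * z')
    (α'' := w 0 - w 1 * x'') (β'' := w 0 - w 1 * y'') (γ'' := w 0 - w 1 * z'') hs ht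
    (by linear_combination (- w 1) * e1') (by linear_combination (- w 1) * e1'')
    (by linear_combination (- 2 * w 0 * w 1) * e1' + (w 1) ^ 2 * q')
    (by linear_combination (- 2 * w 0 * w 1) * e1'' + (w 1) ^ 2 * q'')
    (by
      linear_combination (-(w 1) ^ 3) * e3 + (- (w 0) ^ 3 + (w 0) ^ 2 * w 1 * (x + y + z)
        - w 0 * (w 1) ^ 2 * (x * y + y * z + z * x)) * hst
        + s * ((w 0) ^ 2 * w 1 * e1') - s * w 0 * (w 1) ^ 2 * q'
        + t * ((w 0) ^ 2 * w 1 * e1'') - t * w 0 * (w 1) ^ 2 * q'')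
  linarith [mul_le_mul_of_nonneg_right key hR]

lemma J_convex {m : ℕ} (κ : Fin m → ℝ) {i j k : Fin m} (hij : i ≠ j) (hjk : j ≠ k) (hik : i ≠ k)
    {x y z x' y' z' x'' y'' z'' s t : ℝ} (hs : 0 ≤ s) (ht : 0 ≤ t) (hst : s + t = 1)
    (e1' : x' + y' + z' = x + y + z) (e1'' : x'' + y'' + z'' = x + y + z)
    (e2' : x' ^ 2 + y' ^ 2 + z' ^ 2 = x ^ 2 + y ^ 2 + z ^ 2)
    (e2'' : x'' ^ 2 + y'' ^ 2 + z'' ^ 2 = x ^ 2 + y ^ 2 + z ^ 2)
    (e3 : x * y * z = s * (x' * y' * z') + t * (x'' * y'' * z'')) :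
    J (upd κ i j k x y z) ≤
      s * J (upd κ i j k x' y' z') + t * J (upd κ i j k x'' y'' z'') := by
  unfold J
  rw [← integral_const_mul, ← integral_const_mul, ← integral_add]
  · apply integral_mono
    · exact P_integrableOn _
    · exact ((P_integrableOn _).const_mul _).add ((P_integrableOn _).const_mul _)
    · intro w
      exact P_convex κ hij hjk hik hs ht hst e1' e1'' e2' e2'' e3 w
  · exact (P_integrableOn _).const_mul _
  · exact (P_integrableOn _).const_mul _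

/-! ### The maximisation problem -/

/-- the constraint set -/
def K (m : ℕ) : Set (Fin m → ℝ) := {κ | ∑ i, κ i = 0 ∧ ∑ i, κ i ^ 2 = m}

lemma K_isClosed (m : ℕ) : IsClosed (K m) := by
  apply IsClosed.inter
  · exact isClosed_eq (by fun_prop) continuous_const
  · exact isClosed_eq (by fun_prop) continuous_const

lemma K_isCompact (m : ℕ) : IsCompact (K m) := by
  apply Metric.isCompact_of_isClosed_isBounded (K_isClosed m)
  rw [isBounded_iff_subset_closedBall 0]
  refine ⟨Real.sqrt m, ?_⟩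
  intro κ hκ
  rw [mem_closedBall_zero_iff, pi_norm_le_iff_of_nonneg (Real.sqrt_nonneg _)]
  intro i
  rw [Real.norm_eq_abs]
  apply Real.abs_le_sqrt
  rw [← hκ.2]
  exact Finset.single_le_sum (f := fun i => κ i ^ 2) (fun _ _ => sq_nonneg _) (Finset.mem_univ i)

lemma K_nonempty {m : ℕ} (hm : 2 ≤ m) : (K m).Nonempty := by
  obtain ⟨n, rfl⟩ : ∃ n, m = n + 2 := ⟨m - 2, by omega⟩
  refine ⟨Fin.cons (Real.sqrt (((n + 2 : ℕ) : ℝ) / 2))
    (Fin.cons (- Real.sqrt (((n + 2 : ℕ) : ℝ) / 2)) (fun _ => 0)), ?_, ?_⟩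
  · rw [Fin.sum_univ_succ, Fin.sum_univ_succ]
    simp
  · rw [Fin.sum_univ_succ, Fin.sum_univ_succ]
    simp only [Fin.cons_zero, Fin.cons_succ, neg_sq]
    rw [Real.sq_sqrt (by positivity)]
    simp

lemma exists_max {m : ℕ} (hm : 2 ≤ m) : ∃ κ ∈ K m, (∀ κ' ∈ K m, J κ' ≤ J κ) ∧
    ∀ i j k, κ i = κ j ∨ κ j = κ k ∨ κ i = κ k := by
  obtain ⟨κ₁, hκ₁, hmax₁⟩ := (K_isCompact m).exists_isMaxOn (K_nonempty hm)
    (J_continuous (m := m)).continuousOn
  set S : Set (Fin m → ℝ) := K m ∩ {κ | J κ = J κ₁} with hS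
  have hScomp : IsCompact S :=
    (K_isCompact m).inter_right (isClosed_eq J_continuous continuous_const)
  obtain ⟨κ, hκ, hmax⟩ := hScomp.exists_isMaxOn ⟨κ₁, hκ₁, rfl⟩
    (f := fun κ => ∑ i, κ i ^ 3) (by fun_prop)
  refine ⟨κ, hκ.1, ?_, ?_⟩
  · intro κ' hκ'
    have h : J κ = J κ₁ := hκ.2
    rw [h]
    exact hmax₁ hκ'
  · intro i j k
    by_contra hcon
    push Not at hcon
    obtain ⟨h1, h2, h3⟩ := hcon
    have hij : i ≠ j := fun h => h1 (by rw [h])
    have hjk : j ≠ k := fun h => h2 (by rw [h])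
    have hik : i ≠ k := fun h => h3 (by rw [h])
    obtain ⟨x', y', z', x'', y'', z'', a1, a2, b1, b2, c1, c2⟩ := exists_triples h1 h2 h3
    -- convex combination
    set D : ℝ := x'' * y'' * z'' - x' * y' * z' with hD
    have hDpos : 0 < D := by rw [hD]; linarith
    set s : ℝ := (x'' * y'' * z'' - κ i * κ j * κ k) / D with hs
    set t : ℝ := (κ i * κ j * κ k - x' * y' * z') / D with ht
    have hs0 : 0 < s := div_pos (by linarith) hDpos
    have ht0 : 0 < t := div_pos (by linarith) hDpos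
    have hst : s + t = 1 := by
      rw [hs, ht, ← add_div, div_eq_one_iff_eq hDpos.ne', hD]; ring
    have e3 : κ i * κ j * κ k = s * (x' * y' * z') + t * (x'' * y'' * z'') := by
      rw [hs, ht]
      field_simp
      rw [hD]; ring
    have key := J_convex κ hij hjk hik hs0.le ht0.le hst a1 a2 b1 b2 e3
    rw [upd_self] at key
    have memK : ∀ x y z : ℝ, x + y + z = κ i + κ j + κ k →
        x ^ 2 + y ^ 2 + z ^ 2 = κ i ^ 2 + κ j ^ 2 + κ k ^ 2 → upd κ i j k x y z ∈ K m := by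
      intro x y z e1 e2
      constructor
      · have A := sum_upd κ hij hjk hik x y z (fun v => v)
        have B := sum_upd κ hij hjk hik (κ i) (κ j) (κ k) (fun v => v)
        rw [upd_self] at B
        rw [A, e1, ← B]
        exact hκ.1.1
      · have A := sum_upd κ hij hjk hik x y z (fun v => v ^ 2)
        have B := sum_upd κ hij hjk hik (κ i) (κ j) (κ k) (fun v => v ^ 2)
        rw [upd_self] at B
        rw [A, e2, ← B]
        exact hκ.1.2
    have hK' := memK x' y' z' a1 b1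
    have hK'' := memK x'' y'' z'' a2 b2
    have l' : J (upd κ i j k x' y' z') ≤ J κ₁ := hmax₁ hK'
    have l'' : J (upd κ i j k x'' y'' z'') ≤ J κ₁ := hmax₁ hK''
    have hJ : J κ = J κ₁ := hκ.2
    have heq : J (upd κ i j k x'' y'' z'') = J κ₁ := by
      apply le_antisymm l''
      by_contra hlt
      push Not at hlt
      have : s * J (upd κ i j k x' y' z') + t * J (upd κ i j k x'' y'' z'')
          < s * J κ₁ + t * J κ₁ :=
        add_lt_add_of_le_of_lt (mul_le_mul_of_nonneg_left l' hs0.le)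
          (mul_lt_mul_of_pos_left hlt ht0)
      have h2 : s * J κ₁ + t * J κ₁ = J κ₁ := by rw [← add_mul, hst, one_mul]
      linarith
    have hle : ∑ l, (upd κ i j k x'' y'' z'' l) ^ 3 ≤ ∑ l, κ l ^ 3 := hmax ⟨hK'', heq⟩
    have A := sum_upd κ hij hjk hik x'' y'' z'' (fun v => v ^ 3)
    have B := sum_upd κ hij hjk hik (κ i) (κ j) (κ k) (fun v => v ^ 3)
    rw [upd_self] at B
    rw [A, B] at hle
    have id1 : x'' ^ 3 + y'' ^ 3 + z'' ^ 3 - (κ i ^ 3 + κ j ^ 3 + κ k ^ 3)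
        = 3 * (x'' * y'' * z'' - κ i * κ j * κ k) := by
      have e2 : x'' * y'' + y'' * z'' + z'' * x''
          = κ i * κ j + κ j * κ k + κ k * κ i := by
        linear_combination (x'' + y'' + z'' + κ i + κ j + κ k) / 2 * a2 - b2 / 2
      linear_combination ((x'' + y'' + z'') ^ 2 + (x'' + y'' + z'') * (κ i + κ j + κ k)
        + (κ i + κ j + κ k) ^ 2 - 3 * (x'' * y'' + y'' * z'' + z'' * x'')) * a2
        - 3 * (κ i + κ j + κ k) * e2
    linarith

end Vale.Agent.P224
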