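import Mathlib
import Vale.Agent.P224.Extremal

namespace Vale.Agent.P224

open MeasureTheory Metric Set

lemma integral_E2 (f : ℝ × ℝ → ℝ) :
    ∫ z : EuclideanSpace ℝ (Fin 2), f (z 0, z 1) = ∫ p, f p := by
  have h1 := (EuclideanSpace.volume_preserving_symm_measurableEquiv_toLp (Fin 2)).integral_comp'
    (fun g : Fin 2 → ℝ => f (g 0, g 1))
  have h2 := (volume_preserving_finTwoArrow ℝ).integral_comp' f
  rw [← h2]
  exact h1

/-- polar coordinates for the functions we need -/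
lemma polar_formula (k l : ℕ) (φ : ℝ → ℝ) :
    ∫ z : EuclideanSpace ℝ (Fin 2), φ (z 0 ^ 2 + z 1 ^ 2) * (max (z 0) 0 ^ k * max (z 1) 0 ^ l)
      = (∫ r in Ioi (0 : ℝ), r ^ (k + l + 1) * φ (r ^ 2)) *
        ∫ θ in Ioo (-Real.pi) Real.pi, max (Real.cos θ) 0 ^ k * max (Real.sin θ) 0 ^ l := by
  rw [integral_E2 (fun p => φ (p.1 ^ 2 + p.2 ^ 2) * (max p.1 0 ^ k * max p.2 0 ^ l)),
    ← integral_comp_polarCoord_symm]
  rw [← setIntegral_prod_mul]
  apply setIntegral_congr_fun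
  · exact polarCoord.open_target.measurableSet
  · intro p hp
    simp only [polarCoord_target, Set.mem_prod, mem_Ioi] at hp
    have hp1 : 0 < p.1 := hp.1
    simp only [polarCoord_symm_apply, smul_eq_mul]
    have e1 : (p.1 * Real.cos p.2) ^ 2 + (p.1 * Real.sin p.2) ^ 2 = p.1 ^ 2 := by
      have := Real.sin_sq_add_cos_sq p.2
      linear_combination p.1 ^ 2 * this
    have e2 : max (p.1 * Real.cos p.2) 0 = p.1 * max (Real.cos p.2) 0 := by
      rw [mul_max_of_nonneg _ _ hp1.le, mul_zero]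
    have e3 : max (p.1 * Real.sin p.2) 0 = p.1 * max (Real.sin p.2) 0 := by
      rw [mul_max_of_nonneg _ _ hp1.le, mul_zero]
    rw [e1, e2, e3]
    ring

lemma gauss_Ioi (k : ℕ) :
    ∫ r in Ioi (0 : ℝ), r ^ k * Real.exp (- r ^ 2) = Real.Gamma (((k : ℝ) + 1) / 2) / 2 := by
  have h := integral_rpow_mul_exp_neg_rpow (p := 2) (q := k) (by norm_num)
    (by have : (0 : ℝ) ≤ k := Nat.cast_nonneg k
        linarith)
  rw [show Real.Gamma (((k : ℝ) + 1) / 2) / 2 = 1 / 2 * Real.Gamma (((k : ℝ) + 1) / 2) by ring, ← h]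
  apply setIntegral_congr_fun measurableSet_Ioi
  intro x hx
  simp only [Real.rpow_natCast, Real.rpow_ofNat]

lemma gauss_max (k : ℕ) (hk : 1 ≤ k) :
    ∫ x : ℝ, Real.exp (- x ^ 2) * max x 0 ^ k = Real.Gamma (((k : ℝ) + 1) / 2) / 2 := by
  rw [← gauss_Ioi k, ← integral_indicator measurableSet_Ioi]
  congr 1
  funext x
  by_cases hx : 0 < x
  · rw [indicator_of_mem (by exact hx), max_eq_left hx.le]; ring
  · rw [indicator_of_notMem (by exact hx), max_eq_right (not_lt.mp hx), zero_pow (by omega),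
      mul_zero]

lemma theta_formula (k l : ℕ) (hk : 1 ≤ k) (hl : 1 ≤ l) :
    Real.Gamma (((k : ℝ) + 1) / 2) * Real.Gamma (((l : ℝ) + 1) / 2) / 4 =
      Real.Gamma (((k : ℝ) + l + 2) / 2) / 2 *
        ∫ θ in Ioo (-Real.pi) Real.pi, max (Real.cos θ) 0 ^ k * max (Real.sin θ) 0 ^ l := by
  have h := polar_formula k l (fun s => Real.exp (- s))
  have e : ∫ z : EuclideanSpace ℝ (Fin 2), Real.exp (- (z 0 ^ 2 + z 1 ^ 2)) *
      (max (z 0) 0 ^ k * max (z 1) 0 ^ l) =
      Real.Gamma (((k : ℝ) + 1) / 2) * Real.Gamma (((l : ℝ) + 1) / 2) / 4 := by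
    rw [integral_E2 (fun p => Real.exp (- (p.1 ^ 2 + p.2 ^ 2)) * (max p.1 0 ^ k * max p.2 0 ^ l))]
    have : ∀ p : ℝ × ℝ, Real.exp (- (p.1 ^ 2 + p.2 ^ 2)) * (max p.1 0 ^ k * max p.2 0 ^ l)
        = (Real.exp (- p.1 ^ 2) * max p.1 0 ^ k) * (Real.exp (- p.2 ^ 2) * max p.2 0 ^ l) := by
      intro p
      rw [neg_add, Real.exp_add]; ring
    simp_rw [this]
    rw [show (volume : Measure (ℝ × ℝ)) = (volume : Measure ℝ).prod volume from rfl,
      integral_prod_mul (fun x : ℝ => Real.exp (- x ^ 2) * max x 0 ^ k)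
      (fun y : ℝ => Real.exp (- y ^ 2) * max y 0 ^ l), gauss_max k hk, gauss_max l hl]
    ring
  rw [← e, h]
  have := gauss_Ioi (k + l + 1)
  rw [this]
  push_cast
  ring_nf

lemma disc_formula (k l : ℕ) (hk : 1 ≤ k) (hl : 1 ≤ l) :
    ∫ z in closedBall (0 : EuclideanSpace ℝ (Fin 2)) 1, max (z 0) 0 ^ k * max (z 1) 0 ^ l =
      Real.Gamma (((k : ℝ) + 1) / 2) * Real.Gamma (((l : ℝ) + 1) / 2) /
        (4 * Real.Gamma (((k : ℝ) + l) / 2 + 2)) := by
  have h := polar_formula k l (fun s => if s ≤ 1 then 1 else 0)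
  have e1 : ∫ z in closedBall (0 : EuclideanSpace ℝ (Fin 2)) 1, max (z 0) 0 ^ k * max (z 1) 0 ^ l
      = ∫ z : EuclideanSpace ℝ (Fin 2), (if z 0 ^ 2 + z 1 ^ 2 ≤ 1 then (1 : ℝ) else 0) *
        (max (z 0) 0 ^ k * max (z 1) 0 ^ l) := by
    rw [← integral_indicator measurableSet_closedBall]
    congr 1
    funext z
    have : z ∈ closedBall (0 : EuclideanSpace ℝ (Fin 2)) 1 ↔ z 0 ^ 2 + z 1 ^ 2 ≤ 1 := by
      rw [mem_closedBall_zero_iff, EuclideanSpace.norm_eq, Real.sqrt_le_one]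
      simp [Fin.sum_univ_two]
    by_cases hz : z ∈ closedBall (0 : EuclideanSpace ℝ (Fin 2)) 1
    · rw [indicator_of_mem hz, if_pos (this.mp hz), one_mul]
    · rw [indicator_of_notMem hz, if_neg (fun h => hz (this.mpr h)), zero_mul]
  have e2 : ∫ r in Ioi (0 : ℝ), r ^ (k + l + 1) * (if r ^ 2 ≤ 1 then (1 : ℝ) else 0)
      = 1 / ((k : ℝ) + l + 2) := by
    have : ∫ r in Ioi (0 : ℝ), r ^ (k + l + 1) * (if r ^ 2 ≤ 1 then (1 : ℝ) else 0)
        = ∫ r in (0 : ℝ)..1, r ^ (k + l + 1) := by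
      rw [intervalIntegral.integral_of_le zero_le_one, ← integral_indicator measurableSet_Ioi,
        ← integral_indicator measurableSet_Ioc]
      congr 1
      funext r
      by_cases hr : 0 < r
      · rw [indicator_of_mem (by exact hr)]
        by_cases hr1 : r ≤ 1
        · rw [indicator_of_mem (by exact ⟨hr, hr1⟩), if_pos (by nlinarith), mul_one]
        · rw [indicator_of_notMem (by intro h; exact hr1 h.2), if_neg (by push Not at *; nlinarith),
            mul_zero]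
      · rw [indicator_of_notMem (by exact hr), indicator_of_notMem (by intro h; exact hr h.1)]
    rw [this, integral_pow]
    push_cast
    norm_num
    ring_nf
  rw [e1, h, e2]
  have ht := theta_formula k l hk hl
  set Θ := ∫ θ in Ioo (-Real.pi) Real.pi, max (Real.cos θ) 0 ^ k * max (Real.sin θ) 0 ^ l
  have hG : Real.Gamma (((k : ℝ) + l) / 2 + 2)
      = (((k : ℝ) + l) / 2 + 1) * Real.Gamma (((k : ℝ) + l + 2) / 2) := by
    rw [show ((k : ℝ) + l) / 2 + 2 = (((k : ℝ) + l) / 2 + 1) + 1 by ring,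
      Real.Gamma_add_one (by positivity)]
    congr 2
    ring
  have hpos : 0 < Real.Gamma (((k : ℝ) + l + 2) / 2) := Real.Gamma_pos_of_pos (by positivity)
  rw [hG]
  have hk' : (0 : ℝ) < (k : ℝ) + l + 2 := by positivity
  field_simp
  field_simp at ht
  linarith [ht]

/-- rotation of the plane -/
lemma exists_rot (c s : ℝ) (h : c ^ 2 + s ^ 2 = 1) :
    ∃ R : EuclideanSpace ℝ (Fin 2) ≃ₗᵢ[ℝ] EuclideanSpace ℝ (Fin 2),
      ∀ z, (R z) 0 = c * z 0 - s * z 1 ∧ (R z) 1 = s * z 0 + c * z 1 := by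
  let L : EuclideanSpace ℝ (Fin 2) →ₗ[ℝ] EuclideanSpace ℝ (Fin 2) :=
    { toFun := fun z => !₂[c * z 0 - s * z 1, s * z 0 + c * z 1]
      map_add' := by
        intro x y
        ext i
        fin_cases i <;> simp <;> ring
      map_smul' := by
        intro a x
        ext i
        fin_cases i <;> simp <;> ring }
  let Li : EuclideanSpace ℝ (Fin 2) →ₗᵢ[ℝ] EuclideanSpace ℝ (Fin 2) :=
    { L with
      norm_map' := by
        intro z
        rw [EuclideanSpace.norm_eq, EuclideanSpace.norm_eq]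
        congr 1
        simp only [Fin.sum_univ_two, Real.norm_eq_abs, sq_abs]
        simp only [L, LinearMap.coe_mk, AddHom.coe_mk]
        simp only [PiLp.toLp_apply, Matrix.cons_val_zero, Matrix.cons_val_one]
        linear_combination (z 0 ^ 2 + z 1 ^ 2) * h }
  refine ⟨Li.toLinearIsometryEquiv rfl, ?_⟩
  intro z
  constructor
  · simp [Li, L]
  · simp [Li, L]

lemma rot_integral (c s : ℝ) (h : c ^ 2 + s ^ 2 = 1) (g : ℝ → ℝ → ℝ) :
    ∫ z in closedBall (0 : EuclideanSpace ℝ (Fin 2)) 1, g (c * z 0 - s * z 1) (s * z 0 + c * z 1)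
      = ∫ z in closedBall (0 : EuclideanSpace ℝ (Fin 2)) 1, g (z 0) (z 1) := by
  obtain ⟨R, hR⟩ := exists_rot c s h
  have hpre : R ⁻¹' closedBall (0 : EuclideanSpace ℝ (Fin 2)) 1 = closedBall 0 1 := by
    ext z
    simp
  have := R.measurePreserving.setIntegral_preimage_emb R.toHomeomorph.measurableEmbedding
    (fun z => g (z 0) (z 1)) (closedBall 0 1)
  rw [hpre] at this
  rw [← this]
  simp_rw [fun z => (hR z).1, fun z => (hR z).2]

end Vale.Agent.P224
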