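import Mathlib
import Vale.Agent.P224.Defs
import Vale.Agent.P224.Disc

namespace Vale.Agent.P224

open MeasureTheory Metric Set

/-- volume of the unit ball of dimension m + 2 -/
noncomputable def ballVol (m : ℕ) : ℝ := Real.pi ^ (((m : ℝ) + 2) / 2) / Real.Gamma ((m : ℝ) / 2 + 2)

lemma sphereVol_pos (k : ℕ) : 0 < sphereVol k := by
  unfold sphereVol
  have := Real.Gamma_pos_of_pos (s := ((k : ℝ) + 1) / 2) (by positivity)
  have := Real.pi_pos
  positivity

lemma cliffordVol_pos {m k : ℕ} (hk : 1 ≤ k) (hkm : k < m) : 0 < cliffordVol m k := by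
  unfold cliffordVol
  have h1 := sphereVol_pos k
  have h2 := sphereVol_pos (m - k)
  have h3 : (0 : ℝ) < k := by exact_mod_cast hk
  have h4 : (0 : ℝ) < ((m - k : ℕ) : ℝ) := by
    have : 0 < m - k := by omega
    exact_mod_cast this
  have h5 : (0 : ℝ) < m := by
    have : 0 < m := by omega
    exact_mod_cast this
  positivity

lemma two_valued_eval {m k : ℕ} (hk : 1 ≤ k) (hkm : k < m) (κ : Fin m → ℝ)
    (hP : ∀ z, P κ z = max (z 0 - z 1 * (Real.sqrt (((m - k : ℕ) : ℝ) / m) / Real.sqrt ((k : ℝ) / m))) 0 ^ k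
      * max (z 0 + z 1 * (Real.sqrt ((k : ℝ) / m) / Real.sqrt (((m - k : ℕ) : ℝ) / m))) 0 ^ (m - k)) :
    J κ * cliffordVol m k = ballVol m := by
  have h3 : (0 : ℝ) < k := by exact_mod_cast hk
  have h4 : (0 : ℝ) < ((m - k : ℕ) : ℝ) := by
    have : 0 < m - k := by omega
    exact_mod_cast this
  have h5 : (0 : ℝ) < m := by
    have : 0 < m := by omega
    exact_mod_cast this
  set c : ℝ := Real.sqrt ((k : ℝ) / m) with hc
  set s : ℝ := Real.sqrt (((m - k : ℕ) : ℝ) / m) with hs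
  have hc0 : 0 < c := Real.sqrt_pos.mpr (by positivity)
  have hs0 : 0 < s := Real.sqrt_pos.mpr (by positivity)
  have hc2 : c ^ 2 = (k : ℝ) / m := Real.sq_sqrt (by positivity)
  have hs2 : s ^ 2 = ((m - k : ℕ) : ℝ) / m := Real.sq_sqrt (by positivity)
  have hcast : ((m - k : ℕ) : ℝ) = (m : ℝ) - k := by
    rw [Nat.cast_sub hkm.le]
  have hcs : c ^ 2 + s ^ 2 = 1 := by
    rw [hc2, hs2, hcast]; field_simp; ring
  have e : ∀ z, P κ z = (c ^ k)⁻¹ * (s ^ (m - k))⁻¹ *
      (max (c * z 0 - s * z 1) 0 ^ k * max (s * z 0 + c * z 1) 0 ^ (m - k)) := by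
    intro z
    rw [hP z]
    have a1 : max (z 0 - z 1 * (s / c)) 0 = c⁻¹ * max (c * z 0 - s * z 1) 0 := by
      rw [mul_max_of_nonneg _ _ (by positivity), mul_zero]
      congr 1
      field_simp
    have a2 : max (z 0 + z 1 * (c / s)) 0 = s⁻¹ * max (s * z 0 + c * z 1) 0 := by
      rw [mul_max_of_nonneg _ _ (by positivity), mul_zero]
      congr 1
      field_simp
    rw [a1, a2, mul_pow, mul_pow, inv_pow, inv_pow]
    ring
  have hJ : J κ = (c ^ k)⁻¹ * (s ^ (m - k))⁻¹ *
      (Real.Gamma (((k : ℝ) + 1) / 2) * Real.Gamma ((((m - k : ℕ) : ℝ) + 1) / 2) /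
        (4 * Real.Gamma (((k : ℝ) + (m - k : ℕ)) / 2 + 2))) := by
    unfold J
    simp_rw [e]
    rw [integral_const_mul, rot_integral c s hcs (fun a b => max a 0 ^ k * max b 0 ^ (m - k)),
      disc_formula k (m - k) hk (by omega)]
  have hcl : cliffordVol m k = c ^ k * s ^ (m - k) * sphereVol k * sphereVol (m - k) := by
    unfold cliffordVol
    have b1 : ((k : ℝ) / m) ^ ((k : ℝ) / 2) = c ^ k := by
      rw [hc, Real.sqrt_eq_rpow, ← Real.rpow_natCast, ← Real.rpow_mul (by positivity)]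
      congr 1; ring
    have b2 : (((m - k : ℕ) : ℝ) / m) ^ (((m - k : ℕ) : ℝ) / 2) = s ^ (m - k) := by
      rw [hs, Real.sqrt_eq_rpow, ← Real.rpow_natCast, ← Real.rpow_mul (by positivity)]
      congr 1; ring
    rw [b1, b2]
  have g1 : 0 < Real.Gamma (((k : ℝ) + 1) / 2) := Real.Gamma_pos_of_pos (by positivity)
  have g2 : 0 < Real.Gamma ((((m - k : ℕ) : ℝ) + 1) / 2) := Real.Gamma_pos_of_pos (by positivity)
  have g3 : 0 < Real.Gamma ((m : ℝ) / 2 + 2) := Real.Gamma_pos_of_pos (by positivity)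
  have hsum : ((k : ℝ) + (m - k : ℕ)) = m := by rw [hcast]; ring
  have hpi : Real.pi ^ (((m : ℝ) + 2) / 2)
      = Real.pi ^ (((k : ℝ) + 1) / 2) * Real.pi ^ ((((m - k : ℕ) : ℝ) + 1) / 2) := by
    rw [← Real.rpow_add Real.pi_pos]
    congr 1
    rw [hcast]; ring
  rw [hJ, hcl, hsum]
  unfold sphereVol ballVol
  rw [hpi]
  field_simp
  ring

lemma aux_sqrt {m k l x : ℝ} (hk : 0 < k) (hl : 0 < l) (hm : 0 < m) (hx : 0 < x)
    (hx2 : x ^ 2 = l / k) : x = Real.sqrt (l / m) / Real.sqrt (k / m) := by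
  rw [← Real.sqrt_div' _ (by positivity)]
  rw [eq_comm, Real.sqrt_eq_iff_mul_self_eq (by positivity) hx.le]
  rw [← pow_two, hx2]
  field_simp

lemma two_valued_struct {m : ℕ} (hm : 2 ≤ m) (κ : Fin m → ℝ) (hκ : κ ∈ K m)
    (h3 : ∀ i j k, κ i = κ j ∨ κ j = κ k ∨ κ i = κ k) :
    ∃ k, 1 ≤ k ∧ k < m ∧ ∀ z, P κ z =
      max (z 0 - z 1 * (Real.sqrt (((m - k : ℕ) : ℝ) / m) / Real.sqrt ((k : ℝ) / m))) 0 ^ k
      * max (z 0 + z 1 * (Real.sqrt ((k : ℝ) / m) / Real.sqrt (((m - k : ℕ) : ℝ) / m))) 0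
        ^ (m - k) := by
  obtain ⟨hsum, hsq⟩ := hκ
  have hm0 : (0 : ℝ) < m := by
    have : 0 < m := by omega
    exact_mod_cast this
  -- a positive value
  obtain ⟨i, -, hi⟩ : ∃ i ∈ Finset.univ, 0 < κ i := by
    by_contra hcon
    push Not at hcon
    have h0 : ∀ i ∈ Finset.univ, κ i = 0 := by
      have := (Finset.sum_eq_zero_iff_of_nonpos (s := Finset.univ) (f := κ) hcon).mp hsum
      exact this
    have : ∑ i, κ i ^ 2 = 0 := Finset.sum_eq_zero fun i hi => by rw [h0 i hi]; ring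
    rw [this] at hsq
    linarith
  obtain ⟨j, -, hj⟩ : ∃ j ∈ Finset.univ, κ j < 0 := by
    by_contra hcon
    push Not at hcon
    have h0 : ∀ i ∈ Finset.univ, κ i = 0 :=
      (Finset.sum_eq_zero_iff_of_nonneg (s := Finset.univ) (f := κ) hcon).mp hsum
    have := h0 i (Finset.mem_univ i)
    linarith
  have hval : ∀ l, κ l ≠ κ i → κ l = κ j := by
    intro l hl
    rcases h3 i j l with h | h | h
    · linarith
    · exact h.symm
    · exact absurd h.symm hl
  set S : Finset (Fin m) := Finset.univ.filter (fun l => κ l = κ i) with hS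
  set x := κ i with hx
  set y := κ j with hy
  set k := S.card with hk
  have hSc : Sᶜ.card = m - k := by rw [Finset.card_compl, Fintype.card_fin]
  have hk1 : 1 ≤ k := by
    rw [hk, Nat.one_le_iff_ne_zero, Finset.card_ne_zero]
    exact ⟨i, by simp [hS, hx]⟩
  have hkm : k < m := by
    have : k ≤ m := by
      have := Finset.card_le_univ S
      rwa [Fintype.card_fin] at this
    rcases this.lt_or_eq with h | h
    · exact h
    · exfalso
      have hu : S = Finset.univ := by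
        rw [← Finset.card_eq_iff_eq_univ, Fintype.card_fin]; exact h
      have : j ∈ S := by rw [hu]; exact Finset.mem_univ j
      simp only [hS, Finset.mem_filter, Finset.mem_univ, true_and] at this
      linarith
  have sumf : ∀ f : ℝ → ℝ, ∑ l, f (κ l) = k * f x + ((m - k : ℕ) : ℝ) * f y := by
    intro f
    rw [← Finset.sum_add_sum_compl S]
    congr 1
    · rw [Finset.sum_congr rfl (g := fun _ => f x)]
      · rw [Finset.sum_const, nsmul_eq_mul]
      · intro l hl
        simp only [hS, Finset.mem_filter, Finset.mem_univ, true_and] at hl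
        rw [hl]
    · rw [Finset.sum_congr rfl (g := fun _ => f y)]
      · rw [Finset.sum_const, nsmul_eq_mul, hSc]
      · intro l hl
        simp only [hS, Finset.mem_compl, Finset.mem_filter, Finset.mem_univ, true_and] at hl
        rw [hval l hl]
  have prodf : ∀ f : ℝ → ℝ, ∏ l, f (κ l) = f x ^ k * f y ^ (m - k) := by
    intro f
    rw [← Finset.prod_mul_prod_compl S]
    congr 1
    · rw [Finset.prod_congr rfl (g := fun _ => f x)]
      · rw [Finset.prod_const]
      · intro l hl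
        simp only [hS, Finset.mem_filter, Finset.mem_univ, true_and] at hl
        rw [hl]
    · rw [Finset.prod_congr rfl (g := fun _ => f y)]
      · rw [Finset.prod_const, hSc]
      · intro l hl
        simp only [hS, Finset.mem_compl, Finset.mem_filter, Finset.mem_univ, true_and] at hl
        rw [hval l hl]
  have s1 := sumf (fun v => v)
  have s2 := sumf (fun v => v ^ 2)
  simp only [hsum] at s1
  simp only [hsq] at s2
  have hk0 : (0 : ℝ) < k := by exact_mod_cast hk1
  have hmk0 : (0 : ℝ) < ((m - k : ℕ) : ℝ) := by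
    have : 0 < m - k := by omega
    exact_mod_cast this
  have hcast : ((m - k : ℕ) : ℝ) = (m : ℝ) - k := by rw [Nat.cast_sub hkm.le]
  -- x ^ 2 = (m - k) / k
  have hyx : y = - (k * x) / ((m - k : ℕ) : ℝ) := by
    field_simp
    linarith
  have hx2 : x ^ 2 = ((m - k : ℕ) : ℝ) / k := by
    rw [hyx] at s2
    rw [hcast] at s2 hmk0 ⊢
    have h1 : (m : ℝ) - k ≠ 0 := hmk0.ne'
    field_simp at s2 ⊢
    have h2 : (m : ℝ) ≠ 0 := hm0.ne'
    have : (m : ℝ) * (k * x ^ 2 - (m - k)) = 0 := by linarith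
    rcases mul_eq_zero.mp this with h | h
    · exact absurd h h2
    · linarith
  have hxe : x = Real.sqrt (((m - k : ℕ) : ℝ) / m) / Real.sqrt ((k : ℝ) / m) :=
    aux_sqrt hk0 hmk0 hm0 hi hx2
  have hye : y = - (Real.sqrt ((k : ℝ) / m) / Real.sqrt (((m - k : ℕ) : ℝ) / m)) := by
    have hy2 : (- y) ^ 2 = (k : ℝ) / ((m - k : ℕ) : ℝ) := by
      rw [neg_sq, hyx, div_pow, neg_sq, mul_pow, hx2]
      field_simp
    have := aux_sqrt hmk0 hk0 hm0 (neg_pos.mpr hj) hy2
    linarith
  refine ⟨k, hk1, hkm, ?_⟩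
  intro z
  unfold P
  rw [prodf (fun v => max (z 0 - z 1 * v) 0), ← hxe]
  congr 2
  rw [hye]
  ring_nf

/-- The extremal inequality on the constraint set. -/
theorem J_le_of_mem_K {m : ℕ} (hm : 2 ≤ m) (κ : Fin m → ℝ) (hκ : κ ∈ K m) :
    J κ * leastClifford m ≤ ballVol m := by
  obtain ⟨κ₀, hκ₀, hmax, h3⟩ := exists_max hm
  obtain ⟨k, hk1, hkm, hP⟩ := two_valued_struct hm κ₀ hκ₀ h3
  have hev := two_valued_eval hk1 hkm κ₀ hP
  have hle : leastClifford m ≤ cliffordVol m k := by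
    unfold leastClifford
    have hb : BddBelow (Set.range fun k : Set.Ico 1 m => cliffordVol m k) := by
      refine ⟨0, ?_⟩
      rintro _ ⟨l, rfl⟩
      exact (cliffordVol_pos l.2.1 l.2.2).le
    exact ciInf_le hb ⟨k, hk1, hkm⟩
  rw [← hev]
  have hJ := hmax κ hκ
  have h0 := J_nonneg κ
  have h1 := J_nonneg κ₀
  calc J κ * leastClifford m ≤ J κ * cliffordVol m k := mul_le_mul_of_nonneg_left hle h0
    _ ≤ J κ₀ * cliffordVol m k := mul_le_mul_of_nonneg_right hJ (cliffordVol_pos hk1 hkm).le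

end Vale.Agent.P224
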