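import Mathlib
import Vale.Agent.P224.TwoValued

namespace Vale.Agent.P224

open MeasureTheory Metric Set

lemma P_scale {m : ℕ} (hm : 0 < m) (κ : Fin m → ℝ) (hsum : ∑ i, κ i = 0) {τ : ℝ} (h0 : 0 ≤ τ)
    (h1 : τ ≤ 1) (z : EuclideanSpace ℝ (Fin 2)) : P κ z ≤ P (fun i => τ * κ i) z := by
  by_cases hpos : ∀ i, 0 < z 0 - z 1 * κ i
  swap
  · push Not at hpos
    obtain ⟨i, hi⟩ := hpos
    have : P κ z = 0 := by
      unfold P
      apply Finset.prod_eq_zero (Finset.mem_univ i)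
      exact max_eq_right hi
    rw [this]
    exact P_nonneg _ _
  have hm' : (0 : ℝ) < m := by exact_mod_cast hm
  have hz : 0 < z 0 := by
    have : 0 < ∑ i : Fin m, (z 0 - z 1 * κ i) := by
      apply Finset.sum_pos (fun i _ => hpos i)
      exact ⟨⟨0, hm⟩, Finset.mem_univ _⟩
    rw [Finset.sum_sub_distrib, ← Finset.mul_sum, hsum, Finset.sum_const, Finset.card_univ,
      Fintype.card_fin, nsmul_eq_mul, mul_zero, sub_zero] at this
    exact (pos_iff_pos_of_mul_pos this).mp hm'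
  have hP : P κ z = ∏ i, (z 0 - z 1 * κ i) := by
    unfold P
    exact Finset.prod_congr rfl fun i _ => max_eq_left (hpos i).le
  have hPpos : 0 < ∏ i, (z 0 - z 1 * κ i) := Finset.prod_pos fun i _ => hpos i
  have hAG : ∏ i, (z 0 - z 1 * κ i) ≤ z 0 ^ m := by
    have h : ∀ i, z 0 - z 1 * κ i ≤ z 0 * Real.exp (- z 1 * κ i / z 0) := by
      intro i
      have := Real.add_one_le_exp (- z 1 * κ i / z 0)
      have h2 := mul_le_mul_of_nonneg_left this hz.le
      have h3 : z 0 * (- z 1 * κ i / z 0 + 1) = z 0 - z 1 * κ i := by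
        field_simp
        ring
      linarith
    calc ∏ i, (z 0 - z 1 * κ i) ≤ ∏ i, (z 0 * Real.exp (- z 1 * κ i / z 0)) :=
          Finset.prod_le_prod (fun i _ => (hpos i).le) (fun i _ => h i)
      _ = z 0 ^ m := by
          rw [Finset.prod_mul_distrib, ← Real.exp_sum, Finset.prod_const, Finset.card_univ,
            Fintype.card_fin, ← Finset.sum_div, ← Finset.mul_sum, hsum]
          simp
  have hge : (z 0 ^ m) ^ (1 - τ) * (∏ i, (z 0 - z 1 * κ i)) ^ τ ≤ P (fun i => τ * κ i) z := by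
    unfold P
    calc (z 0 ^ m) ^ (1 - τ) * (∏ i, (z 0 - z 1 * κ i)) ^ τ
        = ∏ i, (z 0 ^ (1 - τ) * (z 0 - z 1 * κ i) ^ τ) := by
          rw [Finset.prod_mul_distrib, Real.finsetProd_rpow _ _ (fun i _ => (hpos i).le),
            Finset.prod_const, Finset.card_univ, Fintype.card_fin, ← Real.rpow_natCast,
            ← Real.rpow_natCast, ← Real.rpow_mul hz.le, ← Real.rpow_mul hz.le, mul_comm (m : ℝ)]
      _ ≤ ∏ i, max (z 0 - z 1 * (τ * κ i)) 0 := by
          apply Finset.prod_le_prod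
          · intro i _
            exact mul_nonneg (Real.rpow_nonneg hz.le _) (Real.rpow_nonneg (hpos i).le _)
          · intro i _
            have := Real.geom_mean_le_arith_mean2_weighted (w₁ := 1 - τ) (w₂ := τ)
              (p₁ := z 0) (p₂ := z 0 - z 1 * κ i) (by linarith) h0 hz.le (hpos i).le (by ring)
            refine this.trans ((le_of_eq ?_).trans (le_max_left _ _))
            ring
  refine le_trans ?_ hge
  rw [hP]
  calc ∏ i, (z 0 - z 1 * κ i)
      = (∏ i, (z 0 - z 1 * κ i)) ^ (1 - τ) * (∏ i, (z 0 - z 1 * κ i)) ^ τ := by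
        rw [← Real.rpow_add hPpos]; simp
    _ ≤ (z 0 ^ m) ^ (1 - τ) * (∏ i, (z 0 - z 1 * κ i)) ^ τ :=
        mul_le_mul_of_nonneg_right (Real.rpow_le_rpow hPpos.le hAG (by linarith))
          (Real.rpow_nonneg hPpos.le _)

lemma J_scale {m : ℕ} (hm : 0 < m) (κ : Fin m → ℝ) (hsum : ∑ i, κ i = 0) {τ : ℝ} (h0 : 0 ≤ τ)
    (h1 : τ ≤ 1) : J κ ≤ J (fun i => τ * κ i) := by
  unfold J
  exact integral_mono (P_integrableOn _) (P_integrableOn _) fun z => P_scale hm κ hsum h0 h1 z

lemma leastClifford_nonneg (m : ℕ) : 0 ≤ leastClifford m := by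
  unfold leastClifford
  apply Real.iInf_nonneg
  intro k
  exact (cliffordVol_pos k.2.1 k.2.2).le

/-- The extremal inequality. -/
theorem J_le {m : ℕ} (hm : 2 ≤ m) (κ : Fin m → ℝ) (hsum : ∑ i, κ i = 0)
    (hsq : (m : ℝ) ≤ ∑ i, κ i ^ 2) : J κ * leastClifford m ≤ ballVol m := by
  have hm' : (0 : ℝ) < m := by
    have : 0 < m := by omega
    exact_mod_cast this
  set Q := ∑ i, κ i ^ 2 with hQ
  have hQ0 : 0 < Q := lt_of_lt_of_le hm' hsq
  set τ : ℝ := Real.sqrt (m / Q) with hτ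
  have h0 : 0 ≤ τ := Real.sqrt_nonneg _
  have h1 : τ ≤ 1 := by
    rw [hτ, Real.sqrt_le_one]
    exact (div_le_one hQ0).mpr hsq
  have hmem : (fun i => τ * κ i) ∈ K m := by
    constructor
    · rw [← Finset.mul_sum, hsum, mul_zero]
    · simp_rw [mul_pow]
      rw [← Finset.mul_sum, ← hQ, hτ, Real.sq_sqrt (by positivity)]
      field_simp
  exact (mul_le_mul_of_nonneg_right (J_scale (by omega) κ hsum h0 h1)
    (leastClifford_nonneg m)).trans (J_le_of_mem_K hm _ hmem)

end Vale.Agent.P224
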