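import Mathlib
import Vale.Agent.P224.Local
import Vale.Agent.P224.Extremal

namespace Vale.Agent.P224

open MeasureTheory Metric Set Matrix
open scoped RealInnerProductSpace ContDiff

variable {m : ℕ} {f : EuclideanSpace ℝ (Fin m) → EuclideanSpace ℝ (Fin (m + 2))}
  {T : Set (EuclideanSpace ℝ (Fin m))}

/-- the normal map -/
noncomputable def Phi (f : EuclideanSpace ℝ (Fin m) → EuclideanSpace ℝ (Fin (m + 2)))
    (p : EuclideanSpace ℝ (Fin m) × EuclideanSpace ℝ (Fin 2)) : EuclideanSpace ℝ (Fin (m + 2)) :=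
  p.2 0 • f p.1 + p.2 1 • nu f p.1

/-- its derivative -/
noncomputable def dPhi (f : EuclideanSpace ℝ (Fin m) → EuclideanSpace ℝ (Fin (m + 2)))
    (p : EuclideanSpace ℝ (Fin m) × EuclideanSpace ℝ (Fin 2)) :
    EuclideanSpace ℝ (Fin m) × EuclideanSpace ℝ (Fin 2) →L[ℝ] EuclideanSpace ℝ (Fin (m + 2)) :=
  (p.2 0 • fderiv ℝ f p.1 + p.2 1 • fderiv ℝ (nu f) p.1).comp (ContinuousLinearMap.fst ℝ _ _) +
    ((EuclideanSpace.proj (𝕜 := ℝ) (0 : Fin 2)).smulRight (f p.1) +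
      (EuclideanSpace.proj (𝕜 := ℝ) (1 : Fin 2)).smulRight (nu f p.1)).comp
      (ContinuousLinearMap.snd ℝ _ _)

lemma Imm.hasFDerivAt_Phi (h : Imm f T) {p : EuclideanSpace ℝ (Fin m) × EuclideanSpace ℝ (Fin 2)}
    (hp : p.1 ∈ T) : HasFDerivAt (Phi f) (dPhi f p) p := by
  have h1 : HasFDerivAt (fun q : EuclideanSpace ℝ (Fin m) × EuclideanSpace ℝ (Fin 2) => f q.1)
      ((fderiv ℝ f p.1).comp (ContinuousLinearMap.fst ℝ _ _)) p :=
    (h.diffAt hp).hasFDerivAt.comp p hasFDerivAt_fst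
  have h2 : HasFDerivAt (fun q : EuclideanSpace ℝ (Fin m) × EuclideanSpace ℝ (Fin 2) => nu f q.1)
      ((fderiv ℝ (nu f) p.1).comp (ContinuousLinearMap.fst ℝ _ _)) p :=
    (h.diffAt_nu hp).hasFDerivAt.comp p hasFDerivAt_fst
  have h3 : ∀ i : Fin 2, HasFDerivAt
      (fun q : EuclideanSpace ℝ (Fin m) × EuclideanSpace ℝ (Fin 2) => q.2 i)
      ((EuclideanSpace.proj (𝕜 := ℝ) i).comp (ContinuousLinearMap.snd ℝ _ _)) p := by
    intro i
    exact ((EuclideanSpace.proj (𝕜 := ℝ) i).hasFDerivAt).comp p hasFDerivAt_snd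
  have h4 := ((h3 0).smul h1).add ((h3 1).smul h2)
  refine h4.congr_fderiv ?_
  ext q
  · simp [dPhi]
  · simp [dPhi]

lemma Imm.det_dPhi (h : Imm f T) {p : EuclideanSpace ℝ (Fin m) × EuclideanSpace ℝ (Fin 2)}
    (hp : p.1 ∈ T) :
    |((Te m : _ →L[ℝ] _).comp (dPhi f p)).det| * Real.sqrt (G f p.1).det
      = |(p.2 0 • G f p.1 - p.2 1 • H f p.1).det| := by
  rw [det_Te_comp]
  set c : Fin m ⊕ Fin 2 → EuclideanSpace ℝ (Fin (m + 2)) :=
    Sum.elim (fun i => (dPhi f p) (EuclideanSpace.single i 1, 0))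
        (fun j => (dPhi f p) (0, EuclideanSpace.single j 1)) with hc
  have c1 : ∀ i, c (Sum.inl i) = p.2 0 • D1 f i p.1 + p.2 1 • dnu f i p.1 := by
    intro i
    simp [hc, dPhi, D1, dnu]
  have c2 : c (Sum.inr 0) = f p.1 := by simp [hc, dPhi]
  have c3 : c (Sum.inr 1) = nu f p.1 := by simp [hc, dPhi]
  have hf1 := h.unit p.1 hp
  have hn1 := h.norm_nu hp
  have hnf := inner_nu_f (f := f) p.1
  have hfn : ⟪f p.1, nu f p.1⟫ = 0 := by rw [real_inner_comm]; exact hnf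
  have hnd := fun i => inner_nu_D1 (f := f) p.1 i
  have hdn : ∀ i, ⟪D1 f i p.1, nu f p.1⟫ = 0 := fun i => by
    rw [real_inner_comm]; exact hnd i
  have hprod : (Mat (frame (fun i => D1 f i p.1) (f p.1) (nu f p.1)))ᵀ * Mat c
      = fromBlocks (p.2 0 • G f p.1 - p.2 1 • (H f p.1)ᵀ) 0 0 1 := by
    rw [Mat_transpose_mul]
    ext s t
    rcases s with s | s <;> rcases t with t | t
    · simp only [of_apply, c1, frame, Sum.elim_inl, inner_add_right, inner_smul_right,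
        fromBlocks_apply₁₁, Matrix.sub_apply, Matrix.smul_apply, smul_eq_mul, transpose_apply,
        h.inner_D1_dnu hp]
      simp only [G, gram_apply]
      ring
    · fin_cases t
      · simp [c2, frame, h.inner_D1_f hp]
      · simp [c3, frame, hdn]
    · fin_cases s
      · simp [c1, frame, inner_add_right, inner_smul_right, h.inner_f_D1 hp, h.inner_f_dnu hp]
      · simp [c1, frame, inner_add_right, inner_smul_right, hnd, h.inner_dnu_nu hp]
    · fin_cases s <;> fin_cases t <;> simp [c2, c3, frame, hf1, hn1, hfn, hnf]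
  have hdet := congrArg Matrix.det hprod
  rw [det_mul, det_transpose, det_fromBlocks_zero₂₁, det_one, mul_one, h.H_symm hp] at hdet
  have hsq := frame_det_sq (fun i => D1 f i p.1) (f p.1) (nu f p.1) hf1 hn1 hfn
    (fun i => h.inner_D1_f hp i) hdn
  have hsqrt : Real.sqrt (G f p.1).det
      = |(Mat (frame (fun i => D1 f i p.1) (f p.1) (nu f p.1))).det| := by
    rw [← Real.sqrt_sq_eq_abs, hsq]
    rfl
  rw [hsqrt, ← hdet, abs_mul, mul_comm]

end Vale.Agent.P224
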