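import Mathlib
import Vale.Agent.P224.Jacobian

namespace Vale.Agent.P224

open MeasureTheory Metric Set Matrix
open scoped RealInnerProductSpace ContDiff ENNReal

variable {m : ℕ} {f : EuclideanSpace ℝ (Fin m) → EuclideanSpace ℝ (Fin (m + 2))}
  {T S : Set (EuclideanSpace ℝ (Fin m))}

/-- principal curvatures of the pair of forms -/
def IsKappa (G H : Matrix (Fin m) (Fin m) ℝ) (κ : Fin m → ℝ) : Prop :=
  (G⁻¹ * H).trace = ∑ i, κ i ∧ ((G⁻¹ * H) * (G⁻¹ * H)).trace = ∑ i, κ i ^ 2 ∧
      (∀ a b : ℝ, (a • G - b • H).det = G.det * ∏ i, (a - b * κ i)) ∧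
      (∀ a b : ℝ, (∀ v : Fin m → ℝ, 0 ≤ v ⬝ᵥ ((a • G - b • H) *ᵥ v)) → ∀ i, 0 ≤ a - b * κ i)

/-- the pencil -/
noncomputable def Pen (f : EuclideanSpace ℝ (Fin m) → EuclideanSpace ℝ (Fin (m + 2)))
    (p : EuclideanSpace ℝ (Fin m) × EuclideanSpace ℝ (Fin 2)) : Matrix (Fin m) (Fin m) ℝ :=
  p.2 0 • G f p.1 - p.2 1 • H f p.1

/-- the domain of the normal map -/
def Dom (f : EuclideanSpace ℝ (Fin m) → EuclideanSpace ℝ (Fin (m + 2)))
    (S : Set (EuclideanSpace ℝ (Fin m))) :
    Set (EuclideanSpace ℝ (Fin m) × EuclideanSpace ℝ (Fin 2)) :=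
  {p | p.1 ∈ S ∧ p.2 ∈ closedBall (0 : EuclideanSpace ℝ (Fin 2)) 1 ∧
    ∀ v : Fin m → ℝ, 0 ≤ v ⬝ᵥ (Pen f p *ᵥ v)}

lemma continuousOn_matrix {X : Type*} [TopologicalSpace X] {A : X → Matrix (Fin m) (Fin m) ℝ}
    {s : Set X} (h : ∀ i j, ContinuousOn (fun x => A x i j) s) : ContinuousOn A s := by
  rw [continuousOn_iff_continuous_domRestrict]
  exact continuous_matrix fun i j => continuousOn_iff_continuous_domRestrict.mp (h i j)

lemma Imm.continuousOn_G (h : Imm f T) : ContinuousOn (G f) T := by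
  apply continuousOn_matrix
  intro i j
  exact (h.contDiffOn_D1 i).continuousOn.inner (𝕜 := ℝ) (h.contDiffOn_D1 j).continuousOn

lemma Imm.continuousOn_H (h : Imm f T) : ContinuousOn (H f) T := by
  apply continuousOn_matrix
  intro i j
  exact (h.contDiffOn_D2 i j).continuousOn.inner (𝕜 := ℝ) h.contDiffOn_nu.continuousOn

lemma Imm.continuousOn_Pen (h : Imm f T) : ContinuousOn (Pen f) (T ×ˢ univ) := by
  have hG : ContinuousOn (fun p : EuclideanSpace ℝ (Fin m) × EuclideanSpace ℝ (Fin 2) => G f p.1)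
      (T ×ˢ univ) := h.continuousOn_G.comp continuousOn_fst (fun p hp => hp.1)
  have hH : ContinuousOn (fun p : EuclideanSpace ℝ (Fin m) × EuclideanSpace ℝ (Fin 2) => H f p.1)
      (T ×ˢ univ) := h.continuousOn_H.comp continuousOn_fst (fun p hp => hp.1)
  have hc : ∀ i : Fin 2, ContinuousOn
      (fun p : EuclideanSpace ℝ (Fin m) × EuclideanSpace ℝ (Fin 2) => p.2 i) (T ×ˢ univ) := by
    intro i
    fun_prop
  exact ((hc 0).smul hG).sub ((hc 1).smul hH)

lemma Imm.measurableSet_Dom (h : Imm f T) (hS : MeasurableSet S) (hST : S ⊆ T) :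
    MeasurableSet (Dom f S) := by
  set Q : Set (Matrix (Fin m) (Fin m) ℝ) := {A | ∀ v : Fin m → ℝ, 0 ≤ v ⬝ᵥ (A *ᵥ v)} with hQ
  have hQc : IsClosed Q := by
    have : Q = ⋂ v : Fin m → ℝ, {A | 0 ≤ v ⬝ᵥ (A *ᵥ v)} := by
      ext A; simp [hQ]
    rw [this]
    apply isClosed_iInter
    intro v
    apply isClosed_le continuous_const
    fun_prop
  have hopen : IsOpen ((T ×ˢ univ : Set (EuclideanSpace ℝ (Fin m) × EuclideanSpace ℝ (Fin 2)))
      ∩ Pen f ⁻¹' Qᶜ) :=
    h.continuousOn_Pen.isOpen_inter_preimage (h.isOpen.prod isOpen_univ) hQc.isOpen_compl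
  have heq : Dom f S = (S ×ˢ closedBall (0 : EuclideanSpace ℝ (Fin 2)) 1) \
      ((T ×ˢ univ) ∩ Pen f ⁻¹' Qᶜ) := by
    ext p
    simp only [Dom, Set.mem_ofPred_eq, Set.mem_sdiff, Set.mem_prod, mem_inter_iff, mem_univ, and_true,
      mem_preimage, mem_compl_iff, hQ, not_and, not_not]
    constructor
    · rintro ⟨a, b, c⟩
      exact ⟨⟨a, b⟩, fun _ => c⟩
    · rintro ⟨⟨a, b⟩, c⟩
      exact ⟨a, b, c (hST a)⟩
  rw [heq]
  exact (hS.prod measurableSet_closedBall).diff hopen.measurableSet

lemma lintegral_P {κ : Fin m → ℝ} :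
    ∫⁻ z in closedBall (0 : EuclideanSpace ℝ (Fin 2)) 1, ENNReal.ofReal (P κ z)
      = ENNReal.ofReal (J κ) := by
  unfold J
  rw [ofReal_integral_eq_lintegral_ofReal (P_integrableOn κ)]
  exact Filter.Eventually.of_forall fun z => P_nonneg κ z

theorem Imm.local_bound (h : Imm f T) (hS : MeasurableSet S) (hST : S ⊆ T) (C : ℝ)
    (hC : ∀ u ∈ S, ∀ κ, IsKappa (G f u) (H f u) κ → J κ ≤ C) :
    volume (Phi f '' Dom f S) ≤
      ENNReal.ofReal C * ∫⁻ u in S, ENNReal.ofReal (Real.sqrt (G f u).det) := by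
  have hDm := h.measurableSet_Dom hS hST
  have : (volume : Measure (EuclideanSpace ℝ (Fin m) ×
      EuclideanSpace ℝ (Fin 2))).IsAddHaarMeasure := by
    rw [Measure.volume_eq_prod]
    infer_instance
  have step1 : volume (Phi f '' Dom f S) = volume ((fun p => Te m (Phi f p)) '' Dom f S) := by
    have h1 := (Te_measurePreserving m).measure_preimage_emb
      (Te m).toHomeomorph.measurableEmbedding ((fun p => Te m (Phi f p)) '' Dom f S)
    rw [← h1]
    congr 1
    have : (fun p => Te m (Phi f p)) '' Dom f S = Te m '' (Phi f '' Dom f S) := by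
      rw [image_image]
    rw [this, preimage_image_eq _ (Te m).injective]
  have step2 : volume ((fun p => Te m (Phi f p)) '' Dom f S) ≤
      ∫⁻ p in Dom f S, ENNReal.ofReal |((Te m : _ →L[ℝ] _).comp (dPhi f p)).det| := by
    apply addHaar_image_le_lintegral_abs_det_fderiv volume hDm
    intro p hp
    exact ((Te m).toContinuousLinearMap.hasFDerivAt.comp p
      (h.hasFDerivAt_Phi (hST hp.1))).hasFDerivWithinAt
  have step3 : ∫⁻ p in Dom f S, ENNReal.ofReal |((Te m : _ →L[ℝ] _).comp (dPhi f p)).det|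
      = ∫⁻ p in Dom f S, ENNReal.ofReal (|(Pen f p).det| / Real.sqrt (G f p.1).det) := by
    apply setLIntegral_congr_fun hDm
    intro p hp
    have hpT := hST hp.1
    have h1 := h.det_dPhi hpT
    have h2 : 0 < Real.sqrt (G f p.1).det := Real.sqrt_pos.mpr (h.G_posDef hpT).det_pos
    beta_reduce
    congr 1
    rw [eq_div_iff h2.ne', h1]
    rfl
  have hcont : ContinuousOn (fun p => ENNReal.ofReal (|(Pen f p).det| / Real.sqrt (G f p.1).det))
      (T ×ˢ univ) := by
    apply ENNReal.continuous_ofReal.comp_continuousOn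
    apply ContinuousOn.div
    · exact (continuous_abs.comp (continuous_id.matrix_det)).comp_continuousOn h.continuousOn_Pen
    · have h1 : ContinuousOn (fun u => Real.sqrt (G f u).det) T :=
        (Real.continuous_sqrt.comp (continuous_id.matrix_det)).comp_continuousOn h.continuousOn_G
      exact h1.comp continuousOn_fst (fun p hp => hp.1)
    · intro p hp
      exact (Real.sqrt_pos.mpr (h.G_posDef hp.1).det_pos).ne'
  have hDT : Dom f S ⊆ T ×ˢ univ := fun p hp => ⟨hST hp.1, mem_univ _⟩
  have hae : AEMeasurable ((Dom f S).indicator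
      (fun p => ENNReal.ofReal (|(Pen f p).det| / Real.sqrt (G f p.1).det)))
      ((volume : Measure (EuclideanSpace ℝ (Fin m))).prod
        (volume : Measure (EuclideanSpace ℝ (Fin 2)))) :=
    (aemeasurable_indicator_iff hDm).mpr ((hcont.mono hDT).aemeasurable hDm)
  have step4 : ∫⁻ p in Dom f S, ENNReal.ofReal (|(Pen f p).det| / Real.sqrt (G f p.1).det)
      ≤ ∫⁻ u in S, ENNReal.ofReal C * ENNReal.ofReal (Real.sqrt (G f u).det) := by
    rw [← lintegral_indicator hDm, Measure.volume_eq_prod, lintegral_prod _ hae,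
      ← lintegral_indicator hS]
    apply lintegral_mono
    intro u
    by_cases hu : u ∈ S
    · simp only [indicator_of_mem hu]
      have huT := hST hu
      obtain ⟨κ, hκ⟩ := exists_kappa (G f u) (H f u) (h.G_posDef huT) (h.H_symm huT)
      have hJ := hC u hu κ hκ
      have hg : 0 < (G f u).det := (h.G_posDef huT).det_pos
      have hgs : 0 < Real.sqrt (G f u).det := Real.sqrt_pos.mpr hg
      calc ∫⁻ z, (Dom f S).indicator
            (fun p => ENNReal.ofReal (|(Pen f p).det| / Real.sqrt (G f p.1).det)) (u, z)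
          ≤ ∫⁻ z in closedBall (0 : EuclideanSpace ℝ (Fin 2)) 1,
              ENNReal.ofReal (Real.sqrt (G f u).det) * ENNReal.ofReal (P κ z) := by
            rw [← lintegral_indicator measurableSet_closedBall]
            apply lintegral_mono
            intro z
            beta_reduce
            by_cases hz : (u, z) ∈ Dom f S
            · rw [indicator_of_mem hz, indicator_of_mem hz.2.1,
                ← ENNReal.ofReal_mul (Real.sqrt_nonneg _)]
              apply ENNReal.ofReal_le_ofReal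
              have hnn := hκ.2.2.2 (z 0) (z 1) hz.2.2
              have hdet := hκ.2.2.1 (z 0) (z 1)
              have hPen : Pen f (u, z) = z 0 • G f u - z 1 • H f u := rfl
              have hP : P κ z = ∏ i, (z 0 - z 1 * κ i) := by
                unfold P
                exact Finset.prod_congr rfl fun i _ => max_eq_left (hnn i)
              have hP0 : 0 ≤ ∏ i, (z 0 - z 1 * κ i) := Finset.prod_nonneg fun i _ => hnn i
              rw [hPen, hdet, hP, abs_of_nonneg (mul_nonneg hg.le hP0), div_le_iff₀ hgs]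
              have := Real.mul_self_sqrt hg.le
              apply le_of_eq
              calc (G f u).det * ∏ i, (z 0 - z 1 * κ i)
                  = (Real.sqrt (G f u).det * Real.sqrt (G f u).det) * ∏ i, (z 0 - z 1 * κ i) := by
                    rw [this]
                _ = _ := by ring
            · rw [indicator_of_notMem hz]
              exact zero_le
        _ = ENNReal.ofReal (Real.sqrt (G f u).det) * ENNReal.ofReal (J κ) := by
            rw [lintegral_const_mul' _ _ ENNReal.ofReal_ne_top, lintegral_P]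
        _ ≤ ENNReal.ofReal C * ENNReal.ofReal (Real.sqrt (G f u).det) := by
            rw [mul_comm]
            gcongr
    · have : ∀ z, (Dom f S).indicator
            (fun p => ENNReal.ofReal (|(Pen f p).det| / Real.sqrt (G f p.1).det)) (u, z) = 0 := by
        intro z
        apply indicator_of_notMem
        intro hz
        exact hu hz.1
      simp [this]
  calc volume (Phi f '' Dom f S) = volume ((fun p => Te m (Phi f p)) '' Dom f S) := step1
    _ ≤ ∫⁻ p in Dom f S, ENNReal.ofReal |((Te m : _ →L[ℝ] _).comp (dPhi f p)).det| := step2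
    _ = ∫⁻ p in Dom f S, ENNReal.ofReal (|(Pen f p).det| / Real.sqrt (G f p.1).det) := step3
    _ ≤ ∫⁻ u in S, ENNReal.ofReal C * ENNReal.ofReal (Real.sqrt (G f u).det) := step4
    _ = _ := lintegral_const_mul' _ _ ENNReal.ofReal_ne_top

end Vale.Agent.P224
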