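import Mathlib
import Vale.Agent.P224.LocalBound

namespace Vale.Agent.P224

open MeasureTheory Metric Set Matrix
open scoped RealInnerProductSpace ContDiff ENNReal

variable {m : ℕ} {f : EuclideanSpace ℝ (Fin m) → EuclideanSpace ℝ (Fin (m + 2))}
  {T S : Set (EuclideanSpace ℝ (Fin m))}

lemma deriv_deriv_nonpos {ψ : ℝ → ℝ} {x : ℝ} (hmax : IsLocalMax ψ x) (hc : ContinuousAt ψ x) :
    deriv (deriv ψ) x ≤ 0 := by
  by_contra hpos
  push Not at hpos
  have hmin := isLocalMin_of_deriv_deriv_pos hpos hmax.deriv_eq_zero hc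
  have hconst : ψ =ᶠ[nhds x] fun _ => ψ x := by
    filter_upwards [hmin, hmax] with y h1 h2
    exact le_antisymm h2 h1
  have h1 : deriv ψ =ᶠ[nhds x] deriv fun _ => ψ x := hconst.deriv
  have h2 := h1.deriv_eq
  simp at h2
  linarith

lemma Imm.frame_det_ne_zero (h : Imm f T) {u : EuclideanSpace ℝ (Fin m)} (hu : u ∈ T) :
    (Mat (frame (fun i => D1 f i u) (f u) (nu f u))).det ≠ 0 := by
  have hsq := frame_det_sq (fun i => D1 f i u) (f u) (nu f u) (h.unit u hu) (h.norm_nu hu)
    (by rw [real_inner_comm]; exact inner_nu_f u)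
    (fun i => h.inner_D1_f hu i) (fun i => by rw [real_inner_comm]; exact inner_nu_D1 u i)
  have hpos := (h.G_posDef hu).det_pos
  intro h0
  rw [h0] at hsq
  unfold G at hpos
  rw [← hsq] at hpos
  norm_num at hpos

lemma Imm.eq_zero_of_orth (h : Imm f T) {u : EuclideanSpace ℝ (Fin m)} (hu : u ∈ T)
    (w : EuclideanSpace ℝ (Fin (m + 2))) (h1 : ∀ i, ⟪D1 f i u, w⟫ = 0) (h2 : ⟪f u, w⟫ = 0)
    (h3 : ⟪nu f u, w⟫ = 0) : w = 0 := by
  have hdet := h.frame_det_ne_zero hu
  have hmul : (Mat (frame (fun i => D1 f i u) (f u) (nu f u)))ᵀ *ᵥ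
      (fun s => w (finSumFinEquiv s)) = 0 := by
    funext t
    have : ((Mat (frame (fun i => D1 f i u) (f u) (nu f u)))ᵀ *ᵥ
      (fun s => w (finSumFinEquiv s))) t = ⟪frame (fun i => D1 f i u) (f u) (nu f u) t, w⟫ := by
      simp only [mulVec, dotProduct, transpose_apply, Mat, of_apply]
      rw [Equiv.sum_comp (finSumFinEquiv (m := m) (n := 2))
        (fun a => frame (fun i => D1 f i u) (f u) (nu f u) t a * w a)]
      simp [PiLp.inner_apply, mul_comm]
    rw [this]
    rcases t with t | t
    · simpa [frame] using h1 t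
    · fin_cases t
      · simpa [frame] using h2
      · simpa [frame] using h3
  have hz := eq_zero_of_mulVec_eq_zero (by rw [det_transpose]; exact hdet) hmul
  ext a
  have := congrFun hz (finSumFinEquiv.symm a)
  simpa using this

lemma Imm.decomp (h : Imm f T) {u : EuclideanSpace ℝ (Fin m)} (hu : u ∈ T)
    (p : EuclideanSpace ℝ (Fin (m + 2))) (h1 : ∀ i, ⟪D1 f i u, p⟫ = 0) :
    p = ⟪f u, p⟫ • f u + ⟪nu f u, p⟫ • nu f u := by
  have hff : ⟪f u, f u⟫ = (1 : ℝ) := by rw [real_inner_self_eq_norm_sq, h.unit u hu]; norm_num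
  have hnn : ⟪nu f u, nu f u⟫ = (1 : ℝ) := by
    rw [real_inner_self_eq_norm_sq, h.norm_nu hu]; norm_num
  have hnf := inner_nu_f (f := f) u
  have hfn : ⟪f u, nu f u⟫ = 0 := by rw [real_inner_comm]; exact hnf
  have hw := h.eq_zero_of_orth hu (p - (⟪f u, p⟫ • f u + ⟪nu f u, p⟫ • nu f u)) ?_ ?_ ?_
  · exact sub_eq_zero.mp hw
  · intro i
    have a1 := h.inner_D1_f hu i
    have a2 : ⟪D1 f i u, nu f u⟫ = 0 := by rw [real_inner_comm]; exact inner_nu_D1 u i
    rw [inner_sub_right, inner_add_right, inner_smul_right, inner_smul_right, h1, a1, a2]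
    ring
  · rw [inner_sub_right, inner_add_right, inner_smul_right, inner_smul_right, hff, hfn]
    ring
  · rw [inner_sub_right, inner_add_right, inner_smul_right, inner_smul_right, hnf, hnn]
    ring

/-- A unit-ball point whose height function has a local maximum is in the image of the normal
domain. -/
lemma Imm.mem_image (h : Imm f T) {u : EuclideanSpace ℝ (Fin m)} (hu : u ∈ T) (huS : u ∈ S)
    (p : EuclideanSpace ℝ (Fin (m + 2))) (hp : ‖p‖ ≤ 1)
    (hmax : IsLocalMax (fun v => ⟪f v, p⟫) u) : p ∈ Phi f '' Dom f S := by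
  -- first order condition
  have hfirst : ∀ w, ⟪fderiv ℝ f u w, p⟫ = 0 := by
    intro w
    have h1 := hmax.fderiv_eq_zero
    have h2 := fderiv_inner_apply ℝ (h.diffAt hu) (differentiableAt_const p) w
    rw [h1] at h2
    simp at h2
    exact h2.symm
  have hfirst' : ∀ i, ⟪D1 f i u, p⟫ = 0 := fun i => hfirst _
  have hdec := h.decomp hu p hfirst'
  set a := ⟪f u, p⟫ with ha
  set b := ⟪nu f u, p⟫ with hb
  refine ⟨(u, !₂[a, b]), ⟨huS, ?_, ?_⟩, ?_⟩
  · rw [mem_closedBall_zero_iff, EuclideanSpace.norm_eq, Real.sqrt_le_one]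
    simp only [Fin.sum_univ_two, Real.norm_eq_abs, sq_abs]
    have hnorm : ‖p‖ ^ 2 = a ^ 2 + b ^ 2 := by
      rw [← real_inner_self_eq_norm_sq]
      conv_lhs => rw [hdec]
      have hff : ⟪f u, f u⟫ = (1 : ℝ) := by
        rw [real_inner_self_eq_norm_sq, h.unit u hu]; norm_num
      have hnn : ⟪nu f u, nu f u⟫ = (1 : ℝ) := by
        rw [real_inner_self_eq_norm_sq, h.norm_nu hu]; norm_num
      have hnf := inner_nu_f (f := f) u
      have hfn : ⟪f u, nu f u⟫ = 0 := by rw [real_inner_comm]; exact hnf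
      simp only [inner_add_left, inner_add_right, inner_smul_left, inner_smul_right, hff, hnn,
        hnf, hfn, conj_trivial]
      ring
    have : ‖p‖ ^ 2 ≤ 1 := by
      have := norm_nonneg p
      nlinarith
    simp only [Matrix.cons_val_zero, Matrix.cons_val_one]
    linarith
  · intro v
    -- second order condition
    set w : EuclideanSpace ℝ (Fin m) := WithLp.toLp 2 v with hw
    have hwsum : w = ∑ i, v i • EuclideanSpace.single i (1 : ℝ) := by
      ext j
      simp [hw, Finset.sum_apply, Pi.single_apply]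
    have hline : ∀ t : ℝ, HasDerivAt (fun t : ℝ => u + t • w) w t := by
      intro t
      have := ((hasDerivAt_id t).smul_const w).const_add u
      simpa using this
    have hnear : ∀ᶠ t : ℝ in nhds 0, u + t • w ∈ T := by
      have hc : ContinuousAt (fun t : ℝ => u + t • w) 0 := (hline 0).continuousAt
      apply hc.eventually_mem
      apply h.isOpen.mem_nhds
      simpa using hu
    set ψ : ℝ → ℝ := fun t => ⟪f (u + t • w), p⟫ with hψ
    have hψ1 : ∀ t, u + t • w ∈ T → HasDerivAt ψ (∑ j, v j * ⟪D1 f j (u + t • w), p⟫) t := by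
      intro t ht
      have h1 : HasDerivAt (fun t : ℝ => f (u + t • w)) (fderiv ℝ f (u + t • w) w) t :=
        (h.diffAt ht).hasFDerivAt.comp_hasDerivAt t (hline t)
      have h2 := h1.inner ℝ (hasDerivAt_const t p)
      simp only [inner_zero_right, zero_add] at h2
      have h3 : ⟪fderiv ℝ f (u + t • w) w, p⟫ = ∑ j, v j * ⟪D1 f j (u + t • w), p⟫ := by
        rw [hwsum, map_sum, sum_inner]
        apply Finset.sum_congr rfl
        intro j _
        rw [map_smul, inner_smul_left, ← hwsum]
        rfl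
      rw [← h3]
      exact h2
    have hψ' : deriv ψ =ᶠ[nhds 0] fun t => ∑ j, v j * ⟪D1 f j (u + t • w), p⟫ := by
      filter_upwards [hnear] with t ht
      exact (hψ1 t ht).deriv
    have hψ2 : HasDerivAt (fun t : ℝ => ∑ j, v j * ⟪D1 f j (u + t • w), p⟫)
        (∑ j, v j * ∑ i, v i * ⟪D2 f i j u, p⟫) 0 := by
      apply HasDerivAt.fun_sum
      intro j _
      apply HasDerivAt.const_mul
      have hu0 : u + (0 : ℝ) • w = u := by simp
      have h1 : HasDerivAt (fun t : ℝ => D1 f j (u + t • w)) (fderiv ℝ (D1 f j) u w) 0 := by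
        have hd : HasFDerivAt (D1 f j) (fderiv ℝ (D1 f j) u) (u + (0 : ℝ) • w) := by
          rw [hu0]; exact (h.diffAt_D1 hu j).hasFDerivAt
        exact hd.comp_hasDerivAt 0 (hline 0)
      have h2 := h1.inner ℝ (hasDerivAt_const 0 p)
      simp only [inner_zero_right, zero_add] at h2
      have h3 : ⟪fderiv ℝ (D1 f j) u w, p⟫ = ∑ i, v i * ⟪D2 f i j u, p⟫ := by
        rw [hwsum, map_sum, sum_inner]
        apply Finset.sum_congr rfl
        intro i _
        rw [map_smul, inner_smul_left]
        rfl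
      rw [← h3]
      exact h2
    have hlm : IsLocalMax ψ 0 := by
      have hc : ContinuousAt (fun t : ℝ => u + t • w) 0 := (hline 0).continuousAt
      have hu0 : u + (0 : ℝ) • w = u := by simp
      have h1 : Filter.Tendsto (fun t : ℝ => u + t • w) (nhds 0) (nhds u) := by
        have := hc.tendsto
        rwa [hu0] at this
      have h2 := h1.eventually hmax
      filter_upwards [h2] with t ht
      simp only [hψ, hu0]
      exact ht
    have hle := deriv_deriv_nonpos hlm
      (hψ1 0 (by simpa using hu)).continuousAt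
    rw [hψ'.deriv_eq, hψ2.deriv] at hle
    have hD2 : ∀ i j, ⟪D2 f i j u, p⟫ = - (a * G f u i j - b * H f u i j) := by
      intro i j
      conv_lhs => rw [hdec]
      rw [inner_add_right, inner_smul_right, inner_smul_right, h.inner_D2_f hu]
      have : ⟪D2 f i j u, nu f u⟫ = H f u i j := rfl
      rw [this]
      ring
    have hfin : v ⬝ᵥ (Pen f (u, !₂[a, b]) *ᵥ v) = - ∑ j, v j * ∑ i, v i * ⟪D2 f i j u, p⟫ := by
      simp_rw [hD2]
      simp only [dotProduct, mulVec, Pen, Matrix.sub_apply, Matrix.smul_apply, smul_eq_mul]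
      simp only [Matrix.cons_val_zero, Matrix.cons_val_one]
      rw [← Finset.sum_neg_distrib]
      apply Finset.sum_congr rfl
      intro j _
      rw [← mul_neg, ← Finset.sum_neg_distrib]
      congr 1
      apply Finset.sum_congr rfl
      intro i _
      have e1 : G f u i j = G f u j i := by
        have := (h.G_posDef hu).1
        have h2 := congrFun (congrFun this j) i
        simpa [conjTranspose_apply] using h2
      have e2 : H f u i j = H f u j i := by
        have h2 := congrFun (congrFun (h.H_symm hu) j) i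
        simpa [transpose_apply] using h2
      rw [e1, e2]
      ring
    rw [hfin]
    linarith
  · simp only [Phi, Matrix.cons_val_zero, Matrix.cons_val_one]
    exact hdec.symm

end Vale.Agent.P224
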