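import Mathlib
import Vale.Agent.P224.Defs
import Vale.Agent.P224.Change
import Vale.Agent.P224.Optimal

namespace Vale.Agent.P224

open scoped Manifold ContDiff RealInnerProductSpace Topology
open MeasureTheory Metric Module Set Filter

variable {V W : Type*} [NormedAddCommGroup V] [InnerProductSpace ℝ V] [FiniteDimensional ℝ V]
  [NormedAddCommGroup W] [InnerProductSpace ℝ W] [FiniteDimensional ℝ W]

variable (V) in
/-- coordinates on V -/
noncomputable def iV : V ≃ₗᵢ[ℝ] EuclideanSpace ℝ (Fin (finrank ℝ V)) :=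
  (stdOrthonormalBasis ℝ V).repr

/-- coordinates on W -/
noncomputable def iW (hW : finrank ℝ W = finrank ℝ V + 2) :
    W ≃ₗᵢ[ℝ] EuclideanSpace ℝ (Fin (finrank ℝ V + 2)) :=
  ((stdOrthonormalBasis ℝ W).reindex (finCongr hW)).repr

/-- f in coordinates -/
noncomputable def tr (hW : finrank ℝ W = finrank ℝ V + 2) (f : V → W)
    (u : EuclideanSpace ℝ (Fin (finrank ℝ V))) : EuclideanSpace ℝ (Fin (finrank ℝ V + 2)) :=
  iW hW (f ((iV V).symm u))

variable (hW : finrank ℝ W = finrank ℝ V + 2) (f : V → W)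

lemma iV_symm_single (i : Fin (finrank ℝ V)) :
    (iV V).symm (EuclideanSpace.single i 1) = stdOrthonormalBasis ℝ V i := by
  simp [iV]

lemma fderiv_tr (u w : EuclideanSpace ℝ (Fin (finrank ℝ V))) :
    fderiv ℝ (tr hW f) u w = iW hW (fderiv ℝ f ((iV V).symm u) ((iV V).symm w)) := by
  have h1 : tr hW f = (iW hW) ∘ (f ∘ (iV V).symm.toContinuousLinearEquiv) := rfl
  rw [h1, (iW hW).comp_fderiv, ContinuousLinearMap.comp_apply,
    (iV V).symm.toContinuousLinearEquiv.comp_right_fderiv, ContinuousLinearMap.comp_apply]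
  rfl

lemma D1_tr (i : Fin (finrank ℝ V)) : D1 (tr hW f) i = tr hW (pd f i) := by
  funext u
  unfold D1
  rw [fderiv_tr, iV_symm_single]
  rfl

lemma D2_tr (i j : Fin (finrank ℝ V)) : D2 (tr hW f) i j = tr hW (pd (pd f j) i) := by
  have h : D2 (tr hW f) i j = D1 (D1 (tr hW f) j) i := rfl
  rw [h, D1_tr, D1_tr]

lemma inner_tr (g k : V → W) (u : EuclideanSpace ℝ (Fin (finrank ℝ V))) :
    ⟪tr hW g u, tr hW k u⟫ = ⟪g ((iV V).symm u), k ((iV V).symm u)⟫ := by
  unfold tr
  exact (iW hW).inner_map_map _ _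

lemma G_tr (u : V) : G (tr hW f) (iV V u) = metricMat f u := by
  unfold G metricMat
  ext i j
  rw [Matrix.gram_apply, Matrix.gram_apply, D1_tr, D1_tr, inner_tr]
  simp

/-- the second fundamental form of f -/
noncomputable def sffMat (f : V → W) (u : V) (n : W) :
    Matrix (Fin (finrank ℝ V)) (Fin (finrank ℝ V)) ℝ :=
  Matrix.of fun i j => ⟪pd (pd f j) i u, n⟫

lemma sff_tr (u : V) (n : W) :
    (Matrix.of fun i j => ⟪D2 (tr hW f) i j (iV V u), iW hW n⟫) = sffMat f u n := by
  unfold sffMat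
  ext i j
  simp only [Matrix.of_apply]
  rw [D2_tr]
  unfold tr
  rw [(iW hW).inner_map_map]
  simp

/-- A smooth immersion of an open subset of V into the unit sphere of W. -/
structure ImmV (f : V → W) (T : Set V) : Prop where
  isOpen : IsOpen T
  smooth : ContDiffOn ℝ ∞ f T
  unit : ∀ u ∈ T, ‖f u‖ = 1
  inj : ∀ u ∈ T, Function.Injective (fderiv ℝ f u)

variable {f}

lemma ImmV.imm {T : Set V} (h : ImmV f T) : Imm (tr hW f) ((iV V).symm ⁻¹' T) where
  isOpen := h.isOpen.preimage (iV V).symm.continuous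
  smooth := by
    have h1 : ContDiffOn ℝ ∞ (f ∘ (iV V).symm) ((iV V).symm ⁻¹' T) :=
      h.smooth.comp (iV V).symm.contDiff.contDiffOn (fun u hu => hu)
    exact (iW hW).contDiff.comp_contDiffOn h1
  unit := by
    intro u hu
    unfold tr
    rw [(iW hW).norm_map]
    exact h.unit _ hu
  inj := by
    intro u hu
    have h1 : ⇑(fderiv ℝ (tr hW f) u) =
        (iW hW) ∘ (fderiv ℝ f ((iV V).symm u)) ∘ (iV V).symm := by
      funext w
      rw [fderiv_tr]
      rfl
    rw [h1]
    exact (iW hW).injective.comp ((h.inj _ hu).comp (iV V).symm.injective)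

end Vale.Agent.P224
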