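import Mathlib
import Vale.Agent.P224.Defs
import Vale.Agent.P224.Scale
import Vale.Agent.P224.Transfer

namespace Vale.Agent.P224

open scoped Manifold ContDiff RealInnerProductSpace
open MeasureTheory Metric Module Set

variable {V W M : Type*} [NormedAddCommGroup V] [InnerProductSpace ℝ V] [FiniteDimensional ℝ V]
  [NormedAddCommGroup W] [InnerProductSpace ℝ W] [FiniteDimensional ℝ W]
  [TopologicalSpace M] [ChartedSpace V M] {F : M → W}

/-- F is a smooth immersion into the unit sphere -/
structure SphImm (V : Type*) {W M : Type*} [NormedAddCommGroup V] [InnerProductSpace ℝ V]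
    [NormedAddCommGroup W] [InnerProductSpace ℝ W] [TopologicalSpace M] [ChartedSpace V M]
    (F : M → W) : Prop where
  smooth : ContMDiff 𝓘(ℝ, V) 𝓘(ℝ, W) ∞ F
  unit : ∀ x, ‖F x‖ = 1
  imm : ∀ x, Function.Injective (mfderiv 𝓘(ℝ, V) 𝓘(ℝ, W) F x)

lemma immV_rep [IsManifold 𝓘(ℝ, V) ∞ M] (hF : SphImm V F) (x : M) :
    ImmV (rep F x) (chartAt V x).target where
  isOpen := (chartAt V x).open_target
  smooth := by
    rw [← contMDiffOn_iff_contDiffOn]
    exact hF.smooth.comp_contMDiffOn contMDiffOn_chart_symm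
  unit := fun u _ => hF.unit _
  inj := by
    intro u hu
    set φ := chartAt V x with hφ
    have hmd : φ.MDifferentiable 𝓘(ℝ, V) 𝓘(ℝ, V) := mdifferentiable_chart (I := 𝓘(ℝ, V)) x
    have h1 : MDifferentiableAt 𝓘(ℝ, V) 𝓘(ℝ, V) φ.symm u := hmd.mdifferentiableAt_symm hu
    have h2 : Function.Injective (mfderiv 𝓘(ℝ, V) 𝓘(ℝ, V) φ.symm u) :=
      hmd.symm.mfderiv_injective hu
    have h3 : MDifferentiableAt 𝓘(ℝ, V) 𝓘(ℝ, W) F (φ.symm u) :=
      (hF.smooth.mdifferentiable (by norm_num)) _
    have e : rep F x = F ∘ φ.symm := rfl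
    rw [← mfderiv_eq_fderiv, e, mfderiv_comp u h3 h1]
    exact (hF.imm _).comp h2

lemma volume_closedBall_eq (m : ℕ) :
    volume (closedBall (0 : EuclideanSpace ℝ (Fin (m + 2))) 1) = ENNReal.ofReal (ballVol m) := by
  rw [EuclideanSpace.volume_closedBall]
  simp only [Fintype.card_fin, ENNReal.ofReal_one, one_pow, one_mul]
  congr 1
  unfold ballVol
  rw [Real.sqrt_eq_rpow, ← Real.rpow_natCast, ← Real.rpow_mul Real.pi_pos.le]
  congr 1
  · congr 1
    push_cast
    ring
  · congr 1
    push_cast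
    ring

variable [MeasurableSpace V] [BorelSpace V] [MeasurableSpace M] [BorelSpace M]

omit [InnerProductSpace ℝ V] [FiniteDimensional ℝ V] in
lemma measurable_chart_preimage (x : M) {E : Set M}
    (hE : MeasurableSet E) : MeasurableSet ((chartAt V x).target ∩ (chartAt V x).symm ⁻¹' E) := by
  set φ := chartAt V x
  have h1 : Measurable (φ.target.domRestrict φ.symm) :=
    (continuousOn_iff_continuous_domRestrict.mp φ.continuousOn_symm).measurable
  have h2 := (MeasurableEmbedding.subtype_coe φ.open_target.measurableSet).measurableSet_image.mpr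
    (h1 hE)
  convert h2 using 1
  ext u
  simp [Set.domRestrict, and_comm]

omit [FiniteDimensional ℝ W] in
lemma chartMeasure_le (x : M) {E : Set M} (hE : MeasurableSet E) :
    ∫⁻ u in (chartAt V x).target ∩ (chartAt V x).symm ⁻¹' E,
      ENNReal.ofReal (Real.sqrt (metricMat (rep F x) u).det) ≤ volM V F E := by
  have hms := measurable_chart_preimage (V := V) x hE
  set φ := chartAt V x with hφ
  set μ : Measure M := ((volume.withDensity fun u : V =>
    ENNReal.ofReal (Real.sqrt (metricMat (rep F x) u).det)).restrict φ.target).map φ.symm with hμ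
  have hle : μ ≤ volM V F := le_iSup (fun x : M => ((volume.withDensity fun u : V =>
    ENNReal.ofReal (Real.sqrt (metricMat (rep F x) u).det)).restrict
    (chartAt V x).target).map (chartAt V x).symm) x
  have hae : AEMeasurable φ.symm ((volume.withDensity fun u : V =>
    ENNReal.ofReal (Real.sqrt (metricMat (rep F x) u).det)).restrict φ.target) :=
    φ.continuousOn_symm.aemeasurable φ.open_target.measurableSet
  have heq : μ E = ∫⁻ u in φ.target ∩ φ.symm ⁻¹' E,
      ENNReal.ofReal (Real.sqrt (metricMat (rep F x) u).det) := by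
    rw [hμ, Measure.map_apply_of_aemeasurable hae hE,
      Measure.restrict_apply' φ.open_target.measurableSet, inter_comm, withDensity_apply _ hms]
  calc _ = μ E := heq.symm
    _ ≤ volM V F E := hle E

theorem ImmV.local_bound (hW : finrank ℝ W = finrank ℝ V + 2) {f : V → W} {T S : Set V}
    (h : ImmV f T) (hS : MeasurableSet S) (hST : S ⊆ T) (C : ℝ)
    (hC : ∀ u ∈ S, ∀ κ, IsKappa (G (tr hW f) (iV V u)) (H (tr hW f) (iV V u)) κ → J κ ≤ C) :
    volume (Phi (tr hW f) '' Dom (tr hW f) ((iV V).symm ⁻¹' S)) ≤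
      ENNReal.ofReal C * ∫⁻ u in S, ENNReal.ofReal (Real.sqrt (metricMat f u).det) := by
  have hmp : MeasurePreserving (iV V).symm := (iV V).symm.measurePreserving
  have hemb : MeasurableEmbedding (iV V).symm := (iV V).symm.toHomeomorph.measurableEmbedding
  have h1 := h.imm hW |>.local_bound (S := (iV V).symm ⁻¹' S) (hmp.measurable hS)
    (preimage_mono hST) C (by
      intro u hu κ hκ
      have := hC ((iV V).symm u) hu κ
      rw [(iV V).apply_symm_apply] at this
      exact this hκ)
  refine h1.trans (le_of_eq ?_)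
  congr 1
  have h2 := hmp.setLIntegral_comp_preimage_emb hemb
    (fun u => ENNReal.ofReal (Real.sqrt (metricMat f u).det)) S
  rw [← h2]
  apply lintegral_congr
  intro u
  have := G_tr hW f ((iV V).symm u)
  rw [(iV V).apply_symm_apply] at this
  rw [this]

theorem ball_le [IsManifold 𝓘(ℝ, V) ∞ M] [CompactSpace M] [Nonempty M]
    (hW : finrank ℝ W = finrank ℝ V + 2) (hF : SphImm V F)
    (A : Set M) (hA : MeasurableSet A) (C₁ C₂ : ℝ)
    (hC₁ : ∀ x : M, ∀ u ∈ (chartAt V x).target, (chartAt V x).symm u ∈ A →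
      ∀ κ, IsKappa (G (tr hW (rep F x)) (iV V u)) (H (tr hW (rep F x)) (iV V u)) κ → J κ ≤ C₁)
    (hC₂ : ∀ x : M, ∀ u ∈ (chartAt V x).target, (chartAt V x).symm u ∉ A →
      ∀ κ, IsKappa (G (tr hW (rep F x)) (iV V u)) (H (tr hW (rep F x)) (iV V u)) κ → J κ ≤ C₂) :
    ENNReal.ofReal (ballVol (finrank ℝ V)) ≤
      ENNReal.ofReal C₁ * volM V F A + ENNReal.ofReal C₂ * volM V F Aᶜ := by
  -- a sequence of charts covering M
  obtain ⟨x, hx⟩ : ∃ x : ℕ → M, ⋃ n, (chartAt V (x n)).source = univ := by
    obtain ⟨t, ht⟩ := (isCompact_univ (X := M)).elim_nhds_subcover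
      (fun x => (chartAt V x).source)
      (fun x _ => (chartAt V x).open_source.mem_nhds (mem_chart_source _ x))
    have hne : (t : Set M).Nonempty := by
      obtain ⟨y⟩ := ‹Nonempty M›
      have := ht.2 (mem_univ y)
      simp only [mem_iUnion] at this
      obtain ⟨z, hz, -⟩ := this
      exact ⟨z, hz⟩
    obtain ⟨x, hx⟩ := (t.countable_toSet).exists_eq_range hne
    refine ⟨x, ?_⟩
    rw [eq_univ_iff_forall]
    intro y
    have := ht.2 (mem_univ y)
    simp only [mem_iUnion] at this
    obtain ⟨z, hz, hy⟩ := this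
    have hz' : z ∈ range x := by rw [← hx]; exact hz
    obtain ⟨n, rfl⟩ := hz'
    exact mem_iUnion.mpr ⟨n, hy⟩
  set φ := fun n => chartAt V (x n) with hφ
  set E : ℕ → Set M := disjointed (fun n => (φ n).source) with hE
  have hEm : ∀ n, MeasurableSet (E n) :=
    fun n => MeasurableSet.disjointed (fun n => (φ n).open_source.measurableSet) n
  have hEs : ∀ n, E n ⊆ (φ n).source := fun n => disjointed_subset _ n
  have hEu : ⋃ n, E n = univ := by rw [hE, iUnion_disjointed]; exact hx
  have hEd : Pairwise (Function.onFun Disjoint E) := disjoint_disjointed _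
  -- pieces
  set S : ℕ → Set M → Set V :=
    fun n B => (φ n).target ∩ (φ n).symm ⁻¹' (E n ∩ B) with hS
  have hSm : ∀ n B, MeasurableSet B → MeasurableSet (S n B) :=
    fun n B hB => measurable_chart_preimage (x n) ((hEm n).inter hB)
  have himmr : ∀ n, ImmV (rep F (x n)) (φ n).target := fun n => immV_rep hF (x n)
  have hcover : closedBall (0 : EuclideanSpace ℝ (Fin (finrank ℝ V + 2))) 1 ⊆
      ⋃ n, (Phi (tr hW (rep F (x n))) '' Dom (tr hW (rep F (x n))) ((iV V).symm ⁻¹' (S n A)) ∪
        Phi (tr hW (rep F (x n))) '' Dom (tr hW (rep F (x n))) ((iV V).symm ⁻¹' (S n Aᶜ))) := by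
    intro p hp
    have hp1 : ‖p‖ ≤ 1 := by simpa using hp
    have hcont : Continuous (fun y : M => ⟪iW hW (F y), p⟫) := by
      have := hF.smooth.continuous
      fun_prop
    obtain ⟨y, -, hy⟩ := isCompact_univ.exists_isMaxOn (univ_nonempty (α := M)) hcont.continuousOn
    have hyE : y ∈ ⋃ n, E n := by rw [hEu]; exact mem_univ y
    obtain ⟨n, hn⟩ := mem_iUnion.mp hyE
    have hys : y ∈ (φ n).source := hEs n hn
    have hut : φ n y ∈ (φ n).target := (φ n).map_source hys
    have hinv : (φ n).symm (φ n y) = y := (φ n).left_inv hys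
    have hut' : iV V (φ n y) ∈ (iV V).symm ⁻¹' (φ n).target := by
      rw [mem_preimage, (iV V).symm_apply_apply]; exact hut
    have hmax : IsLocalMax (fun v => ⟪tr hW (rep F (x n)) v, p⟫) (iV V (φ n y)) := by
      filter_upwards with v
      have := hy (mem_univ ((φ n).symm ((iV V).symm v)))
      simp only [Set.mem_ofPred_eq] at this
      unfold tr rep
      rw [(iV V).symm_apply_apply, hinv]
      exact this
    apply mem_iUnion.mpr
    refine ⟨n, ?_⟩
    by_cases hyA : y ∈ A
    · left
      have hmem : iV V (φ n y) ∈ (iV V).symm ⁻¹' (S n A) := by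
        rw [mem_preimage, (iV V).symm_apply_apply]
        exact ⟨hut, by rw [mem_preimage, hinv]; exact ⟨hn, hyA⟩⟩
      exact ((himmr n).imm hW).mem_image hut' hmem p hp1 hmax
    · right
      have hmem : iV V (φ n y) ∈ (iV V).symm ⁻¹' (S n Aᶜ) := by
        rw [mem_preimage, (iV V).symm_apply_apply]
        exact ⟨hut, by rw [mem_preimage, hinv]; exact ⟨hn, hyA⟩⟩
      exact ((himmr n).imm hW).mem_image hut' hmem p hp1 hmax
  have hb₁ : ∀ n, volume (Phi (tr hW (rep F (x n))) '' Dom (tr hW (rep F (x n)))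
      ((iV V).symm ⁻¹' (S n A))) ≤ ENNReal.ofReal C₁ * volM V F (E n ∩ A) := by
    intro n
    refine ((himmr n).local_bound hW (hSm n A hA) inter_subset_left C₁ ?_).trans ?_
    · intro u hu
      exact hC₁ (x n) u hu.1 hu.2.2
    · gcongr
      exact chartMeasure_le (x n) ((hEm n).inter hA)
  have hb₂ : ∀ n, volume (Phi (tr hW (rep F (x n))) '' Dom (tr hW (rep F (x n)))
      ((iV V).symm ⁻¹' (S n Aᶜ))) ≤ ENNReal.ofReal C₂ * volM V F (E n ∩ Aᶜ) := by
    intro n
    refine ((himmr n).local_bound hW (hSm n Aᶜ hA.compl) inter_subset_left C₂ ?_).trans ?_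
    · intro u hu
      exact hC₂ (x n) u hu.1 hu.2.2
    · gcongr
      exact chartMeasure_le (x n) ((hEm n).inter hA.compl)
  have hsum : ∀ B : Set M, MeasurableSet B → ∑' n, volM V F (E n ∩ B) = volM V F B := by
    intro B hB
    rw [← measure_iUnion]
    · rw [← iUnion_inter, hEu, univ_inter]
    · intro i j hij
      exact (hEd hij).mono inter_subset_left inter_subset_left
    · intro n
      exact (hEm n).inter hB
  calc ENNReal.ofReal (ballVol (finrank ℝ V))
      = volume (closedBall (0 : EuclideanSpace ℝ (Fin (finrank ℝ V + 2))) 1) :=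
        (volume_closedBall_eq _).symm
    _ ≤ ∑' n, (volume (Phi (tr hW (rep F (x n))) '' Dom (tr hW (rep F (x n)))
          ((iV V).symm ⁻¹' (S n A)) ∪
        Phi (tr hW (rep F (x n))) '' Dom (tr hW (rep F (x n))) ((iV V).symm ⁻¹' (S n Aᶜ)))) :=
        (measure_mono hcover).trans (measure_iUnion_le _)
    _ ≤ ∑' n, (ENNReal.ofReal C₁ * volM V F (E n ∩ A) +
          ENNReal.ofReal C₂ * volM V F (E n ∩ Aᶜ)) :=
        ENNReal.tsum_le_tsum fun n => (measure_union_le _ _).trans (add_le_add (hb₁ n) (hb₂ n))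
    _ = _ := by
        rw [ENNReal.tsum_add, ENNReal.tsum_mul_left, ENNReal.tsum_mul_left, hsum A hA,
          hsum Aᶜ hA.compl]

end Vale.Agent.P224
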