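import Mathlib
import Vale.Agent.P224.Global
import Vale.Agent.P224.Change

namespace Vale.Agent.P224

open scoped Manifold ContDiff RealInnerProductSpace Topology
open MeasureTheory Metric Module Set Filter

variable {V W M : Type*} [NormedAddCommGroup V] [InnerProductSpace ℝ V] [FiniteDimensional ℝ V]
  [NormedAddCommGroup W] [InnerProductSpace ℝ W] [FiniteDimensional ℝ W]
  [TopologicalSpace M] [ChartedSpace V M] {F : M → W}

omit [InnerProductSpace ℝ V] [FiniteDimensional ℝ V] in
lemma transition_contDiffAt [NormedSpace ℝ V] [IsManifold 𝓘(ℝ, V) ∞ M] (x y : M)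
    (hy : y ∈ (chartAt V x).source) :
    ContDiffAt ℝ ∞ ((chartAt V x) ∘ (chartAt V y).symm) (chartAt V y y) := by
  set φ := chartAt V x with hφ
  set χ := chartAt V y with hχ
  have hys : y ∈ χ.source := mem_chart_source _ y
  have h1 : ContMDiffAt 𝓘(ℝ, V) 𝓘(ℝ, V) ∞ χ.symm (χ y) :=
    contMDiffOn_chart_symm.contMDiffAt (χ.open_target.mem_nhds (χ.map_source hys))
  have hinv : χ.symm (χ y) = y := χ.left_inv hys
  have h2 : ContMDiffAt 𝓘(ℝ, V) 𝓘(ℝ, V) ∞ φ (χ.symm (χ y)) := by
    rw [hinv]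
    exact contMDiffOn_chart.contMDiffAt (φ.open_source.mem_nhds hy)
  have h3 := h2.comp (χ y) h1
  exact h3.contDiffAt

/-- The geometric quantities at a point, computed in an arbitrary chart of the atlas. -/
lemma pointwise [IsManifold 𝓘(ℝ, V) ∞ M] (hW : finrank ℝ W = finrank ℝ V + 2)
    (hF : SphImm V F) (x : M) {u : V} (hu : u ∈ (chartAt V x).target)
    (n : W) (hn1 : ‖n‖ = 1) (hn2 : ⟪rep F x u, n⟫ = 0)
    (hn3 : ∀ i, ⟪pd (rep F x) i u, n⟫ = 0) :
    IsUnitNormal V F ((chartAt V x).symm u) n ∧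
    meanCurv V F ((chartAt V x).symm u) n =
      ((metricMat (rep F x) u)⁻¹ * sffMat (rep F x) u n).trace ∧
    normSqA V F ((chartAt V x).symm u) n =
      (((metricMat (rep F x) u)⁻¹ * sffMat (rep F x) u n) *
        ((metricMat (rep F x) u)⁻¹ * sffMat (rep F x) u n)).trace := by
  set φ := chartAt V x with hφ
  set y := φ.symm u with hy
  have hys : y ∈ φ.source := φ.map_target hu
  have hφy : φ y = u := φ.right_inv hu
  set χ := chartAt V y with hχ
  have hyχ : y ∈ χ.source := mem_chart_source _ y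
  set w := χ y with hw
  have hinv : χ.symm w = y := χ.left_inv hyχ
  have hwT : w ∈ χ.target := χ.map_source hyχ
  have hσ : ContDiffAt ℝ ∞ (φ ∘ χ.symm) w := transition_contDiffAt x y hys
  have hσw : (φ ∘ χ.symm) w = u := by simp only [Function.comp_apply, hinv, hφy]
  have hImmf := immV_rep hF x
  have hImmg := immV_rep hF y
  -- transported objects
  set σ : EuclideanSpace ℝ (Fin (finrank ℝ V)) → EuclideanSpace ℝ (Fin (finrank ℝ V)) :=
    fun v => iV V ((φ ∘ χ.symm) ((iV V).symm v)) with hσdef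
  have hσ' : ContDiffAt ℝ ∞ σ (iV V w) := by
    have h1 : ContDiffAt ℝ ∞ (φ ∘ χ.symm) ((iV V).symm (iV V w)) := by
      rw [(iV V).symm_apply_apply]; exact hσ
    have h2 : ContDiffAt ℝ ∞ ((φ ∘ χ.symm) ∘ (iV V).symm) (iV V w) :=
      h1.comp _ (iV V).symm.contDiff.contDiffAt
    exact (iV V).contDiff.contDiffAt.comp _ h2
  have hσw' : σ (iV V w) = iV V u := by
    simp only [hσdef, (iV V).symm_apply_apply, hσw]
  have hf : ContDiffAt ℝ ∞ (tr hW (rep F x)) (σ (iV V w)) := by
    rw [hσw']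
    have hI := hImmf.imm hW
    apply hI.smooth.contDiffAt (hI.isOpen.mem_nhds _)
    rw [mem_preimage, (iV V).symm_apply_apply]
    exact hu
  have hg : tr hW (rep F y) =ᶠ[𝓝 (iV V w)] tr hW (rep F x) ∘ σ := by
    have h1 : ∀ᶠ v in 𝓝 w, χ.symm v ∈ φ.source := by
      have : ContinuousAt χ.symm w := χ.continuousAt_symm hwT
      apply this.eventually_mem
      rw [hinv]
      exact φ.open_source.mem_nhds hys
    have h2 : Tendsto (iV V).symm (𝓝 (iV V w)) (𝓝 w) := by
      have := (iV V).symm.continuous.tendsto (iV V w)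
      rwa [(iV V).symm_apply_apply] at this
    filter_upwards [h2.eventually h1] with v hv
    simp only [Function.comp_apply, tr, hσdef, (iV V).symm_apply_apply]
    unfold rep
    rw [← hφ, ← hχ, φ.left_inv hv]
  have hn3' : ∀ b, ⟪D1 (tr hW (rep F x)) b (σ (iV V w)), iW hW n⟫ = 0 := by
    intro b
    rw [hσw', D1_tr]
    unfold tr
    rw [(iW hW).inner_map_map, (iV V).symm_apply_apply]
    exact hn3 b
  obtain ⟨hG, hH⟩ := forms_comp hσ' hf hg (iW hW n) hn3'
  rw [hσw'] at hG hH
  have hGx : Matrix.gram ℝ (fun i => D1 (tr hW (rep F x)) i (iV V u)) = metricMat (rep F x) u :=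
    G_tr hW (rep F x) u
  have hGy : Matrix.gram ℝ (fun i => D1 (tr hW (rep F y)) i (iV V w)) = metricMat (rep F y) w :=
    G_tr hW (rep F y) w
  rw [sff_tr, sff_tr] at hH
  rw [hGx, hGy] at hG
  have hσd : DifferentiableAt ℝ σ (iV V w) := hσ'.differentiableAt (by norm_num)
  have hfd : DifferentiableAt ℝ (tr hW (rep F x)) (σ (iV V w)) := hf.differentiableAt (by norm_num)
  have hD1 : ∀ i, ⟪pd (rep F y) i w, n⟫ = 0 := by
    intro i
    have h1 : ⟪D1 (tr hW (rep F y)) i (iV V w), iW hW n⟫ = 0 := by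
      rw [D1_comp hσd hfd hg, sum_inner]
      apply Finset.sum_eq_zero
      intro b _
      rw [inner_smul_left, hn3', mul_zero]
    rw [D1_tr] at h1
    unfold tr at h1
    rw [(iW hW).inner_map_map, (iV V).symm_apply_apply] at h1
    exact h1
  have hFy : rep F x u = F y := rfl
  have hdetg : (metricMat (rep F y) w).det ≠ 0 := by
    rw [← hGy]
    have hmem : iV V w ∈ (iV V).symm ⁻¹' χ.target := by
      rw [mem_preimage, (iV V).symm_apply_apply]; exact hwT
    exact ((hImmg.imm hW).G_posDef hmem).det_pos.ne'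
  have hB : IsUnit (Jac σ (iV V w)).det := by
    rw [isUnit_iff_ne_zero]
    intro h0
    apply hdetg
    rw [hG, Matrix.det_mul, h0, mul_zero]
  have htr := trace_conj_forms (Jac σ (iV V w)) (metricMat (rep F x) u)
    (sffMat (rep F x) u n) hB
  have hshape : shapeMat (rep F y) w n = (metricMat (rep F y) w)⁻¹ * sffMat (rep F y) w n := rfl
  refine ⟨⟨hn1, by rw [← hFy]; exact hn2, hD1⟩, ?_, ?_⟩
  · unfold meanCurv
    rw [← hχ, ← hw, hshape, hG, hH]
    exact htr.1
  · unfold normSqA
    rw [← hχ, ← hw, hshape, hG, hH, pow_two]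
    exact htr.2

/-- the unit normal in the chart at x -/
noncomputable def nuW (hW : finrank ℝ W = finrank ℝ V + 2) (f : V → W) (u : V) : W :=
  (iW hW).symm (nu (tr hW f) (iV V u))

lemma pointwise_nu [IsManifold 𝓘(ℝ, V) ∞ M] (hW : finrank ℝ W = finrank ℝ V + 2)
    (hF : SphImm V F) (x : M) {u : V} (hu : u ∈ (chartAt V x).target) :
    IsUnitNormal V F ((chartAt V x).symm u) (nuW hW (rep F x) u) ∧
    meanCurv V F ((chartAt V x).symm u) (nuW hW (rep F x) u) =
      ((G (tr hW (rep F x)) (iV V u))⁻¹ * H (tr hW (rep F x)) (iV V u)).trace ∧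
    normSqA V F ((chartAt V x).symm u) (nuW hW (rep F x) u) =
      (((G (tr hW (rep F x)) (iV V u))⁻¹ * H (tr hW (rep F x)) (iV V u)) *
        ((G (tr hW (rep F x)) (iV V u))⁻¹ * H (tr hW (rep F x)) (iV V u))).trace := by
  have hI := (immV_rep hF x).imm hW
  have hmem : iV V u ∈ (iV V).symm ⁻¹' (chartAt V x).target := by
    rw [mem_preimage, (iV V).symm_apply_apply]; exact hu
  have hinner : ∀ g : V → W, ⟪g u, nuW hW (rep F x) u⟫
      = ⟪tr hW g (iV V u), nu (tr hW (rep F x)) (iV V u)⟫ := by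
    intro g
    unfold nuW tr
    rw [← (iW hW).inner_map_map, (iW hW).apply_symm_apply, (iV V).symm_apply_apply]
  have h1 : ‖nuW hW (rep F x) u‖ = 1 := by
    unfold nuW
    rw [(iW hW).symm.norm_map]
    exact hI.norm_nu hmem
  have h2 : ⟪rep F x u, nuW hW (rep F x) u⟫ = 0 := by
    rw [hinner, real_inner_comm]
    exact Imm.inner_nu_f _
  have h3 : ∀ i, ⟪pd (rep F x) i u, nuW hW (rep F x) u⟫ = 0 := by
    intro i
    rw [hinner (pd (rep F x) i), real_inner_comm, ← D1_tr]
    exact Imm.inner_nu_D1 _ i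
  have hsff : sffMat (rep F x) u (nuW hW (rep F x) u) = H (tr hW (rep F x)) (iV V u) := by
    rw [← sff_tr hW]
    unfold nuW H
    rw [(iW hW).apply_symm_apply]
  have hG : metricMat (rep F x) u = G (tr hW (rep F x)) (iV V u) := (G_tr hW (rep F x) u).symm
  have := pointwise hW hF x hu (nuW hW (rep F x) u) h1 h2 h3
  rw [hsff, hG] at this
  exact this

lemma ballVol_pos (m : ℕ) : 0 < ballVol m := by
  unfold ballVol
  have := Real.Gamma_pos_of_pos (s := (m : ℝ) / 2 + 2) (by positivity)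
  have := Real.pi_pos
  positivity

theorem main_A [MeasurableSpace V] [BorelSpace V] [MeasurableSpace M] [BorelSpace M]
    [IsManifold 𝓘(ℝ, V) ∞ M] [CompactSpace M] [Nonempty M]
    (hV : 2 ≤ finrank ℝ V) (hW : finrank ℝ W = finrank ℝ V + 2) (hF : SphImm V F)
    (hmin : ∀ x n, IsUnitNormal V F x n → meanCurv V F x n = 0)
    (hA : ∀ x n, IsUnitNormal V F x n → (finrank ℝ V : ℝ) ≤ normSqA V F x n) :
    ENNReal.ofReal (leastClifford (finrank ℝ V)) ≤ volM V F univ := by
  set m := finrank ℝ V with hm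
  have hb0 := ballVol_pos m
  rcases (leastClifford_nonneg m).eq_or_lt with h0 | h0
  · rw [← h0]; simp
  have key := ball_le hW hF univ MeasurableSet.univ (ballVol m / leastClifford m) 0
    (by
      intro x u hu _ κ hκ
      obtain ⟨h1, h2, h3⟩ := pointwise_nu hW hF x hu
      have hsum : ∑ i, κ i = 0 := by rw [← hκ.1, ← h2]; exact hmin _ _ h1
      have hsq : (m : ℝ) ≤ ∑ i, κ i ^ 2 := by rw [← hκ.2.1, ← h3]; exact hA _ _ h1
      rw [le_div_iff₀ h0]
      exact J_le hV κ hsum hsq)
    (by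
      intro x u hu hx
      exact absurd (mem_univ _) hx)
  simp only [ENNReal.ofReal_zero, zero_mul, add_zero] at key
  have h1 : ENNReal.ofReal (ballVol m) ≠ 0 := by
    rw [ne_eq, ENNReal.ofReal_eq_zero, not_le]; exact hb0
  have h2 : ENNReal.ofReal (ballVol m / leastClifford m)
      = ENNReal.ofReal (ballVol m) / ENNReal.ofReal (leastClifford m) :=
    ENNReal.ofReal_div_of_pos h0
  rw [h2] at key
  have h3 : ENNReal.ofReal (leastClifford m) ≠ 0 := by
    rw [ne_eq, ENNReal.ofReal_eq_zero, not_le]; exact h0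
  have h4 : ENNReal.ofReal (ballVol m) * ENNReal.ofReal (leastClifford m) ≤
      ENNReal.ofReal (ballVol m) * volM V F univ := by
    calc ENNReal.ofReal (ballVol m) * ENNReal.ofReal (leastClifford m)
        ≤ (ENNReal.ofReal (ballVol m) / ENNReal.ofReal (leastClifford m) * volM V F univ) *
          ENNReal.ofReal (leastClifford m) := by gcongr
      _ = (ENNReal.ofReal (ballVol m) / ENNReal.ofReal (leastClifford m) *
          ENNReal.ofReal (leastClifford m)) * volM V F univ := by ring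
      _ = _ := by
          rw [ENNReal.div_mul_cancel h3 ENNReal.ofReal_ne_top]
  exact (ENNReal.mul_le_mul_iff_right h1 ENNReal.ofReal_ne_top).mp h4

end Vale.Agent.P224
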