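import Mathlib

namespace Vale.Agent.P224

open Matrix

variable {m : ℕ}

lemma vmv (u v w x : Fin m → ℝ) :
    vecMulVec u v * vecMulVec w x = (v ⬝ᵥ w) • vecMulVec u x := by
  rw [vecMulVec_mul_vecMulVec]
  ext i j
  simp only [vecMulVec_apply, Pi.smul_apply, Matrix.smul_apply, smul_eq_mul]
  ring

/-- inverse of the metric of a projective graph -/
lemma graph_inv (x d : Fin m → ℝ) (f a r2 W : ℝ) (w y : Fin m → ℝ)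
    (ha : a = f - x ⬝ᵥ d) (hr : r2 = 1 + x ⬝ᵥ x + f ^ 2) (hW : W = 1 + d ⬝ᵥ d + a ^ 2)
    (hw : w = d - a • x) (hy : y = x + f • d) (hr0 : r2 ≠ 0) (hW0 : W ≠ 0) :
    (1 + vecMulVec d d - r2⁻¹ • vecMulVec y y) * (1 + vecMulVec x x - W⁻¹ • vecMulVec w w)
      = 1 := by
  have hdx : d ⬝ᵥ x = x ⬝ᵥ d := dotProduct_comm _ _
  have e1 : d ⬝ᵥ w = (W - 1 - a ^ 2) - a * (f - a) := by
    rw [hw, dotProduct_sub, dotProduct_smul, hdx, hW]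
    simp only [smul_eq_mul]
    rw [show x ⬝ᵥ d = f - a by rw [ha]; ring]
    ring
  have e2 : y ⬝ᵥ x = (r2 - 1 - f ^ 2) + f * (f - a) := by
    rw [hy, add_dotProduct, smul_dotProduct, hdx, hr, show x ⬝ᵥ d = f - a by rw [ha]; ring]
    simp only [smul_eq_mul]
    ring
  have e3 : y ⬝ᵥ w = f * W - a * r2 := by
    rw [hy, hw, add_dotProduct, smul_dotProduct, dotProduct_sub, dotProduct_sub,
      dotProduct_smul, dotProduct_smul, hdx, show x ⬝ᵥ d = f - a by rw [ha]; ring, hr, hW]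
    simp only [smul_eq_mul]
    ring
  have e4 : d ⬝ᵥ x = f - a := by rw [hdx, ha]; ring
  have hexp : (1 + vecMulVec d d - r2⁻¹ • vecMulVec y y) *
      (1 + vecMulVec x x - W⁻¹ • vecMulVec w w)
      = 1 + vecMulVec x x - W⁻¹ • vecMulVec w w + vecMulVec d d
        + (d ⬝ᵥ x) • vecMulVec d x - (W⁻¹ * (d ⬝ᵥ w)) • vecMulVec d w
        - r2⁻¹ • vecMulVec y y - (r2⁻¹ * (y ⬝ᵥ x)) • vecMulVec y x
        + (r2⁻¹ * (W⁻¹ * (y ⬝ᵥ w))) • vecMulVec y w := by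
    simp only [Matrix.sub_mul, Matrix.add_mul, Matrix.mul_add, Matrix.mul_sub, Matrix.one_mul,
      Matrix.mul_one, Matrix.smul_mul, Matrix.mul_smul, vmv, smul_smul,
      smul_sub, smul_add]
    ext i j
    simp only [Matrix.add_apply, Matrix.sub_apply, Matrix.smul_apply, smul_eq_mul]
    ring
  rw [hexp, e1, e2, e3, e4]
  ext i j
  simp only [Matrix.add_apply, Matrix.sub_apply, Matrix.smul_apply, smul_eq_mul,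
    vecMulVec_apply, hw, hy, Pi.add_apply, Pi.sub_apply, Pi.smul_apply]
  field_simp
  ring

lemma graph_trace (x w : Fin m → ℝ) (W : ℝ) (Φ : Matrix (Fin m) (Fin m) ℝ) :
    ((1 + vecMulVec x x - W⁻¹ • vecMulVec w w) * Φ).trace
      = Φ.trace + x ⬝ᵥ (Φ *ᵥ x) - W⁻¹ * (w ⬝ᵥ (Φ *ᵥ w)) := by
  simp only [Matrix.sub_mul, Matrix.add_mul, Matrix.one_mul, Matrix.smul_mul, vecMulVec_mul,
    trace_sub, trace_add, trace_smul, trace_vecMulVec, smul_eq_mul]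
  rw [dotProduct_comm x (x ᵥ* Φ), dotProduct_comm w (w ᵥ* Φ), ← dotProduct_mulVec,
    ← dotProduct_mulVec]

lemma graph_trace_sq (x w : Fin m → ℝ) (W : ℝ) (Φ : Matrix (Fin m) (Fin m) ℝ) (hΦ : Φᵀ = Φ) :
    (((1 + vecMulVec x x - W⁻¹ • vecMulVec w w) * Φ) *
      ((1 + vecMulVec x x - W⁻¹ • vecMulVec w w) * Φ)).trace
      = (Φ * Φ).trace + 2 * ((Φ *ᵥ x) ⬝ᵥ (Φ *ᵥ x)) - 2 * W⁻¹ * ((Φ *ᵥ w) ⬝ᵥ (Φ *ᵥ w))
        + (x ⬝ᵥ (Φ *ᵥ x)) ^ 2 - 2 * W⁻¹ * (x ⬝ᵥ (Φ *ᵥ w)) ^ 2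
        + (W⁻¹ * (w ⬝ᵥ (Φ *ᵥ w))) ^ 2 := by
  have hv : ∀ z : Fin m → ℝ, z ᵥ* Φ = Φ *ᵥ z := by
    intro z
    rw [← vecMul_transpose, hΦ]
  have key : ((1 + vecMulVec x x - W⁻¹ • vecMulVec w w) * Φ)
      = Φ + vecMulVec x (Φ *ᵥ x) - W⁻¹ • vecMulVec w (Φ *ᵥ w) := by
    simp only [Matrix.sub_mul, Matrix.add_mul, Matrix.one_mul, Matrix.smul_mul, vecMulVec_mul, hv]
  rw [key]
  simp only [Matrix.sub_mul, Matrix.add_mul, Matrix.mul_add, Matrix.mul_sub, Matrix.smul_mul,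
    Matrix.mul_smul, vmv, trace_sub, trace_add,
    trace_smul, smul_eq_mul]
  simp only [vecMulVec_mul, mul_vecMulVec, trace_vecMulVec, hv]
  have c1 : x ⬝ᵥ (Φ *ᵥ (Φ *ᵥ x)) = (Φ *ᵥ x) ⬝ᵥ (Φ *ᵥ x) := by
    rw [dotProduct_mulVec, hv]
  have c2 : w ⬝ᵥ (Φ *ᵥ (Φ *ᵥ w)) = (Φ *ᵥ w) ⬝ᵥ (Φ *ᵥ w) := by
    rw [dotProduct_mulVec, hv]
  have c3 : w ⬝ᵥ (Φ *ᵥ x) = x ⬝ᵥ (Φ *ᵥ w) := by
    rw [dotProduct_mulVec, hv, dotProduct_comm]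
  have c4 : (Φ *ᵥ x) ⬝ᵥ x = x ⬝ᵥ (Φ *ᵥ x) := dotProduct_comm _ _
  have c5 : (Φ *ᵥ w) ⬝ᵥ w = w ⬝ᵥ (Φ *ᵥ w) := dotProduct_comm _ _
  have c6 : (Φ *ᵥ x) ⬝ᵥ w = x ⬝ᵥ (Φ *ᵥ w) := by rw [dotProduct_comm, c3]
  have c7 : (Φ *ᵥ w) ⬝ᵥ x = x ⬝ᵥ (Φ *ᵥ w) := dotProduct_comm _ _
  simp only [c1, c2, c3, c4, c5, c6, c7]
  ring

end Vale.Agent.P224
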