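import Mathlib
import Vale.Agent.P224.Local
import Vale.Agent.P224.GraphAlg

namespace Vale.Agent.P224

open MeasureTheory Metric Set Matrix Filter
open scoped RealInnerProductSpace ContDiff Topology

variable {m : ℕ}

/-- partial derivative of a scalar function -/
noncomputable def pr (φ : EuclideanSpace ℝ (Fin m) → ℝ) (i : Fin m)
    (x : EuclideanSpace ℝ (Fin m)) : ℝ := fderiv ℝ φ x (EuclideanSpace.single i 1)

lemma contDiffOn_pr {φ : EuclideanSpace ℝ (Fin m) → ℝ} {T : Set (EuclideanSpace ℝ (Fin m))}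
    (hT : IsOpen T) (h : ContDiffOn ℝ ∞ φ T) (i : Fin m) : ContDiffOn ℝ ∞ (pr φ i) T := by
  have h1 : ContDiffOn ℝ ∞ (fderiv ℝ φ) T := h.fderiv_of_isOpen hT (by norm_cast)
  exact h1.clm_apply contDiffOn_const

lemma diffAt_of_contDiffOn {F : Type*} [NormedAddCommGroup F] [NormedSpace ℝ F]
    {φ : EuclideanSpace ℝ (Fin m) → F} {T : Set (EuclideanSpace ℝ (Fin m))}
    (hT : IsOpen T) (h : ContDiffOn ℝ ∞ φ T) {x : EuclideanSpace ℝ (Fin m)} (hx : x ∈ T) :
    DifferentiableAt ℝ φ x :=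
  (h.differentiableOn (by norm_num)).differentiableAt (hT.mem_nhds hx)

/-- An orthonormal frame adapted to a point and a normal. -/
structure IsFrame (p ν : EuclideanSpace ℝ (Fin (m + 2)))
    (e : Fin m → EuclideanSpace ℝ (Fin (m + 2))) : Prop where
  pp : ⟪p, p⟫ = 1
  nn : ⟪ν, ν⟫ = 1
  pn : ⟪p, ν⟫ = 0
  ep : ∀ i, ⟪e i, p⟫ = 0
  en : ∀ i, ⟪e i, ν⟫ = 0
  ee : ∀ i j, ⟪e i, e j⟫ = if i = j then 1 else 0

/-- the unnormalised projective graph -/
noncomputable def graphY (p ν : EuclideanSpace ℝ (Fin (m + 2)))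
    (e : Fin m → EuclideanSpace ℝ (Fin (m + 2))) (φ : EuclideanSpace ℝ (Fin m) → ℝ)
    (x : EuclideanSpace ℝ (Fin m)) : EuclideanSpace ℝ (Fin (m + 2)) :=
  p + ∑ i, x i • e i + φ x • ν

variable {p ν : EuclideanSpace ℝ (Fin (m + 2))} {e : Fin m → EuclideanSpace ℝ (Fin (m + 2))}
  {φ c : EuclideanSpace ℝ (Fin m) → ℝ} {X : EuclideanSpace ℝ (Fin m) → EuclideanSpace ℝ (Fin (m + 2))}
  {T : Set (EuclideanSpace ℝ (Fin m))}

lemma hasFDerivAt_graphY {x : EuclideanSpace ℝ (Fin m)} (hφ : DifferentiableAt ℝ φ x) :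
    HasFDerivAt (graphY p ν e φ)
      (∑ i, (EuclideanSpace.proj (𝕜 := ℝ) i).smulRight (e i) + (fderiv ℝ φ x).smulRight ν) x := by
  unfold graphY
  have h1 : HasFDerivAt (fun x : EuclideanSpace ℝ (Fin m) => ∑ i, x i • e i)
      (∑ i, (EuclideanSpace.proj (𝕜 := ℝ) i).smulRight (e i)) x := by
    apply HasFDerivAt.fun_sum
    intro i _
    exact ((EuclideanSpace.proj (𝕜 := ℝ) i).hasFDerivAt (x := x)).smul_const (e i)
  exact (h1.const_add p).add (hφ.hasFDerivAt.smul_const ν)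

lemma fderiv_graphY {x : EuclideanSpace ℝ (Fin m)} (hφ : DifferentiableAt ℝ φ x) (j : Fin m) :
    fderiv ℝ (graphY p ν e φ) x (EuclideanSpace.single j 1) = e j + pr φ j x • ν := by
  rw [(hasFDerivAt_graphY hφ).fderiv]
  simp only [_root_.add_apply, _root_.sum_apply, ContinuousLinearMap.smulRight_apply, pr]
  simp

namespace IsFrame

variable (hf : IsFrame p ν e)
include hf

lemma np : ⟪ν, p⟫ = 0 := by rw [real_inner_comm]; exact hf.pn
lemma pe (i : Fin m) : ⟪p, e i⟫ = 0 := by rw [real_inner_comm]; exact hf.ep i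
lemma ne (i : Fin m) : ⟪ν, e i⟫ = 0 := by rw [real_inner_comm]; exact hf.en i

lemma inner_YY (x : EuclideanSpace ℝ (Fin m)) :
    ⟪graphY p ν e φ x, graphY p ν e φ x⟫ = 1 + (x : Fin m → ℝ) ⬝ᵥ x + φ x ^ 2 := by
  unfold graphY
  simp only [inner_add_left, inner_add_right, sum_inner, inner_sum, inner_smul_left,
    inner_smul_right, hf.pp, hf.nn, hf.pn, hf.np, hf.ep, hf.en, hf.pe, hf.ne, hf.ee,
    conj_trivial]
  simp [dotProduct]
  ring

lemma inner_Y_dY (x : EuclideanSpace ℝ (Fin m)) (d : ℝ) (j : Fin m) :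
    ⟪graphY p ν e φ x, e j + d • ν⟫ = x j + φ x * d := by
  unfold graphY
  simp only [inner_add_left, inner_add_right, sum_inner, inner_smul_left,
    inner_smul_right, hf.nn, hf.pn, hf.en, hf.pe, hf.ne, hf.ee, conj_trivial]
  simp
  ring

lemma inner_dY_dY (d d' : ℝ) (i j : Fin m) :
    ⟪e i + d • ν, e j + d' • ν⟫ = (if i = j then 1 else 0) + d * d' := by
  simp only [inner_add_left, inner_add_right, inner_smul_left,
    inner_smul_right, hf.nn, hf.en, hf.ne, hf.ee, conj_trivial]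
  ring

lemma inner_N_Y (x : EuclideanSpace ℝ (Fin m)) (a : ℝ) (d : Fin m → ℝ) :
    ⟪graphY p ν e φ x, ν - a • p - ∑ i, d i • e i⟫ = φ x - a - (x : Fin m → ℝ) ⬝ᵥ d := by
  unfold graphY
  simp only [inner_add_left, inner_sub_right, sum_inner, inner_sum, inner_smul_left,
    inner_smul_right, hf.pp, hf.nn, hf.pn, hf.np, hf.ep, hf.en, hf.pe, hf.ne, hf.ee,
    conj_trivial]
  have hcomm : ∑ i, d i * x i = ∑ i, x i * d i := Finset.sum_congr rfl fun i _ => mul_comm _ _
  simp [dotProduct]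
  linear_combination hcomm

lemma inner_N_dY (a : ℝ) (d : Fin m → ℝ) (j : Fin m) (d' : ℝ) :
    ⟪e j + d' • ν, ν - a • p - ∑ i, d i • e i⟫ = d' - d j := by
  simp only [inner_add_left, inner_sub_right, inner_sum, inner_smul_left,
    inner_smul_right, hf.nn, hf.np, hf.ep, hf.en, hf.ne, hf.ee,
    conj_trivial]
  simp

lemma inner_N_N (a : ℝ) (d : Fin m → ℝ) :
    ⟪ν - a • p - ∑ i, d i • e i, ν - a • p - ∑ i, d i • e i⟫ = 1 + d ⬝ᵥ d + a ^ 2 := by
  simp only [inner_sub_left, inner_sub_right, sum_inner, inner_sum, inner_smul_left,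
    inner_smul_right, hf.pp, hf.nn, hf.pn, hf.np, hf.ep, hf.en, hf.pe, hf.ne, hf.ee,
    conj_trivial]
  simp [dotProduct]
  ring

lemma inner_n_N (a : ℝ) (d : Fin m → ℝ) :
    ⟪ν, ν - a • p - ∑ i, d i • e i⟫ = 1 := by
  simp only [inner_sub_right, inner_sum,
    inner_smul_right, hf.nn, hf.np, hf.ne]
  simp

end IsFrame

lemma D1_graph (hT : IsOpen T) (hc : ContDiffOn ℝ ∞ c T)
    (hφ : ContDiffOn ℝ ∞ φ T) (hX : ∀ x ∈ T, X x = c x • graphY p ν e φ x)
    {z : EuclideanSpace ℝ (Fin m)} (hz : z ∈ T) (j : Fin m) :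
    D1 X j z = pr c j z • graphY p ν e φ z + c z • (e j + pr φ j z • ν) := by
  have hev : X =ᶠ[𝓝 z] fun v => c v • graphY p ν e φ v := by
    filter_upwards [hT.mem_nhds hz] with v hv
    exact hX v hv
  unfold D1
  have hcz := diffAt_of_contDiffOn hT hc hz
  have hφz := diffAt_of_contDiffOn hT hφ hz
  rw [hev.fderiv_eq, fderiv_fun_smul hcz (hasFDerivAt_graphY hφz).differentiableAt]
  simp only [_root_.add_apply, _root_.smul_apply, ContinuousLinearMap.smulRight_apply,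
    fderiv_graphY hφz]
  exact _root_.add_comm _ _

/-- the fundamental forms of a projective graph -/
theorem graph_forms (hf : IsFrame p ν e) (hT : IsOpen T) (hc : ContDiffOn ℝ ∞ c T)
    (hφ : ContDiffOn ℝ ∞ φ T) (hX : ∀ x ∈ T, X x = c x • graphY p ν e φ x)
    (hunit : ∀ x ∈ T, ‖X x‖ = 1) {x : EuclideanSpace ℝ (Fin m)} (hx : x ∈ T)
    (d y : Fin m → ℝ) (a W r2 : ℝ) (hd : d = fun i => pr φ i x)
    (ha : a = φ x - (x : Fin m → ℝ) ⬝ᵥ d) (hW : W = 1 + d ⬝ᵥ d + a ^ 2)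
    (hr : r2 = 1 + (x : Fin m → ℝ) ⬝ᵥ x + φ x ^ 2) (hy : y = (x : Fin m → ℝ) + φ x • d) :
    ∃ n : EuclideanSpace ℝ (Fin (m + 2)), n = (Real.sqrt W)⁻¹ • (ν - a • p - ∑ i, d i • e i) ∧
      ‖n‖ = 1 ∧ ⟪X x, n⟫ = 0 ∧ (∀ i, ⟪D1 X i x, n⟫ = 0) ∧
      c x ^ 2 * r2 = 1 ∧
      Matrix.gram ℝ (fun i => D1 X i x) =
        (c x ^ 2) • (1 + vecMulVec d d - r2⁻¹ • vecMulVec y y) ∧
      (Matrix.of fun i j => ⟪D2 X i j x, n⟫) =
        (c x * (Real.sqrt W)⁻¹) • Matrix.of fun i j => pr (pr φ j) i x := by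
  have hW0 : 0 < W := by
    rw [hW]
    have : 0 ≤ d ⬝ᵥ d := by
      unfold dotProduct
      exact Finset.sum_nonneg fun i _ => mul_self_nonneg _
    positivity
  have hr0 : 0 < r2 := by
    rw [hr]
    have : 0 ≤ (x : Fin m → ℝ) ⬝ᵥ x := by
      unfold dotProduct
      exact Finset.sum_nonneg fun i _ => mul_self_nonneg _
    positivity
  have hsW : 0 < Real.sqrt W := Real.sqrt_pos.mpr hW0
  set N : EuclideanSpace ℝ (Fin (m + 2)) := ν - a • p - ∑ i, d i • e i with hN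
  have hNN : ⟪N, N⟫ = W := by rw [hN, hf.inner_N_N, hW]
  have hNY : ⟪graphY p ν e φ x, N⟫ = 0 := by
    rw [hN, hf.inner_N_Y, ha]; ring
  have hNdY : ∀ j, ⟪e j + pr φ j x • ν, N⟫ = 0 := by
    intro j
    rw [hN, hf.inner_N_dY, hd]; ring
  have hνN : ⟪ν, N⟫ = 1 := hf.inner_n_N a d
  -- first derivatives on T
  have hD1 : ∀ z ∈ T, ∀ j, D1 X j z = pr c j z • graphY p ν e φ z +
      c z • (e j + pr φ j z • ν) := fun z hz j => D1_graph hT hc hφ hX hz j
  have hcr : c x ^ 2 * r2 = 1 := by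
    have h1 : ⟪X x, X x⟫ = 1 := by rw [real_inner_self_eq_norm_sq, hunit x hx]; norm_num
    rw [hX x hx, inner_smul_left, inner_smul_right, hf.inner_YY, ← hr] at h1
    simp only [conj_trivial] at h1
    linear_combination h1
  have hc0 : c x ≠ 0 := by
    intro h0
    rw [h0] at hcr
    norm_num at hcr
  -- derivative of c
  have hYY : ⟪graphY p ν e φ x, graphY p ν e φ x⟫ = r2 := by rw [hf.inner_YY, hr]
  have hYdY : ∀ j, ⟪graphY p ν e φ x, e j + pr φ j x • ν⟫ = y j := by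
    intro j
    rw [hf.inner_Y_dY, hy, hd]
    simp
  have hdYY : ∀ j, ⟪e j + pr φ j x • ν, graphY p ν e φ x⟫ = y j := by
    intro j
    rw [real_inner_comm, hYdY]
  have hci : ∀ i, pr c i x = - c x * y i / r2 := by
    intro i
    have h1 : ⟪X x, D1 X i x⟫ + ⟪D1 X i x, X x⟫ = 0 := by
      have hXd : DifferentiableAt ℝ X x := by
        have hXs : ContDiffOn ℝ ∞ X T := by
          have : ContDiffOn ℝ ∞ (fun v => c v • graphY p ν e φ v) T := by
            apply hc.smul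
            unfold graphY
            apply ContDiffOn.add
            · apply ContDiffOn.add contDiffOn_const
              apply ContDiffOn.sum
              intro i _
              have : ContDiff ℝ ∞ (fun x : EuclideanSpace ℝ (Fin m) => x i) :=
                (EuclideanSpace.proj (𝕜 := ℝ) i).contDiff
              exact (this.smul contDiff_const).contDiffOn
            · exact hφ.smul contDiffOn_const
          exact this.congr hX
        exact diffAt_of_contDiffOn hT hXs hx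
      exact inner_const_deriv hT hx 1 (fun v hv => by
        rw [real_inner_self_eq_norm_sq, hunit v hv]; norm_num) hXd hXd _
    rw [real_inner_comm (X x) (D1 X i x), hD1 x hx i, hX x hx] at h1
    simp only [inner_add_right, inner_smul_left, inner_smul_right, hYY, conj_trivial] at h1
    have h2 : ⟪graphY p ν e φ x, e i⟫ + pr φ i x * ⟪graphY p ν e φ x, ν⟫ = y i := by
      have := hYdY i
      rwa [inner_add_right, inner_smul_right] at this
    have h3 : c x * (pr c i x * r2 + c x * y i) = 0 := by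
      rw [← h2]
      linear_combination h1 / 2
    have h4 : pr c i x * r2 + c x * y i = 0 := by
      rcases mul_eq_zero.mp h3 with h | h
      · exact absurd h hc0
      · exact h
    field_simp
    linear_combination h4
  refine ⟨(Real.sqrt W)⁻¹ • N, rfl, ?_, ?_, ?_, hcr, ?_, ?_⟩
  · rw [norm_smul, norm_inv, Real.norm_eq_abs, abs_of_pos hsW]
    have : ‖N‖ = Real.sqrt W := by
      rw [← hNN, real_inner_self_eq_norm_sq, Real.sqrt_sq (norm_nonneg _)]
    rw [this, inv_mul_cancel₀ hsW.ne']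
  · rw [hX x hx, inner_smul_left, inner_smul_right, hNY]
    simp
  · intro i
    rw [hD1 x hx i, inner_smul_right, inner_add_left, inner_smul_left, inner_smul_left, hNY,
      hNdY]
    simp
  · ext i j
    rw [gram_apply, hD1 x hx i, hD1 x hx j]
    rw [inner_add_left, inner_add_right, inner_add_right]
    simp only [inner_smul_left, inner_smul_right, hYY, hYdY, hdYY, conj_trivial]
    rw [hf.inner_dY_dY, hci, hci]
    simp only [Matrix.smul_apply, Matrix.sub_apply, Matrix.add_apply, Matrix.one_apply,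
      vecMulVec_apply, smul_eq_mul]
    have hdi : ∀ i, pr φ i x = d i := by intro i; rw [hd]
    rw [hdi, hdi]
    field_simp
    ring
  · ext i j
    simp only [of_apply, Matrix.smul_apply, smul_eq_mul, inner_smul_right]
    have hD2 : D2 X i j x = pr (pr c j) i x • graphY p ν e φ x +
        pr c j x • (e i + pr φ i x • ν) + pr c i x • (e j + pr φ j x • ν) +
        (c x * pr (pr φ j) i x) • ν := by
      have hev : D1 X j =ᶠ[𝓝 x] fun v => pr c j v • graphY p ν e φ v +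
          c v • (e j + pr φ j v • ν) := by
        filter_upwards [hT.mem_nhds hx] with v hv
        exact hD1 v hv j
      have hcx := diffAt_of_contDiffOn hT hc hx
      have hφx := diffAt_of_contDiffOn hT hφ hx
      have hcj := diffAt_of_contDiffOn hT (contDiffOn_pr hT hc j) hx
      have hφj := diffAt_of_contDiffOn hT (contDiffOn_pr hT hφ j) hx
      have h1 : HasFDerivAt (fun v => pr c j v • graphY p ν e φ v) _ x :=
        hcj.hasFDerivAt.smul (hasFDerivAt_graphY hφx)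
      have h2 : HasFDerivAt (fun v => e j + pr φ j v • ν) _ x :=
        (hφj.hasFDerivAt.smul_const ν).const_add (e j)
      have h3 : HasFDerivAt (fun v => c v • (e j + pr φ j v • ν)) _ x :=
        hcx.hasFDerivAt.smul h2
      unfold D2
      rw [hev.fderiv_eq, (h1.fun_add h3).fderiv]
      have h4 := fderiv_graphY (p := p) (ν := ν) (e := e) hφx i
      rw [(hasFDerivAt_graphY hφx).fderiv] at h4
      simp only [_root_.add_apply, _root_.smul_apply, ContinuousLinearMap.smulRight_apply] at h4 ⊢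
      rw [h4]
      simp only [pr, smul_smul]
      module
    rw [hD2, inner_add_left, inner_add_left, inner_add_left, inner_smul_left, inner_smul_left,
      inner_smul_left, inner_smul_left, hNY, hNdY, hNdY, hνN]
    simp only [conj_trivial]
    ring

/-- The equations of a projective graph with vanishing mean curvature. -/
theorem graph_eqs (x : Fin m → ℝ) (Φ Gm Hm : Matrix (Fin m) (Fin m) ℝ) (hΦ : Φᵀ = Φ)
    (d y w : Fin m → ℝ) (f a W r2 cc s : ℝ)
    (ha : a = f - x ⬝ᵥ d) (hW : W = 1 + d ⬝ᵥ d + a ^ 2)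
    (hr : r2 = 1 + x ⬝ᵥ x + f ^ 2) (hy : y = x + f • d) (hw : w = d - a • x)
    (hcc : cc ^ 2 * r2 = 1)
    (hG : Gm = (cc ^ 2) • (1 + vecMulVec d d - r2⁻¹ • vecMulVec y y))
    (hH : Hm = (cc * (Real.sqrt W)⁻¹) • Φ)
    (h1 : (Gm⁻¹ * Hm).trace = 0) (h2 : ((Gm⁻¹ * Hm) * (Gm⁻¹ * Hm)).trace = s) :
    W * (Φ.trace + x ⬝ᵥ (Φ *ᵥ x)) = w ⬝ᵥ (Φ *ᵥ w) ∧
    s * W ^ 3 = r2 * (W ^ 2 * ((Φ * Φ).trace +
        2 * ((Φ *ᵥ x) ⬝ᵥ (Φ *ᵥ x)) + (x ⬝ᵥ (Φ *ᵥ x)) ^ 2) -
        2 * W * ((Φ *ᵥ w) ⬝ᵥ (Φ *ᵥ w) + (x ⬝ᵥ (Φ *ᵥ w)) ^ 2) +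
        (w ⬝ᵥ (Φ *ᵥ w)) ^ 2) := by
  have hW0 : 0 < W := by
    rw [hW]
    have : 0 ≤ d ⬝ᵥ d := by
      unfold dotProduct
      exact Finset.sum_nonneg fun i _ => mul_self_nonneg _
    positivity
  have hr0 : 0 < r2 := by
    rw [hr]
    have : 0 ≤ x ⬝ᵥ x := by
      unfold dotProduct
      exact Finset.sum_nonneg fun i _ => mul_self_nonneg _
    positivity
  have hsW : 0 < Real.sqrt W := Real.sqrt_pos.mpr hW0
  have hsq : Real.sqrt W ^ 2 = W := Real.sq_sqrt hW0.le
  have hcc0 : cc ≠ 0 := by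
    intro h0
    rw [h0] at hcc
    norm_num at hcc
  set K : Matrix (Fin m) (Fin m) ℝ := 1 + vecMulVec x x - W⁻¹ • vecMulVec w w with hK
  have hinv := graph_inv x d f a r2 W w y ha hr hW hw hy hr0.ne' hW0.ne'
  have hGi : Gm⁻¹ = (cc ^ 2)⁻¹ • K := by
    apply Matrix.inv_eq_right_inv
    rw [hG, Matrix.smul_mul, Matrix.mul_smul, hinv, smul_smul,
      mul_inv_cancel₀ (pow_ne_zero 2 hcc0), one_smul]
  have hGH : Gm⁻¹ * Hm = (cc * Real.sqrt W)⁻¹ • (K * Φ) := by
    rw [hGi, hH, Matrix.smul_mul, Matrix.mul_smul, smul_smul]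
    congr 1
    field_simp
  rw [hGH] at h1 h2
  rw [trace_smul, graph_trace, smul_eq_mul] at h1
  rw [Matrix.smul_mul, Matrix.mul_smul, smul_smul, trace_smul, graph_trace_sq x w W Φ hΦ,
    smul_eq_mul] at h2
  have hne : (cc * Real.sqrt W)⁻¹ ≠ 0 := inv_ne_zero (mul_ne_zero hcc0 hsW.ne')
  have e1 : Φ.trace + x ⬝ᵥ (Φ *ᵥ x) - W⁻¹ * (w ⬝ᵥ (Φ *ᵥ w)) = 0 := by
    rcases mul_eq_zero.mp h1 with h | h
    · exact absurd h hne
    · exact h
  constructor
  · field_simp at e1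
    linear_combination e1
  · have e2 : (cc * Real.sqrt W)⁻¹ * (cc * Real.sqrt W)⁻¹ = r2 / W := by
      have : (cc * Real.sqrt W) * (cc * Real.sqrt W) = W / r2 := by
        rw [eq_div_iff hr0.ne']
        linear_combination W * hcc + cc ^ 2 * r2 * hsq
      rw [← mul_inv, this, inv_div]
    rw [e2] at h2
    rw [← h2]
    field_simp
    ring

end Vale.Agent.P224
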