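import Mathlib

namespace Vale.Agent.P224

open Filter Topology Asymptotics
open scoped ContDiff

/-- second-order expansion at 0 -/
def J2 (g : ℝ → ℝ) (a b c : ℝ) : Prop :=
  (fun t => g t - (a + b * t + c * t ^ 2)) =o[𝓝 0] fun t : ℝ => t ^ 2

lemma J2.congr {g h : ℝ → ℝ} {a b c : ℝ} (hg : J2 g a b c) (e : g =ᶠ[𝓝 0] h) : J2 h a b c := by
  unfold J2 at *
  refine hg.congr' ?_ (EventuallyEq.refl _ _)
  filter_upwards [e] with t ht
  rw [ht]

lemma J2.const (c : ℝ) : J2 (fun _ => c) c 0 0 := by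
  unfold J2
  simp

lemma J2.id : J2 (fun t => t) 0 1 0 := by
  unfold J2
  simp

lemma J2.add {g h : ℝ → ℝ} {a b c a' b' c' : ℝ} (hg : J2 g a b c) (hh : J2 h a' b' c') :
    J2 (fun t => g t + h t) (a + a') (b + b') (c + c') := by
  unfold J2 at *
  refine (hg.add hh).congr_left ?_
  intro t
  ring

lemma J2.neg {g : ℝ → ℝ} {a b c : ℝ} (hg : J2 g a b c) :
    J2 (fun t => - g t) (-a) (-b) (-c) := by
  unfold J2 at *
  refine hg.neg_left.congr_left ?_
  intro t
  ring

lemma J2.sub {g h : ℝ → ℝ} {a b c a' b' c' : ℝ} (hg : J2 g a b c) (hh : J2 h a' b' c') :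
    J2 (fun t => g t - h t) (a - a') (b - b') (c - c') := by
  unfold J2 at *
  refine (hg.sub hh).congr_left ?_
  intro t
  ring

lemma J2.sum {ι : Type*} (s : Finset ι) {g : ι → ℝ → ℝ} {a b c : ι → ℝ}
    (h : ∀ i ∈ s, J2 (g i) (a i) (b i) (c i)) :
    J2 (fun t => ∑ i ∈ s, g i t) (∑ i ∈ s, a i) (∑ i ∈ s, b i) (∑ i ∈ s, c i) := by
  classical
  induction s using Finset.induction_on with
  | empty => simpa using J2.const 0
  | insert i s hi ih =>
    simp only [Finset.sum_insert hi]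
    exact (h i (Finset.mem_insert_self _ _)).add
      (ih fun j hj => h j (Finset.mem_insert_of_mem hj))

lemma J2.mul {g h : ℝ → ℝ} {a b c a' b' c' : ℝ} (hg : J2 g a b c) (hh : J2 h a' b' c') :
    J2 (fun t => g t * h t) (a * a') (a * b' + b * a') (a * c' + b * b' + c * a') := by
  have h0 : Tendsto (fun t : ℝ => t) (𝓝 0) (𝓝 0) := tendsto_id
  have hbg : (fun t : ℝ => a + b * t + c * t ^ 2) =O[𝓝 0] fun _ => (1 : ℝ) := by
    have : ContinuousAt (fun t : ℝ => a + b * t + c * t ^ 2) 0 := by fun_prop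
    exact this.isBigO_one ℝ
  have hbh : h =O[𝓝 0] fun _ => (1 : ℝ) := by
    have h1 : (fun t => h t - (a' + b' * t + c' * t ^ 2)) =O[𝓝 0] fun _ => (1 : ℝ) := by
      refine hh.isBigO.trans ?_
      have : ContinuousAt (fun t : ℝ => t ^ 2) 0 := by fun_prop
      exact this.isBigO_one ℝ
    have h2 : (fun t : ℝ => a' + b' * t + c' * t ^ 2) =O[𝓝 0] fun _ => (1 : ℝ) := by
      have : ContinuousAt (fun t : ℝ => a' + b' * t + c' * t ^ 2) 0 := by fun_prop
      exact this.isBigO_one ℝ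
    refine (h1.add h2).congr_left ?_
    intro t
    ring
  have e1 : (fun t => (g t - (a + b * t + c * t ^ 2)) * h t) =o[𝓝 0] fun t : ℝ => t ^ 2 := by
    have := hg.mul_isBigO hbh
    simpa using this
  have e2 : (fun t => (a + b * t + c * t ^ 2) * (h t - (a' + b' * t + c' * t ^ 2)))
      =o[𝓝 0] fun t : ℝ => t ^ 2 := by
    have := hbg.mul_isLittleO hh
    simpa using this
  have e3 : (fun t : ℝ => t ^ 2 * (t * (b * c' + c * b' + c * c' * t))) =o[𝓝 0]
      fun t : ℝ => t ^ 2 := by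
    have h3 : (fun t : ℝ => t * (b * c' + c * b' + c * c' * t)) =o[𝓝 0] fun _ => (1 : ℝ) := by
      rw [isLittleO_one_iff]
      have : ContinuousAt (fun t : ℝ => t * (b * c' + c * b' + c * c' * t)) 0 := by fun_prop
      have h4 := this.tendsto
      simpa using h4
    have := (isBigO_refl (fun t : ℝ => t ^ 2) (𝓝 0)).mul_isLittleO h3
    simpa using this
  unfold J2
  refine ((e1.add e2).add e3).congr_left ?_
  intro t
  ring

lemma J2.unique {g : ℝ → ℝ} {a b c a' b' c' : ℝ} (h : J2 g a b c) (h' : J2 g a' b' c') :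
    a = a' ∧ b = b' ∧ c = c' := by
  have h1 : (fun t : ℝ => (a' - a) + (b' - b) * t + (c' - c) * t ^ 2) =o[𝓝 0]
      fun t : ℝ => t ^ 2 := by
    refine (h.sub h').congr_left ?_
    intro t
    ring
  have ht0 : Tendsto (fun t : ℝ => t ^ 2) (𝓝[≠] 0) (𝓝 0) := by
    have : ContinuousAt (fun t : ℝ => t ^ 2) 0 := by fun_prop
    have h3 := this.tendsto.mono_left (nhdsWithin_le_nhds (s := {0}ᶜ))
    simpa using h3
  have hne : ∀ᶠ t : ℝ in 𝓝[≠] 0, t ≠ 0 := eventually_mem_nhdsWithin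
  have k0 : a' - a = 0 := by
    have h2 : Tendsto (fun t : ℝ => (a' - a) + (b' - b) * t + (c' - c) * t ^ 2) (𝓝 0)
        (𝓝 (a' - a)) := by
      have : ContinuousAt (fun t : ℝ => (a' - a) + (b' - b) * t + (c' - c) * t ^ 2) 0 := by
        fun_prop
      have h3 := this.tendsto
      simpa using h3
    have h4 : Tendsto (fun t : ℝ => (a' - a) + (b' - b) * t + (c' - c) * t ^ 2) (𝓝 0) (𝓝 0) := by
      refine h1.trans_tendsto ?_
      have : ContinuousAt (fun t : ℝ => t ^ 2) 0 := by fun_prop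
      have h3 := this.tendsto
      simpa using h3
    exact tendsto_nhds_unique h2 h4
  have k1 : b' - b = 0 := by
    have h5 : (fun t : ℝ => (b' - b) + (c' - c) * t) =o[𝓝[≠] 0] fun t : ℝ => t := by
      have h6 := (h1.mono (nhdsWithin_le_nhds (s := {0}ᶜ)))
      have h7 := h6.mul_isBigO (isBigO_refl (fun t : ℝ => t⁻¹) (𝓝[≠] 0))
      refine h7.congr' ?_ ?_
      · filter_upwards [hne] with t ht
        rw [k0]
        field_simp
        ring
      · filter_upwards [hne] with t ht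
        field_simp
    have h8 : Tendsto (fun t : ℝ => (b' - b) + (c' - c) * t) (𝓝[≠] 0) (𝓝 0) := by
      refine h5.trans_tendsto ?_
      exact tendsto_id.mono_left nhdsWithin_le_nhds
    have h9 : Tendsto (fun t : ℝ => (b' - b) + (c' - c) * t) (𝓝[≠] 0) (𝓝 (b' - b)) := by
      have : ContinuousAt (fun t : ℝ => (b' - b) + (c' - c) * t) 0 := by fun_prop
      have h3 := this.tendsto.mono_left (nhdsWithin_le_nhds (s := {0}ᶜ))
      simpa using h3
    exact tendsto_nhds_unique h9 h8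
  have k2 : c' - c = 0 := by
    have h5 : (fun _ : ℝ => (c' - c)) =o[𝓝[≠] 0] fun _ : ℝ => (1 : ℝ) := by
      have h6 := (h1.mono (nhdsWithin_le_nhds (s := {0}ᶜ)))
      have h7 := h6.mul_isBigO (isBigO_refl (fun t : ℝ => (t ^ 2)⁻¹) (𝓝[≠] 0))
      refine h7.congr' ?_ ?_
      · filter_upwards [hne] with t ht
        rw [k0, k1]
        field_simp
        ring
      · filter_upwards [hne] with t ht
        field_simp
    rw [isLittleO_one_iff] at h5
    exact tendsto_nhds_unique tendsto_const_nhds h5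
  refine ⟨by linarith, by linarith, by linarith⟩

/-- expansion of a twice differentiable function -/
lemma J2.of_deriv {g g' : ℝ → ℝ} {g'' : ℝ} (h1 : ∀ᶠ t in 𝓝 0, HasDerivAt g (g' t) t)
    (h2 : HasDerivAt g' g'' 0) : J2 g (g 0) (g' 0) (g'' / 2) := by
  unfold J2
  set k : ℝ → ℝ := fun t => g t - (g 0 + g' 0 * t + g'' / 2 * t ^ 2) with hk
  set k' : ℝ → ℝ := fun t => g' t - (g' 0 + g'' * t) with hk'
  have hkd : ∀ᶠ t in 𝓝 (0 : ℝ), HasDerivAt k (k' t) t := by
    filter_upwards [h1] with t ht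
    have h3 : HasDerivAt (fun t : ℝ => g 0 + g' 0 * t + g'' / 2 * t ^ 2)
        (g' 0 + g'' * t) t := by
      have := (((hasDerivAt_id t).const_mul (g' 0)).const_add (g 0)).add
        (((hasDerivAt_id t).pow 2).const_mul (g'' / 2))
      refine this.congr_deriv ?_
      simp
      ring
    exact ht.sub h3
  have hko : k' =o[𝓝 0] fun t : ℝ => t := by
    rw [hasDerivAt_iff_isLittleO] at h2
    refine h2.congr ?_ ?_
    · intro t
      simp only [hk', smul_eq_mul]
      ring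
    · intro t
      ring
  have hk0 : k 0 = 0 := by simp [hk]
  rw [isLittleO_iff]
  intro ε hε
  have h4 := (isLittleO_iff.mp hko) hε
  obtain ⟨δ, hδ, hb⟩ := Metric.eventually_nhds_iff_ball.mp (hkd.and h4)
  rw [Metric.eventually_nhds_iff_ball]
  refine ⟨δ, hδ, ?_⟩
  intro t ht
  have hball : Metric.ball (0 : ℝ) δ ∩ Metric.closedBall 0 |t| ⊆ Metric.ball 0 δ :=
    Set.inter_subset_left
  have hconv : Convex ℝ (Metric.ball (0 : ℝ) δ ∩ Metric.closedBall 0 |t|) :=
    (convex_ball _ _).inter (convex_closedBall _ _)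
  have h5 : ∀ x ∈ Metric.ball (0 : ℝ) δ ∩ Metric.closedBall 0 |t|,
      HasDerivWithinAt k (k' x) (Metric.ball (0 : ℝ) δ ∩ Metric.closedBall 0 |t|) x := by
    intro x hx
    exact (hb x hx.1).1.hasDerivWithinAt
  have h6 : ∀ x ∈ Metric.ball (0 : ℝ) δ ∩ Metric.closedBall 0 |t|, ‖k' x‖ ≤ ε * |t| := by
    intro x hx
    refine (hb x hx.1).2.trans ?_
    have : ‖x‖ ≤ |t| := by simpa using hx.2
    gcongr
  have h7 := hconv.norm_image_sub_le_of_norm_hasDerivWithin_le h5 h6
    (x := 0) (y := t) ⟨Metric.mem_ball_self hδ, by simp⟩ ⟨ht, by simp⟩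
  rw [hk0, sub_zero, sub_zero] at h7
  calc ‖k t‖ ≤ ε * |t| * ‖t‖ := h7
    _ = ε * ‖t ^ 2‖ := by
        rw [norm_pow, Real.norm_eq_abs]
        ring

end Vale.Agent.P224
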