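import Mathlib
import Vale.Agent.P224.Jet

namespace Vale.Agent.P224

open Filter Topology Matrix

variable {m : ℕ}

lemma J2.cast {g : ℝ → ℝ} {a b c a' b' c' : ℝ} (h : J2 g a b c) (ha : a = a') (hb : b = b')
    (hc : c = c') : J2 g a' b' c' := by
  subst ha hb hc
  exact h

lemma J2.dot {u v : ℝ → Fin m → ℝ} {a b c a' b' c' : Fin m → ℝ}
    (hu : ∀ i, J2 (fun t => u t i) (a i) (b i) (c i))
    (hv : ∀ i, J2 (fun t => v t i) (a' i) (b' i) (c' i)) :
    J2 (fun t => u t ⬝ᵥ v t) (∑ i, a i * a' i) (∑ i, (a i * b' i + b i * a' i))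
      (∑ i, (a i * c' i + b i * b' i + c i * a' i)) := by
  unfold dotProduct
  exact J2.sum Finset.univ fun i _ => (hu i).mul (hv i)

lemma J2.mulVec {Φ : ℝ → Matrix (Fin m) (Fin m) ℝ} {v : ℝ → Fin m → ℝ}
    {A B C : Fin m → Fin m → ℝ} {a b c : Fin m → ℝ}
    (hΦ : ∀ i j, J2 (fun t => Φ t i j) (A i j) (B i j) (C i j))
    (hv : ∀ i, J2 (fun t => v t i) (a i) (b i) (c i)) (i : Fin m) :
    J2 (fun t => (Φ t *ᵥ v t) i) (∑ j, A i j * a j) (∑ j, (A i j * b j + B i j * a j))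
      (∑ j, (A i j * c j + B i j * b j + C i j * a j)) := by
  unfold Matrix.mulVec
  exact J2.dot (fun j => hΦ i j) hv

/-- the computation of the second-order terms along a coordinate line -/
lemma jet_calc (k : Fin m) (l : Fin m → ℝ) (T Fk : Fin m → Fin m → ℝ) (P : Fin m → ℝ)
    (c0 s0 s1 s2 : ℝ) (Φ : ℝ → Matrix (Fin m) (Fin m) ℝ) (p x w : ℝ → Fin m → ℝ)
    (f s a W r2 : ℝ → ℝ)
    (hΦ : ∀ i j, J2 (fun t => Φ t i j) (if i = j then l i else 0) (T i j) (Fk i j))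
    (hp : ∀ i, J2 (fun t => p t i) 0 (if i = k then l k else 0) (P i))
    (hf : J2 f 0 0 c0) (hs : J2 s s0 s1 s2)
    (hx : ∀ i t, x t i = if i = k then t else 0)
    (ha : ∀ t, a t = f t - x t ⬝ᵥ p t) (hw : ∀ t, w t = p t - a t • x t)
    (hW : ∀ t, W t = 1 + p t ⬝ᵥ p t + a t ^ 2) (hr : ∀ t, r2 t = 1 + x t ⬝ᵥ x t + f t ^ 2)
    (h1 : ∀ᶠ t in 𝓝 0, W t * ((Φ t).trace + x t ⬝ᵥ (Φ t *ᵥ x t)) = w t ⬝ᵥ (Φ t *ᵥ w t))
    (h2 : ∀ᶠ t in 𝓝 0, s t * W t ^ 3 = r2 t * (W t ^ 2 * ((Φ t * Φ t).trace +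
        2 * ((Φ t *ᵥ x t) ⬝ᵥ (Φ t *ᵥ x t)) + (x t ⬝ᵥ (Φ t *ᵥ x t)) ^ 2) -
        2 * W t * ((Φ t *ᵥ w t) ⬝ᵥ (Φ t *ᵥ w t) + (x t ⬝ᵥ (Φ t *ᵥ w t)) ^ 2) +
        (w t ⬝ᵥ (Φ t *ᵥ w t)) ^ 2)) (hl : ∑ i, l i = 0) :
    (∑ i, Fk i i + l k = l k ^ 3) ∧ s0 = ∑ i, l i ^ 2 ∧
    3 * s0 * l k ^ 2 + s2 = s0 + 2 * s0 * l k ^ 2 + 2 * l k ^ 2 + ∑ i, ∑ j, T i j * T j i
      + 2 * ∑ i, l i * Fk i i - 2 * l k ^ 4 := by
  have jx : ∀ i, J2 (fun t => x t i) 0 (if i = k then 1 else 0) 0 := by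
    intro i
    simp only [hx]
    by_cases h : i = k
    · simp only [h, if_true]; exact J2.id
    · simp only [h, if_false]; exact J2.const 0
  have jxp : J2 (fun t => x t ⬝ᵥ p t) 0 0 (l k) := by
    refine (J2.dot jx hp).cast ?_ ?_ ?_ <;> simp
  have ja : J2 a 0 0 (c0 - l k) := by
    have h := hf.sub jxp
    refine (h.cast (by ring) (by ring) rfl).congr ?_
    filter_upwards with t
    rw [ha t]
  have jw : ∀ i, J2 (fun t => w t i) 0 (if i = k then l k else 0) (P i) := by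
    intro i
    have h := (hp i).sub (ja.mul (jx i))
    refine (h.cast (by ring) (by ring) (by ring)).congr ?_
    filter_upwards with t
    simp [hw t]
  have jpp : J2 (fun t => p t ⬝ᵥ p t) 0 0 (l k ^ 2) := by
    refine (J2.dot hp hp).cast ?_ ?_ ?_ <;> simp [pow_two]
  have ja2 : J2 (fun t => a t ^ 2) 0 0 0 := by
    refine ((ja.mul ja).cast (by ring) (by ring) (by ring)).congr ?_
    filter_upwards with t
    ring
  have jW : J2 W 1 0 (l k ^ 2) := by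
    refine ((((J2.const 1).add jpp).add ja2).cast (by ring) (by ring) (by ring)).congr ?_
    filter_upwards with t
    rw [hW t]
  have jxx : J2 (fun t => x t ⬝ᵥ x t) 0 0 1 := by
    refine (J2.dot jx jx).cast ?_ ?_ ?_ <;> simp
  have jf2 : J2 (fun t => f t ^ 2) 0 0 0 := by
    refine ((hf.mul hf).cast (by ring) (by ring) (by ring)).congr ?_
    filter_upwards with t
    ring
  have jr : J2 r2 1 0 1 := by
    refine ((((J2.const 1).add jxx).add jf2).cast (by ring) (by ring) (by ring)).congr ?_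
    filter_upwards with t
    rw [hr t]
  have jΦx : ∀ i, J2 (fun t => (Φ t *ᵥ x t) i) 0 (if i = k then l k else 0) (T i k) := by
    intro i
    refine (J2.mulVec hΦ jx i).cast ?_ ?_ ?_
    · simp
    · simp only [mul_ite, mul_one, mul_zero, add_zero, Finset.sum_ite_eq', Finset.mem_univ,
        if_true]
      by_cases h : i = k
      · simp [h]
      · simp [h]
    · simp
  have jΦw : ∀ i, ∃ c, J2 (fun t => (Φ t *ᵥ w t) i) 0 (if i = k then l k ^ 2 else 0) c := by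
    intro i
    refine ⟨_, (J2.mulVec hΦ jw i).cast ?_ ?_ rfl⟩
    · simp
    · simp only [mul_ite, mul_zero, add_zero, Finset.sum_ite_eq', Finset.mem_univ, if_true]
      by_cases h : i = k
      · simp [h, pow_two]
      · simp [h]
  choose cw hcw using jΦw
  have jxΦx : J2 (fun t => x t ⬝ᵥ (Φ t *ᵥ x t)) 0 0 (l k) := by
    refine (J2.dot jx jΦx).cast ?_ ?_ ?_ <;> simp
  have jΦxΦx : J2 (fun t => (Φ t *ᵥ x t) ⬝ᵥ (Φ t *ᵥ x t)) 0 0 (l k ^ 2) := by
    refine (J2.dot jΦx jΦx).cast ?_ ?_ ?_ <;> simp [pow_two]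
  have jΦwΦw : J2 (fun t => (Φ t *ᵥ w t) ⬝ᵥ (Φ t *ᵥ w t)) 0 0 (l k ^ 4) := by
    refine (J2.dot hcw hcw).cast ?_ ?_ ?_
    · simp
    · simp
    · simp
      ring
  have jxΦw : J2 (fun t => x t ⬝ᵥ (Φ t *ᵥ w t)) 0 0 (l k ^ 2) := by
    refine (J2.dot jx hcw).cast ?_ ?_ ?_ <;> simp
  have jwΦw : J2 (fun t => w t ⬝ᵥ (Φ t *ᵥ w t)) 0 0 (l k ^ 3) := by
    refine (J2.dot jw hcw).cast ?_ ?_ ?_
    · simp
    · simp
    · simp
      ring
  have jtr : J2 (fun t => (Φ t).trace) 0 (∑ i, T i i) (∑ i, Fk i i) := by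
    have h := J2.sum Finset.univ (fun i _ => hΦ i i)
    refine (h.cast ?_ rfl rfl)
    simpa using hl
  have jtr2 : J2 (fun t => (Φ t * Φ t).trace) (∑ i, l i ^ 2)
      (∑ i, 2 * (l i * T i i)) (∑ i, ∑ j, T i j * T j i + 2 * ∑ i, l i * Fk i i) := by
    have h : J2 (fun t => ∑ i, ∑ j, Φ t i j * Φ t j i) _ _ _ :=
      J2.sum Finset.univ (fun i _ => J2.sum Finset.univ (fun j _ => (hΦ i j).mul (hΦ j i)))
    refine (h.cast ?_ ?_ ?_).congr ?_
    · simp [pow_two]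
    · simp only [ite_mul, zero_mul, mul_ite, mul_zero, Finset.sum_add_distrib,
        Finset.sum_ite_eq, Finset.sum_ite_eq', Finset.mem_univ, if_true]
      rw [← Finset.sum_add_distrib]
      apply Finset.sum_congr rfl
      intro i _
      ring
    · simp only [ite_mul, zero_mul, mul_ite, mul_zero, Finset.sum_add_distrib,
        Finset.sum_ite_eq, Finset.sum_ite_eq', Finset.mem_univ, if_true]
      rw [Finset.mul_sum]
      have : ∑ i, Fk i i * l i = ∑ i, l i * Fk i i :=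
        Finset.sum_congr rfl fun i _ => mul_comm _ _
      rw [this]
      have h3 : ∑ i, 2 * (l i * Fk i i) = ∑ i, l i * Fk i i + ∑ i, l i * Fk i i := by
        rw [← Finset.sum_add_distrib]
        apply Finset.sum_congr rfl
        intro i _
        ring
      rw [h3]
      ring
    · filter_upwards with t
      simp [Matrix.trace, Matrix.mul_apply]
  -- first identity
  have k1 : J2 (fun t => W t * ((Φ t).trace + x t ⬝ᵥ (Φ t *ᵥ x t))) 0 (∑ i, T i i)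
      (∑ i, Fk i i + l k) := by
    refine (jW.mul (jtr.add jxΦx)).cast ?_ ?_ ?_ <;> ring
  have k2 := (k1.congr h1).unique jwΦw
  -- second identity
  have sq : ∀ {g : ℝ → ℝ} {b c : ℝ}, J2 g 0 0 c → J2 (fun t => g t ^ 2) 0 0 0 := by
    intro g b c hg
    refine ((hg.mul hg).cast (by ring) (by ring) (by ring)).congr ?_
    filter_upwards with t
    ring
  have jW2 : J2 (fun t => W t ^ 2) 1 0 (2 * l k ^ 2) := by
    refine ((jW.mul jW).cast (by ring) (by ring) (by ring)).congr ?_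
    filter_upwards with t
    ring
  have jW3 : J2 (fun t => W t ^ 3) 1 0 (3 * l k ^ 2) := by
    refine ((jW2.mul jW).cast (by ring) (by ring) (by ring)).congr ?_
    filter_upwards with t
    ring
  have jL := hs.mul jW3
  have jxx2 : J2 (fun t => (x t ⬝ᵥ (Φ t *ᵥ x t)) ^ 2) 0 0 0 := sq (b := 0) jxΦx
  have jxw2 : J2 (fun t => (x t ⬝ᵥ (Φ t *ᵥ w t)) ^ 2) 0 0 0 := sq (b := 0) jxΦw
  have jww2 : J2 (fun t => (w t ⬝ᵥ (Φ t *ᵥ w t)) ^ 2) 0 0 0 := sq (b := 0) jwΦw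
  have jR := jr.mul (((jW2.mul ((jtr2.add ((J2.const 2).mul jΦxΦx)).add jxx2)).sub
    (((J2.const 2).mul jW).mul (jΦwΦw.add jxw2))).add jww2)
  have k3 := (jL.congr h2).unique jR
  obtain ⟨e0, -, e2⟩ := k3
  refine ⟨k2.2.2, ?_, ?_⟩
  · linear_combination e0
  · have e0' : s0 = ∑ i, l i ^ 2 := by linear_combination e0
    rw [e0'] at e2 ⊢
    linear_combination e2

end Vale.Agent.P224
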