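import Mathlib
import Vale.Agent.P224.GraphForms
import Vale.Agent.P224.JetCalc

namespace Vale.Agent.P224

open MeasureTheory Metric Set Matrix Filter
open scoped RealInnerProductSpace ContDiff Topology

variable {m : ℕ} {p ν : EuclideanSpace ℝ (Fin (m + 2))}
  {e : Fin m → EuclideanSpace ℝ (Fin (m + 2))}
  {φ c g : EuclideanSpace ℝ (Fin m) → ℝ}
  {X : EuclideanSpace ℝ (Fin m) → EuclideanSpace ℝ (Fin (m + 2))}
  {T : Set (EuclideanSpace ℝ (Fin m))}

lemma pr_comm (hT : IsOpen T) (hg : ContDiffOn ℝ ∞ g T) {x : EuclideanSpace ℝ (Fin m)}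
    (hx : x ∈ T) (i j : Fin m) : pr (pr g i) j x = pr (pr g j) i x := by
  have hc : ContDiffAt ℝ ∞ g x := hg.contDiffAt (hT.mem_nhds hx)
  have hsym : IsSymmSndFDerivAt ℝ g x := hc.isSymmSndFDerivAt (by
    simp only [minSmoothness_of_isRCLikeNormedField]; norm_cast)
  have hd : DifferentiableAt ℝ (fderiv ℝ g) x := by
    have h1 : ContDiffOn ℝ ∞ (fderiv ℝ g) T := hg.fderiv_of_isOpen hT (by norm_cast)
    exact diffAt_of_contDiffOn hT h1 hx
  have e : ∀ i j, pr (pr g i) j x = fderiv ℝ (fderiv ℝ g) x (EuclideanSpace.single j 1)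
      (EuclideanSpace.single i 1) := by
    intro i j
    unfold pr
    rw [fderiv_clm_apply hd (differentiableAt_const _)]
    simp
  rw [e, e]
  exact hsym _ _

lemma pr_congr (hT : IsOpen T) {g h : EuclideanSpace ℝ (Fin m) → ℝ} (hgh : ∀ x ∈ T, g x = h x)
    {x : EuclideanSpace ℝ (Fin m)} (hx : x ∈ T) (i : Fin m) : pr g i x = pr h i x := by
  have : g =ᶠ[𝓝 x] h := by
    filter_upwards [hT.mem_nhds hx] with v hv
    exact hgh v hv
  unfold pr
  rw [this.fderiv_eq]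

lemma pr_comm4 (hT : IsOpen T) (hg : ContDiffOn ℝ ∞ g T) {x : EuclideanSpace ℝ (Fin m)}
    (hx : x ∈ T) (i k : Fin m) :
    pr (pr (pr (pr g i) i) k) k x = pr (pr (pr (pr g k) k) i) i x := by
  have h3 : ∀ (g : EuclideanSpace ℝ (Fin m) → ℝ), ContDiffOn ℝ ∞ g T → ∀ x ∈ T,
      pr (pr (pr g i) i) k x = pr (pr (pr g k) i) i x := by
    intro g hg x hx
    rw [pr_comm hT (contDiffOn_pr hT hg i) hx]
    exact pr_congr hT (fun y hy => pr_comm hT hg hy i k) hx i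
  have h4 : pr (pr (pr (pr g i) i) k) k x = pr (pr (pr (pr g k) i) i) k x :=
    pr_congr hT (h3 g hg) hx k
  rw [h4, h3 _ (contDiffOn_pr hT hg k) x hx]

lemma hasDerivAt_line (hT : IsOpen T) (hg : ContDiffOn ℝ ∞ g T) (k : Fin m) {t : ℝ}
    (ht : t • EuclideanSpace.single k (1 : ℝ) ∈ T) :
    HasDerivAt (fun t : ℝ => g (t • EuclideanSpace.single k (1 : ℝ)))
      (pr g k (t • EuclideanSpace.single k (1 : ℝ))) t := by
  have h1 : HasDerivAt (fun t : ℝ => t • EuclideanSpace.single k (1 : ℝ))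
      (EuclideanSpace.single k (1 : ℝ)) t := by
    have := (hasDerivAt_id t).smul_const (EuclideanSpace.single k (1 : ℝ))
    simpa using this
  exact (diffAt_of_contDiffOn hT hg ht).hasFDerivAt.comp_hasDerivAt t h1

lemma eventually_line_mem (hT : IsOpen T) (h0 : (0 : EuclideanSpace ℝ (Fin m)) ∈ T) (k : Fin m) :
    ∀ᶠ t : ℝ in 𝓝 0, t • EuclideanSpace.single k (1 : ℝ) ∈ T := by
  have hc : Continuous (fun t : ℝ => t • EuclideanSpace.single k (1 : ℝ)) := by fun_prop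
  have : Tendsto (fun t : ℝ => t • EuclideanSpace.single k (1 : ℝ)) (𝓝 0)
      (𝓝 (0 : EuclideanSpace ℝ (Fin m))) := by
    have := hc.tendsto 0
    rwa [zero_smul] at this
  exact this.eventually (hT.mem_nhds h0)

lemma J2_line (hT : IsOpen T) (h0 : (0 : EuclideanSpace ℝ (Fin m)) ∈ T)
    (hg : ContDiffOn ℝ ∞ g T) (k : Fin m) :
    J2 (fun t : ℝ => g (t • EuclideanSpace.single k (1 : ℝ))) (g 0) (pr g k 0)
      (pr (pr g k) k 0 / 2) := by
  have h1 : ∀ᶠ t : ℝ in 𝓝 0, HasDerivAt (fun t : ℝ => g (t • EuclideanSpace.single k (1 : ℝ)))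
      (pr g k (t • EuclideanSpace.single k (1 : ℝ))) t := by
    filter_upwards [eventually_line_mem hT h0 k] with t ht
    exact hasDerivAt_line hT hg k ht
  have h2 : HasDerivAt (fun t : ℝ => pr g k (t • EuclideanSpace.single k (1 : ℝ)))
      (pr (pr g k) k ((0 : ℝ) • EuclideanSpace.single k (1 : ℝ))) 0 :=
    hasDerivAt_line hT (contDiffOn_pr hT hg k) k (by rw [zero_smul]; exact h0)
  have := J2.of_deriv h1 h2
  simpa using this

/-- Simons' identity at the origin of a projective graph. -/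
theorem simons_graph (hf : IsFrame p ν e) (hT : IsOpen T)
    (h0 : (0 : EuclideanSpace ℝ (Fin m)) ∈ T) (hc : ContDiffOn ℝ ∞ c T)
    (hφ : ContDiffOn ℝ ∞ φ T) (hX : ∀ x ∈ T, X x = c x • graphY p ν e φ x)
    (hunit : ∀ x ∈ T, ‖X x‖ = 1) (s : EuclideanSpace ℝ (Fin m) → ℝ)
    (hφ0 : φ 0 = 0) (hd0 : ∀ i, pr φ i 0 = 0) (l : Fin m → ℝ)
    (hl : ∀ i j, pr (pr φ j) i 0 = if i = j then l i else 0)
    (hmin : ∀ x ∈ T, ∀ n : EuclideanSpace ℝ (Fin (m + 2)), ‖n‖ = 1 → ⟪X x, n⟫ = 0 →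
      (∀ i, ⟪D1 X i x, n⟫ = 0) →
      ((Matrix.gram ℝ (fun i => D1 X i x))⁻¹ * Matrix.of fun i j => ⟪D2 X i j x, n⟫).trace = 0 ∧
      (((Matrix.gram ℝ (fun i => D1 X i x))⁻¹ * Matrix.of fun i j => ⟪D2 X i j x, n⟫) *
      ((Matrix.gram ℝ (fun i => D1 X i x))⁻¹ * Matrix.of fun i j => ⟪D2 X i j x, n⟫)).trace = s x)
    (s1 s2 : Fin m → ℝ)
    (hs : ∀ k, J2 (fun t : ℝ => s (t • EuclideanSpace.single k (1 : ℝ))) (s 0) (s1 k) (s2 k)) :
    s 0 = ∑ i, l i ^ 2 ∧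
    ∑ k, s2 k = ∑ k, ∑ i, ∑ j, pr (pr (pr φ j) i) k 0 ^ 2 + m * s 0 - s 0 ^ 2 := by
  -- the two identities on T
  have hid : ∀ x ∈ T, ∀ (d w : Fin m → ℝ) (a W r2 : ℝ) (Φ : Matrix (Fin m) (Fin m) ℝ),
      d = (fun i => pr φ i x) → a = φ x - (x : Fin m → ℝ) ⬝ᵥ d → W = 1 + d ⬝ᵥ d + a ^ 2 →
      r2 = 1 + (x : Fin m → ℝ) ⬝ᵥ x + φ x ^ 2 → w = d - a • (x : Fin m → ℝ) →
      Φ = (Matrix.of fun i j => pr (pr φ j) i x) →
      W * (Φ.trace + (x : Fin m → ℝ) ⬝ᵥ (Φ *ᵥ x)) = w ⬝ᵥ (Φ *ᵥ w) ∧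
      s x * W ^ 3 = r2 * (W ^ 2 * ((Φ * Φ).trace +
        2 * ((Φ *ᵥ x) ⬝ᵥ (Φ *ᵥ x)) + ((x : Fin m → ℝ) ⬝ᵥ (Φ *ᵥ x)) ^ 2) -
        2 * W * ((Φ *ᵥ w) ⬝ᵥ (Φ *ᵥ w) + ((x : Fin m → ℝ) ⬝ᵥ (Φ *ᵥ w)) ^ 2) +
        (w ⬝ᵥ (Φ *ᵥ w)) ^ 2) := by
    intro x hx d w a W r2 Φ hd ha hW hr hw hΦ
    obtain ⟨n, -, hn1, hn2, hn3, hcr, hG, hH⟩ := graph_forms hf hT hc hφ hX hunit hx d
      ((x : Fin m → ℝ) + φ x • d) a W r2 hd ha hW hr rfl
    obtain ⟨t1, t2⟩ := hmin x hx n hn1 hn2 hn3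
    have hΦs : Φᵀ = Φ := by
      rw [hΦ]
      ext i j
      simp only [transpose_apply, of_apply]
      exact pr_comm hT hφ hx i j
    exact graph_eqs (x : Fin m → ℝ) Φ _ _ hΦs d _ w (φ x) a W r2 (c x) (s x) ha hW hr rfl hw hcr
      hG (by rw [hH, hΦ]) t1 t2
  -- jets along each line
  have hlin : ∀ k, (∑ i, pr (pr (pr (pr φ i) i) k) k 0 / 2 + l k = l k ^ 3) ∧
      3 * s 0 * l k ^ 2 + s2 k = s 0 + 2 * s 0 * l k ^ 2 + 2 * l k ^ 2 +
      ∑ i, ∑ j, pr (pr (pr φ j) i) k 0 * pr (pr (pr φ i) j) k 0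
      + 2 * ∑ i, l i * (pr (pr (pr (pr φ i) i) k) k 0 / 2) - 2 * l k ^ 4 ∧
      s 0 = ∑ i, l i ^ 2 := by
    intro k
    set ln : ℝ → EuclideanSpace ℝ (Fin m) := fun t => t • EuclideanSpace.single k (1 : ℝ) with hln
    have hmem := eventually_line_mem hT h0 k
    have hΦs : ∀ i j, ContDiffOn ℝ ∞ (pr (pr φ j) i) T := fun i j =>
      contDiffOn_pr hT (contDiffOn_pr hT hφ j) i
    have jΦ : ∀ i j, J2 (fun t => (Matrix.of fun i j => pr (pr φ j) i (ln t)) i j)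
        (if i = j then l i else 0) (pr (pr (pr φ j) i) k 0)
        (pr (pr (pr (pr φ j) i) k) k 0 / 2) := by
      intro i j
      have := J2_line hT h0 (hΦs i j) k
      rw [hl] at this
      exact this
    have jp : ∀ i, J2 (fun t => (fun i => pr φ i (ln t)) i) 0 (if i = k then l k else 0)
        (pr (pr (pr φ i) k) k 0 / 2) := by
      intro i
      have h1 := J2_line hT h0 (contDiffOn_pr hT hφ i) k
      rw [hd0, hl] at h1
      refine h1.cast rfl ?_ rfl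
      by_cases hik : i = k
      · simp [hik]
      · simp [hik, Ne.symm hik]
    have jf : J2 (fun t => φ (ln t)) 0 0 (pr (pr φ k) k 0 / 2) := by
      have h1 := J2_line hT h0 hφ k
      rw [hφ0, hd0] at h1
      exact h1
    have hl0 : ∑ i, l i = 0 := by
      have h1 := (hid 0 h0 _ _ _ _ _ _ rfl rfl rfl rfl rfl rfl).1
      have hz : ((0 : EuclideanSpace ℝ (Fin m)) : Fin m → ℝ) = 0 := rfl
      have hdz : (fun i => pr φ i 0) = 0 := by
        funext i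
        exact hd0 i
      rw [hz, hdz] at h1
      simp only [dotProduct_zero, add_zero, hφ0, sub_self, smul_zero,
        zero_pow (two_ne_zero), one_mul, mulVec_zero] at h1
      rw [Matrix.trace] at h1
      simpa [hl] using h1
    have hx : ∀ i t, (fun t => ((ln t : EuclideanSpace ℝ (Fin m)) : Fin m → ℝ)) t i
        = if i = k then t else 0 := by
      intro i t
      simp [hln]
    have key := jet_calc k l (fun i j => pr (pr (pr φ j) i) k 0)
      (fun i j => pr (pr (pr (pr φ j) i) k) k 0 / 2) (fun i => pr (pr (pr φ i) k) k 0 / 2)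
      (pr (pr φ k) k 0 / 2) (s 0) (s1 k) (s2 k)
      (fun t => Matrix.of fun i j => pr (pr φ j) i (ln t)) (fun t i => pr φ i (ln t))
      (fun t => ((ln t : EuclideanSpace ℝ (Fin m)) : Fin m → ℝ))
      (fun t => (fun i => pr φ i (ln t)) - (φ (ln t) - ((ln t : EuclideanSpace ℝ (Fin m)) :
        Fin m → ℝ) ⬝ᵥ (fun i => pr φ i (ln t))) • ((ln t : EuclideanSpace ℝ (Fin m)) :
        Fin m → ℝ))
      (fun t => φ (ln t)) (fun t => s (ln t))
      (fun t => φ (ln t) - ((ln t : EuclideanSpace ℝ (Fin m)) :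
        Fin m → ℝ) ⬝ᵥ (fun i => pr φ i (ln t)))
      (fun t => 1 + (fun i => pr φ i (ln t)) ⬝ᵥ (fun i => pr φ i (ln t)) +
        (φ (ln t) - ((ln t : EuclideanSpace ℝ (Fin m)) :
        Fin m → ℝ) ⬝ᵥ (fun i => pr φ i (ln t))) ^ 2)
      (fun t => 1 + ((ln t : EuclideanSpace ℝ (Fin m)) :
        Fin m → ℝ) ⬝ᵥ ((ln t : EuclideanSpace ℝ (Fin m)) :
        Fin m → ℝ) + φ (ln t) ^ 2)
      jΦ jp jf (hs k) hx (fun t => rfl) (fun t => rfl) (fun t => rfl) (fun t => rfl)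
      (by
        filter_upwards [hmem] with t ht
        exact (hid (ln t) ht _ _ _ _ _ _ rfl rfl rfl rfl rfl rfl).1)
      (by
        filter_upwards [hmem] with t ht
        exact (hid (ln t) ht _ _ _ _ _ _ rfl rfl rfl rfl rfl rfl).2) hl0
    exact ⟨key.1, key.2.2, key.2.1⟩
  -- m could be zero only if the statement is trivial
  rcases Nat.eq_zero_or_pos m with hm | hm
  · subst hm
    have hz : s 0 = 0 := by
      have := (hid 0 h0 _ _ _ _ _ _ rfl rfl rfl rfl rfl rfl).2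
      simpa [dotProduct, Matrix.trace, hφ0] using this
    simp [hz]
  have hs0 : s 0 = ∑ i, l i ^ 2 := (hlin ⟨0, hm⟩).2.2
  refine ⟨hs0, ?_⟩
  have hsum := Finset.sum_congr rfl (fun k (_ : k ∈ Finset.univ) => (hlin k).2.1)
  have hT2 : ∀ k, ∑ i, ∑ j, pr (pr (pr φ j) i) k 0 * pr (pr (pr φ i) j) k 0
      = ∑ i, ∑ j, pr (pr (pr φ j) i) k 0 ^ 2 := by
    intro k
    apply Finset.sum_congr rfl
    intro i _
    apply Finset.sum_congr rfl
    intro j _
    have : pr (pr (pr φ i) j) k 0 = pr (pr (pr φ j) i) k 0 :=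
      pr_congr hT (fun y hy => pr_comm hT hφ hy i j) h0 k
    rw [this, pow_two]
  have hF : ∑ k, ∑ i, l i * (pr (pr (pr (pr φ i) i) k) k 0 / 2)
      = ∑ i, l i * (l i ^ 3 - l i) := by
    rw [Finset.sum_comm]
    apply Finset.sum_congr rfl
    intro i _
    rw [← Finset.mul_sum]
    congr 1
    rw [← (hlin i).1]
    have : ∑ k, pr (pr (pr (pr φ i) i) k) k 0 / 2 = ∑ k, pr (pr (pr (pr φ k) k) i) i 0 / 2 := by
      apply Finset.sum_congr rfl
      intro k _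
      rw [pr_comm4 hT hφ h0]
    rw [this]
    ring
  simp only [hT2, Finset.sum_add_distrib, Finset.sum_sub_distrib, ← Finset.mul_sum,
    Finset.sum_const, Finset.card_univ, Fintype.card_fin, nsmul_eq_mul] at hsum
  rw [hF, ← hs0] at hsum
  have h5 : ∑ i, l i * (l i ^ 3 - l i) = ∑ i, l i ^ 4 - s 0 := by
    rw [hs0, ← Finset.sum_sub_distrib]
    apply Finset.sum_congr rfl
    intro i _
    ring
  rw [h5] at hsum
  linear_combination hsum

end Vale.Agent.P224
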