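import Mathlib
import Vale.Agent.P224.SimonsGraph
import Vale.Agent.P224.Change

namespace Vale.Agent.P224

open MeasureTheory Metric Set Matrix Filter
open scoped RealInnerProductSpace ContDiff Topology

variable {m : ℕ} {p ν : EuclideanSpace ℝ (Fin (m + 2))}
  {e : Fin m → EuclideanSpace ℝ (Fin (m + 2))}
  {f : EuclideanSpace ℝ (Fin m) → EuclideanSpace ℝ (Fin (m + 2))}
  {T : Set (EuclideanSpace ℝ (Fin m))}

lemma IsFrame.expand (hf : IsFrame p ν e) (v : EuclideanSpace ℝ (Fin (m + 2))) :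
    v = ⟪v, p⟫ • p + ∑ i, ⟪v, e i⟫ • e i + ⟪v, ν⟫ • ν := by
  set q : Fin m ⊕ Fin 2 → EuclideanSpace ℝ (Fin (m + 2)) := Sum.elim e ![p, ν] with hq
  have ho : Orthonormal ℝ q := by
    rw [orthonormal_iff_ite]
    intro s t
    rcases s with s | s <;> rcases t with t | t
    · simp [hq, hf.ee]
    · fin_cases t <;> simp [hq, hf.ep, hf.en]
    · fin_cases s <;> simp [hq, hf.pe, hf.ne]
    · fin_cases s <;> fin_cases t
      · simpa [hq] using hf.pp
      · simp [hq, hf.pn]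
      · simp [hq, hf.np]
      · simpa [hq] using hf.nn
  have hcard : Fintype.card (Fin m ⊕ Fin 2) = Module.finrank ℝ (EuclideanSpace ℝ (Fin (m + 2))) := by
    simp
  have hspan : ⊤ ≤ Submodule.span ℝ (Set.range q) := by
    have : Nonempty (Fin m ⊕ Fin 2) := ⟨Sum.inr 0⟩
    have := (basisOfOrthonormalOfCardEqFinrank ho hcard).span_eq
    rw [coe_basisOfOrthonormalOfCardEqFinrank] at this
    exact this.ge
  have hb := (OrthonormalBasis.mk ho hspan).sum_repr' v
  simp only [OrthonormalBasis.coe_mk, Fintype.sum_sum_type, Fin.sum_univ_two] at hb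
  simp only [hq, Sum.elim_inl, Sum.elim_inr, Matrix.cons_val_zero, Matrix.cons_val_one] at hb
  conv_lhs => rw [← hb]
  rw [real_inner_comm v p, real_inner_comm v ν]
  have : ∀ i, ⟪e i, v⟫ = ⟪v, e i⟫ := fun i => real_inner_comm _ _
  simp only [this]
  abel

/-- Every immersed hypersurface is locally a projective graph over its tangent space, in
coordinates which diagonalise the second fundamental form. -/
theorem exists_graph (h : Imm f T) {u0 : EuclideanSpace ℝ (Fin m)} (hu0 : u0 ∈ T) :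
    ∃ (p ν : EuclideanSpace ℝ (Fin (m + 2))) (e : Fin m → EuclideanSpace ℝ (Fin (m + 2)))
      (σ : EuclideanSpace ℝ (Fin m) → EuclideanSpace ℝ (Fin m))
      (T' : Set (EuclideanSpace ℝ (Fin m))) (c φ : EuclideanSpace ℝ (Fin m) → ℝ) (l : Fin m → ℝ),
      IsFrame p ν e ∧ IsOpen T' ∧ 0 ∈ T' ∧ ContDiffOn ℝ ∞ σ T' ∧ σ 0 = u0 ∧ MapsTo σ T' T ∧
      ContDiffOn ℝ ∞ c T' ∧ ContDiffOn ℝ ∞ φ T' ∧
      (∀ x ∈ T', f (σ x) = c x • graphY p ν e φ x) ∧ φ 0 = 0 ∧ (∀ i, pr φ i 0 = 0) ∧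
      (∀ i j, pr (pr φ j) i 0 = if i = j then l i else 0) ∧
      (∀ x ∈ T', IsUnit (Jac σ x).det) ∧ p = f u0 ∧ ν = nu f u0 ∧
      (∀ i, e i = ∑ b, Jac σ 0 b i • D1 f b u0) := by
  obtain ⟨P, κ, hPG, hPH⟩ := exists_simul_diag (G f u0) (H f u0) (h.G_posDef hu0) (h.H_symm hu0)
  set p := f u0 with hp
  set ν := nu f u0 with hν
  set e : Fin m → EuclideanSpace ℝ (Fin (m + 2)) := fun j => ∑ b, P b j • D1 f b u0 with he
  have hee : ∀ i j, ⟪e i, e j⟫ = if i = j then 1 else 0 := by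
    intro i j
    have h1 := congrFun (congrFun hPG i) j
    rw [Matrix.one_apply] at h1
    rw [← h1]
    simp only [he, sum_inner, inner_sum, inner_smul_left, inner_smul_right, conj_trivial,
      Matrix.mul_apply, transpose_apply, G, gram_apply, Finset.sum_mul]
    apply Finset.sum_congr rfl
    intro b _
    rw [Finset.mul_sum]
    apply Finset.sum_congr rfl
    intro a _
    ring
  have hf : IsFrame p ν e := by
    refine ⟨?_, ?_, ?_, ?_, ?_, hee⟩
    · rw [real_inner_self_eq_norm_sq, h.unit u0 hu0]; norm_num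
    · rw [real_inner_self_eq_norm_sq, h.norm_nu hu0]; norm_num
    · rw [real_inner_comm]; exact Imm.inner_nu_f u0
    · intro i
      simp only [he, sum_inner, inner_smul_left]
      apply Finset.sum_eq_zero
      intro b _
      rw [h.inner_D1_f hu0, mul_zero]
    · intro i
      simp only [he, sum_inner, inner_smul_left]
      apply Finset.sum_eq_zero
      intro b _
      rw [real_inner_comm, Imm.inner_nu_D1, mul_zero]
  -- the projection
  set T1 : Set (EuclideanSpace ℝ (Fin m)) := {u ∈ T | 0 < ⟪f u, p⟫} with hT1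
  have hcp : ContDiffOn ℝ ∞ (fun u => ⟪f u, p⟫) T := h.smooth.inner ℝ contDiffOn_const
  have hT1o : IsOpen T1 := by
    have := hcp.continuousOn.isOpen_inter_preimage h.isOpen isOpen_Ioi (t := Ioi 0)
    exact this
  have hu1 : u0 ∈ T1 := by
    refine ⟨hu0, ?_⟩
    rw [← hp, hf.pp]; norm_num
  set Ψ : EuclideanSpace ℝ (Fin m) → EuclideanSpace ℝ (Fin m) :=
    fun u => WithLp.toLp 2 (fun i => ⟪f u, e i⟫ / ⟪f u, p⟫) with hΨ
  have hΨs : ContDiffOn ℝ ∞ Ψ T1 := by
    rw [contDiffOn_euclidean]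
    intro i
    have h1 : ContDiffOn ℝ ∞ (fun u => ⟪f u, e i⟫) T1 :=
      (h.smooth.inner ℝ contDiffOn_const).mono (fun u hu => hu.1)
    exact h1.div (hcp.mono (fun u hu => hu.1)) (fun u hu => hu.2.ne')
  have hΨ0 : Ψ u0 = 0 := by
    ext i
    simp only [hΨ]
    rw [← hp, hf.pe, zero_div]
    rfl
  have hfd : DifferentiableAt ℝ f u0 := h.diffAt hu0
  have hΨd : DifferentiableAt ℝ Ψ u0 := diffAt_of_contDiffOn hT1o hΨs hu1
  have hΨc : ∀ i v, (fderiv ℝ Ψ u0 v) i = ⟪fderiv ℝ f u0 v, e i⟫ := by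
    intro i v
    have h1 : HasFDerivAt (fun u => Ψ u i)
        ((EuclideanSpace.proj (𝕜 := ℝ) i).comp (fderiv ℝ Ψ u0)) u0 :=
      (EuclideanSpace.proj (𝕜 := ℝ) i).hasFDerivAt.comp u0 hΨd.hasFDerivAt
    have h2 : HasFDerivAt (fun u => ⟪f u, p⟫) (fderiv ℝ (fun u => ⟪f u, p⟫) u0) u0 :=
      (diffAt_of_contDiffOn h.isOpen hcp hu0).hasFDerivAt
    have h3 := h1.mul h2
    have h4 : (fun u => Ψ u i * ⟪f u, p⟫) =ᶠ[𝓝 u0] fun u => ⟪f u, e i⟫ := by
      filter_upwards [hT1o.mem_nhds hu1] with u hu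
      simp only [hΨ]
      exact div_mul_cancel₀ _ hu.2.ne'
    have h5 := congrArg (fun A : EuclideanSpace ℝ (Fin m) →L[ℝ] ℝ => A v) h3.fderiv
    simp only [_root_.add_apply, _root_.smul_apply, ContinuousLinearMap.comp_apply] at h5
    have h6 : fderiv ℝ ((fun u => Ψ u i) * fun u => ⟪f u, p⟫) u0 v
        = ⟪fderiv ℝ f u0 v, e i⟫ := by
      have : ((fun u => Ψ u i) * fun u => ⟪f u, p⟫) =ᶠ[𝓝 u0] fun u => ⟪f u, e i⟫ := h4
      rw [this.fderiv_eq, fderiv_inner_apply ℝ hfd (differentiableAt_const _)]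
      simp
    have h8 : Ψ u0 i = 0 := by rw [hΨ0]; rfl
    rw [h6, h8, ← hp, hf.pp] at h5
    simp only [zero_smul, zero_add, one_smul] at h5
    simpa using h5.symm
  have hinj : Function.Injective (fderiv ℝ Ψ u0) := by
    rw [injective_iff_map_eq_zero]
    intro v hv
    apply h.inj u0 hu0
    rw [map_zero]
    rw [hf.expand (fderiv ℝ f u0 v)]
    have h1 : ∀ i, ⟪fderiv ℝ f u0 v, e i⟫ = 0 := by
      intro i
      rw [← hΨc, hv]
      rfl
    have h2 : ⟪fderiv ℝ f u0 v, p⟫ = 0 := by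
      rw [fderiv_eq_sum, sum_inner]
      apply Finset.sum_eq_zero
      intro b _
      rw [inner_smul_left, hp, h.inner_D1_f hu0, mul_zero]
    have h3 : ⟪fderiv ℝ f u0 v, ν⟫ = 0 := by
      rw [fderiv_eq_sum, sum_inner]
      apply Finset.sum_eq_zero
      intro b _
      rw [inner_smul_left, real_inner_comm, hν, Imm.inner_nu_D1, mul_zero]
    simp [h1, h2, h3]
  set A : EuclideanSpace ℝ (Fin m) ≃L[ℝ] EuclideanSpace ℝ (Fin m) :=
    (LinearEquiv.ofInjectiveEndo (fderiv ℝ Ψ u0).toLinearMap hinj).toContinuousLinearEquiv with hA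
  have hAc : (A : EuclideanSpace ℝ (Fin m) →L[ℝ] EuclideanSpace ℝ (Fin m)) = fderiv ℝ Ψ u0 := by
    ext v
    simp [hA]
  have hΨat : ContDiffAt ℝ ∞ Ψ u0 := hΨs.contDiffAt (hT1o.mem_nhds hu1)
  have hΨA : HasFDerivAt Ψ (A : EuclideanSpace ℝ (Fin m) →L[ℝ] EuclideanSpace ℝ (Fin m)) u0 := by
    rw [hAc]; exact hΨd.hasFDerivAt
  set E := hΨat.toOpenPartialHomeomorph Ψ hΨA (by norm_num) with hE
  have hEc : ∀ u, E u = Ψ u := fun u => rfl
  have hEu : u0 ∈ E.source := ContDiffAt.mem_toOpenPartialHomeomorph_source hΨat hΨA (by norm_num)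
  -- invertibility set
  set S0 : Set (EuclideanSpace ℝ (Fin m)) := {u ∈ T1 | fderiv ℝ Ψ u ∈
    Set.range ((↑) : (EuclideanSpace ℝ (Fin m) ≃L[ℝ] EuclideanSpace ℝ (Fin m)) →
      (EuclideanSpace ℝ (Fin m) →L[ℝ] EuclideanSpace ℝ (Fin m)))} with hS0
  have hS0o : IsOpen S0 := by
    have h1 : ContDiffOn ℝ ∞ (fderiv ℝ Ψ) T1 := hΨs.fderiv_of_isOpen hT1o (by norm_cast)
    exact h1.continuousOn.isOpen_inter_preimage hT1o ContinuousLinearEquiv.isOpen
  have hS0u : u0 ∈ S0 := ⟨hu1, ⟨A, hAc⟩⟩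
  set T' : Set (EuclideanSpace ℝ (Fin m)) := E.target ∩ E.symm ⁻¹' S0 with hT'
  have hT'o : IsOpen T' := E.symm.isOpen_inter_preimage hS0o
  have h00 : E u0 = 0 := by rw [hEc, hΨ0]
  have hsymm0 : E.symm 0 = u0 := by rw [← h00]; exact E.left_inv hEu
  have h0T : (0 : EuclideanSpace ℝ (Fin m)) ∈ T' := by
    refine ⟨?_, ?_⟩
    · rw [← h00]; exact E.map_source hEu
    · rw [mem_preimage, hsymm0]; exact hS0u
  have hσ : ContDiffOn ℝ ∞ E.symm T' := by
    intro x hx
    obtain ⟨hx1, hx2, ⟨B, hB⟩⟩ := hx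
    apply ContDiffAt.contDiffWithinAt
    apply E.contDiffAt_symm hx1 (f₀' := B)
    · have : DifferentiableAt ℝ Ψ (E.symm x) := diffAt_of_contDiffOn hT1o hΨs hx2
      have h3 := this.hasFDerivAt
      rw [← hB] at h3
      exact h3
    · exact hΨs.contDiffAt (hT1o.mem_nhds hx2)
  have hmaps : MapsTo E.symm T' T := fun x hx => hx.2.1.1
  set c : EuclideanSpace ℝ (Fin m) → ℝ := fun x => ⟪f (E.symm x), p⟫ with hc
  set φ : EuclideanSpace ℝ (Fin m) → ℝ := fun x => ⟪f (E.symm x), ν⟫ / ⟪f (E.symm x), p⟫ with hφ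
  have hXs : ContDiffOn ℝ ∞ (fun x => f (E.symm x)) T' := h.smooth.comp hσ hmaps
  have hcs : ContDiffOn ℝ ∞ c T' := hXs.inner ℝ contDiffOn_const
  have hc0 : ∀ x ∈ T', 0 < c x := fun x hx => hx.2.1.2
  have hφs : ContDiffOn ℝ ∞ φ T' :=
    (hXs.inner ℝ contDiffOn_const).div hcs (fun x hx => (hc0 x hx).ne')
  have hgraph : ∀ x ∈ T', f (E.symm x) = c x • graphY p ν e φ x := by
    intro x hx
    have h1 : Ψ (E.symm x) = x := by rw [← hEc]; exact E.right_inv hx.1
    have h2 : ∀ i, ⟪f (E.symm x), e i⟫ = c x * x i := by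
      intro i
      have h3 : Ψ (E.symm x) i = x i := by rw [h1]
      simp only [hΨ] at h3
      rw [← h3]
      have := (hc0 x hx).ne'
      simp only [hc] at this ⊢
      field_simp
    conv_lhs => rw [hf.expand (f (E.symm x))]
    unfold graphY
    simp only [h2, smul_add, Finset.smul_sum, smul_smul]
    congr 2
    simp only [hφ, hc]
    have := (hc0 x hx).ne'
    simp only [hc] at this
    field_simp
  have hc00 : c 0 = 1 := by simp only [hc, hsymm0]; rw [← hp]; exact hf.pp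
  have hφ00 : φ 0 = 0 := by
    simp only [hφ, hsymm0]; rw [← hp, hf.pn, zero_div]
  have hY0 : graphY p ν e φ 0 = p := by
    unfold graphY
    simp [hφ00]
  have hσ0 : ContDiffAt ℝ ∞ E.symm 0 := hσ.contDiffAt (hT'o.mem_nhds h0T)
  have hfat : ContDiffAt ℝ ∞ f (E.symm 0) := by
    rw [hsymm0]; exact h.smooth.contDiffAt (h.isOpen.mem_nhds hu0)
  have hD1X : ∀ i, D1 (fun x => f (E.symm x)) i 0 = ∑ b, Jac E.symm 0 b i • D1 f b u0 := by
    intro i
    have := D1_comp (g := fun x => f (E.symm x)) (hσ0.differentiableAt (by norm_num))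
      (hfat.differentiableAt (by norm_num)) (EventuallyEq.refl _ _) i
    rw [hsymm0] at this
    exact this
  have hD1g : ∀ i, D1 (fun x => f (E.symm x)) i 0 = pr c i 0 • p + (e i + pr φ i 0 • ν) := by
    intro i
    have := D1_graph (p := p) (ν := ν) (e := e) hT'o hcs hφs hgraph h0T i
    rw [hY0, hc00, one_smul] at this
    exact this
  have hφ1 : ∀ i, pr φ i 0 = 0 := by
    intro i
    have h1 : ⟪D1 (fun x => f (E.symm x)) i 0, ν⟫ = 0 := by
      rw [hD1X, sum_inner]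
      apply Finset.sum_eq_zero
      intro b _
      rw [inner_smul_left, real_inner_comm, hν, Imm.inner_nu_D1, mul_zero]
    rw [hD1g] at h1
    simp only [inner_add_left, inner_smul_left, hf.pn, hf.en, hf.nn, conj_trivial] at h1
    linarith
  have hc1 : ∀ i, pr c i 0 = 0 := by
    intro i
    have h1 : ⟪D1 (fun x => f (E.symm x)) i 0, p⟫ = 0 := by
      rw [hD1X, sum_inner]
      apply Finset.sum_eq_zero
      intro b _
      rw [inner_smul_left, hp, h.inner_D1_f hu0, mul_zero]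
    rw [hD1g] at h1
    simp only [inner_add_left, inner_smul_left, hf.pp, hf.ep, hf.np, conj_trivial] at h1
    linarith
  have hei : ∀ i, e i = ∑ b, Jac E.symm 0 b i • D1 f b u0 := by
    intro i
    rw [← hD1X, hD1g, hφ1, hc1]
    simp
  have hJP : Jac E.symm 0 = P := by
    ext b i
    have h1 : ∑ b, (Jac E.symm 0 b i - P b i) • D1 f b u0 = 0 := by
      simp only [sub_smul, Finset.sum_sub_distrib]
      rw [← hei]
      simp only [he, sub_self]
    have h2 := (Fintype.linearIndependent_iff.mp (h.linearIndependent hu0)) _ h1 b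
    linarith
  have hunit : ∀ x ∈ T', ‖f (E.symm x)‖ = 1 := fun x hx => h.unit _ (hmaps hx)
  have hHess : ∀ i j, pr (pr φ j) i 0 = if i = j then κ i else 0 := by
    intro i j
    have hdz : (0 : Fin m → ℝ) = (fun i => pr φ i 0) := by
      funext i; exact (hφ1 i).symm
    have hz : ((0 : EuclideanSpace ℝ (Fin m)) : Fin m → ℝ) = 0 := rfl
    obtain ⟨n, hn, -, -, -, -, -, hH⟩ := graph_forms hf hT'o hcs hφs hgraph hunit h0T
      0 _ 0 1 1 hdz (by rw [hφ00]; simp) (by simp) (by rw [hφ00, hz]; simp) rfl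
    have hnν : n = ν := by rw [hn]; simp
    rw [hnν, hc00] at hH
    have h2 := (forms_comp (g := fun x => f (E.symm x)) hσ0 hfat (EventuallyEq.refl _ _) ν
      (by
        intro b
        rw [hsymm0, real_inner_comm, hν]
        exact Imm.inner_nu_D1 _ b)).2
    rw [h2, hJP, hsymm0] at hH
    have h3 : (Matrix.of fun i j => ⟪D2 f i j u0, ν⟫) = H f u0 := rfl
    rw [h3, hPH] at hH
    have h4 := congrFun (congrFun hH i) j
    simp only [Real.sqrt_one, inv_one, mul_one, one_smul, of_apply, diagonal_apply] at h4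
    exact h4.symm
  have hJu : ∀ x ∈ T', IsUnit (Jac E.symm x).det := by
    intro x hx
    rw [isUnit_iff_ne_zero]
    intro h0
    have hσx : ContDiffAt ℝ ∞ E.symm x := hσ.contDiffAt (hT'o.mem_nhds hx)
    have hfx : ContDiffAt ℝ ∞ f (E.symm x) :=
      h.smooth.contDiffAt (h.isOpen.mem_nhds (hmaps hx))
    have h1 := (forms_comp (g := fun x => f (E.symm x)) hσx hfx (EventuallyEq.refl _ _) 0
      (by intro b; simp)).1
    obtain ⟨n, -, -, -, -, hcr, hG, -⟩ := graph_forms hf hT'o hcs hφs hgraph hunit hx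
      _ _ _ _ _ rfl rfl rfl rfl rfl
    have h2 := congrArg Matrix.det (h1.symm.trans hG)
    rw [det_mul, det_mul, h0, mul_zero, det_smul] at h2
    set d : Fin m → ℝ := fun i => pr φ i x with hd
    set a := φ x - (x : Fin m → ℝ) ⬝ᵥ d with ha
    have hW0 : (1 + d ⬝ᵥ d + a ^ 2) ≠ 0 := by
      have : 0 ≤ d ⬝ᵥ d := by
        unfold dotProduct
        exact Finset.sum_nonneg fun i _ => mul_self_nonneg _
      positivity
    have hr0 : (1 + (x : Fin m → ℝ) ⬝ᵥ x + φ x ^ 2) ≠ 0 := by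
      have : 0 ≤ (x : Fin m → ℝ) ⬝ᵥ x := by
        unfold dotProduct
        exact Finset.sum_nonneg fun i _ => mul_self_nonneg _
      positivity
    have hinv := graph_inv (x : Fin m → ℝ) d (φ x) a (1 + (x : Fin m → ℝ) ⬝ᵥ x + φ x ^ 2)
      (1 + d ⬝ᵥ d + a ^ 2) _ _ rfl rfl rfl rfl rfl hr0 hW0
    have h3 := congrArg Matrix.det hinv
    rw [det_mul, det_one] at h3
    have h4 : (c x ^ 2) ^ Fintype.card (Fin m) ≠ 0 :=
      pow_ne_zero _ (pow_ne_zero _ (hc0 x hx).ne')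
    rcases mul_eq_zero.mp h2.symm with h5 | h5
    · exact h4 h5
    · rw [h5, zero_mul] at h3
      exact zero_ne_one h3
  exact ⟨p, ν, e, E.symm, T', c, φ, κ, hf, hT'o, h0T, hσ, hsymm0, hmaps, hcs, hφs, hgraph, hφ00,
    hφ1, hHess, hJu, rfl, rfl, hei⟩

end Vale.Agent.P224
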