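import Mathlib
import Vale.Agent.P224.ExistsGraph

namespace Vale.Agent.P224

open MeasureTheory Metric Set Matrix Filter
open scoped RealInnerProductSpace ContDiff Topology

variable {m : ℕ} {f : EuclideanSpace ℝ (Fin m) → EuclideanSpace ℝ (Fin (m + 2))}
  {T : Set (EuclideanSpace ℝ (Fin m))}

/-- the traces of the fundamental forms for all unit normals -/
def Traces (f : EuclideanSpace ℝ (Fin m) → EuclideanSpace ℝ (Fin (m + 2)))
    (u : EuclideanSpace ℝ (Fin m)) (a b : ℝ) : Prop :=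
  ∀ n : EuclideanSpace ℝ (Fin (m + 2)), ‖n‖ = 1 → ⟪f u, n⟫ = 0 → (∀ i, ⟪D1 f i u, n⟫ = 0) →
    ((Matrix.gram ℝ (fun i => D1 f i u))⁻¹ * Matrix.of fun i j => ⟪D2 f i j u, n⟫).trace = a ∧
    (((Matrix.gram ℝ (fun i => D1 f i u))⁻¹ * Matrix.of fun i j => ⟪D2 f i j u, n⟫) *
      ((Matrix.gram ℝ (fun i => D1 f i u))⁻¹ * Matrix.of fun i j => ⟪D2 f i j u, n⟫)).trace = b

lemma Traces.comp {σ : EuclideanSpace ℝ (Fin m) → EuclideanSpace ℝ (Fin m)}
    {x : EuclideanSpace ℝ (Fin m)} {a b : ℝ} (hσ : ContDiffAt ℝ ∞ σ x)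
    (hf : ContDiffAt ℝ ∞ f (σ x)) (hJ : IsUnit (Jac σ x).det) (h : Traces f (σ x) a b) :
    Traces (fun v => f (σ v)) x a b := by
  intro n hn1 hn2 hn3
  have hD : ∀ i, D1 (fun v => f (σ v)) i x = ∑ b, Jac σ x b i • D1 f b (σ x) := fun i =>
    D1_comp (g := fun v => f (σ v)) (hσ.differentiableAt (by norm_num))
      (hf.differentiableAt (by norm_num)) (EventuallyEq.refl _ _) i
  have hv : (fun b => ⟪D1 f b (σ x), n⟫) = 0 := by
    apply Matrix.eq_zero_of_mulVec_eq_zero (M := (Jac σ x)ᵀ)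
    · rw [det_transpose]; exact hJ.ne_zero
    · funext i
      have h1 := hn3 i
      rw [hD, sum_inner] at h1
      simp only [inner_smul_left, conj_trivial] at h1
      simpa [Matrix.mulVec, dotProduct] using h1
  have hn : ∀ b, ⟪D1 f b (σ x), n⟫ = 0 := fun b => congrFun hv b
  obtain ⟨t1, t2⟩ := h n hn1 hn2 hn
  obtain ⟨g1, g2⟩ := forms_comp (g := fun v => f (σ v)) hσ hf (EventuallyEq.refl _ _) n hn
  have hc := trace_conj_forms (Jac σ x) (Matrix.gram ℝ (fun i => D1 f i (σ x)))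
    (Matrix.of fun i j => ⟪D2 f i j (σ x), n⟫) hJ
  rw [g1, g2]
  exact ⟨hc.1.trans t1, hc.2.trans t2⟩

/-- Simons' identity for a hypersurface whose squared second fundamental form is constant. -/
theorem simons_const (h : Imm f T) {u0 : EuclideanSpace ℝ (Fin m)} (hu0 : u0 ∈ T) (S : ℝ)
    (hS : ∀ u ∈ T, Traces f u 0 S) : m * S ≤ S ^ 2 := by
  obtain ⟨p, ν, e, σ, T', c, φ, l, hf, hT'o, h0T, hσ, hσ0, hmaps, hcs, hφs, hgraph, hφ00, hφ1,
    hHess, hJu, -, -, -⟩ := exists_graph h hu0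
  have hunit : ∀ x ∈ T', ‖f (σ x)‖ = 1 := fun x hx => h.unit _ (hmaps hx)
  have key := simons_graph (X := fun x => f (σ x)) hf hT'o h0T hcs hφs hgraph hunit
    (fun _ => S) hφ00 hφ1 l hHess
    (by
      intro x hx
      exact Traces.comp (hσ.contDiffAt (hT'o.mem_nhds hx))
        (h.smooth.contDiffAt (h.isOpen.mem_nhds (hmaps hx))) (hJu x hx) (hS _ (hmaps hx)))
    (fun _ => 0) (fun _ => 0) (fun _ => J2.const S)
  have h1 := key.2
  simp only [Finset.sum_const_zero] at h1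
  have h2 : 0 ≤ ∑ k, ∑ i, ∑ j, pr (pr (pr φ j) i) k (0 : EuclideanSpace ℝ (Fin m)) ^ 2 :=
    Finset.sum_nonneg fun k _ => Finset.sum_nonneg fun i _ => Finset.sum_nonneg fun j _ =>
      sq_nonneg _
  linarith

end Vale.Agent.P224
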