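import Mathlib
import Vale.Agent.P224.SimonsLocal
import Vale.Agent.P224.Pointwise

namespace Vale.Agent.P224

open scoped Manifold ContDiff RealInnerProductSpace Topology
open MeasureTheory Metric Module Set Filter

section local_part

variable {m : ℕ} {f : EuclideanSpace ℝ (Fin m) → EuclideanSpace ℝ (Fin (m + 2))}
  {T : Set (EuclideanSpace ℝ (Fin m))}

lemma eq_smul_nu (h : Imm f T) {u : EuclideanSpace ℝ (Fin m)} (hu : u ∈ T)
    (v : EuclideanSpace ℝ (Fin (m + 2))) (h1 : ⟪f u, v⟫ = 0) (h3 : ∀ i, ⟪D1 f i u, v⟫ = 0) :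
    v = ⟪v, nu f u⟫ • nu f u := by
  obtain ⟨p, ν, e, σ, T', c, φ, l, hf, -, -, -, -, -, -, -, -, -, -, -, -, hp, hν, he⟩ :=
    exists_graph h hu
  have hx := hf.expand v
  have h4 : ⟪v, p⟫ = 0 := by rw [real_inner_comm, hp]; exact h1
  have h5 : ∀ i, ⟪v, e i⟫ = 0 := by
    intro i
    rw [he, inner_sum]
    apply Finset.sum_eq_zero
    intro b _
    rw [inner_smul_right, real_inner_comm, h3, mul_zero]
  rw [h4, hν] at hx
  simp only [h5, zero_smul, Finset.sum_const_zero, add_zero, zero_add] at hx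
  exact hx

/-- invariance of the traces -/
lemma trace_conj_gen {n : Type*} [Fintype n] [DecidableEq n] (B G H : Matrix n n ℝ)
    (hB : IsUnit B.det) :
    (((B.transpose * G * B)⁻¹ * (B.transpose * H * B)).trace = (G⁻¹ * H).trace) ∧
    ((((B.transpose * G * B)⁻¹ * (B.transpose * H * B)) *
      ((B.transpose * G * B)⁻¹ * (B.transpose * H * B))).trace
      = ((G⁻¹ * H) * (G⁻¹ * H)).trace) := by
  have hBt : IsUnit (B.transpose).det := by rw [Matrix.det_transpose]; exact hB
  have e : (B.transpose * G * B)⁻¹ * (B.transpose * H * B) = B⁻¹ * (G⁻¹ * H) * B := by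
    rw [Matrix.mul_inv_rev, Matrix.mul_inv_rev]
    calc B⁻¹ * (G⁻¹ * (B.transpose)⁻¹) * (B.transpose * H * B)
        = B⁻¹ * G⁻¹ * ((B.transpose)⁻¹ * B.transpose) * H * B := by
          simp only [Matrix.mul_assoc]
      _ = _ := by
          rw [Matrix.nonsing_inv_mul _ hBt, Matrix.mul_one]
          simp only [Matrix.mul_assoc]
  rw [e]
  constructor
  · rw [Matrix.trace_mul_comm, ← Matrix.mul_assoc, Matrix.mul_nonsing_inv _ hB, Matrix.one_mul]
  · have : B⁻¹ * (G⁻¹ * H) * B * (B⁻¹ * (G⁻¹ * H) * B)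
        = B⁻¹ * ((G⁻¹ * H) * (G⁻¹ * H)) * B := by
      calc B⁻¹ * (G⁻¹ * H) * B * (B⁻¹ * (G⁻¹ * H) * B)
          = B⁻¹ * (G⁻¹ * H) * (B * B⁻¹) * (G⁻¹ * H) * B := by simp only [Matrix.mul_assoc]
        _ = _ := by
          rw [Matrix.mul_nonsing_inv _ hB, Matrix.mul_one]
          simp only [Matrix.mul_assoc]
    rw [this, Matrix.trace_mul_comm, ← Matrix.mul_assoc, Matrix.mul_nonsing_inv _ hB,
      Matrix.one_mul]

lemma H_eq_zero {n : Type*} [Fintype n] [DecidableEq n] (G H : Matrix n n ℝ) (hG : G.PosDef)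
    (hH : H.transpose = H) (h0 : ((G⁻¹ * H) * (G⁻¹ * H)).trace = 0) : H = 0 := by
  obtain ⟨P, κ, hPG, hPH⟩ := exists_simul_diag G H hG hH
  have hdet : P.det * P.det * G.det = 1 := by
    have := congrArg Matrix.det hPG
    rw [Matrix.det_mul, Matrix.det_mul, Matrix.det_transpose, Matrix.det_one] at this
    linarith
  have hPdet : P.det ≠ 0 := by
    intro h
    rw [h] at hdet
    simp at hdet
  have hPu : IsUnit P.det := isUnit_iff_ne_zero.mpr hPdet
  have htr := (trace_conj_gen P G H hPu).2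
  rw [hPG, hPH, inv_one, Matrix.one_mul, Matrix.diagonal_mul_diagonal, Matrix.trace_diagonal,
    h0] at htr
  have hκ : ∀ i, κ i = 0 := by
    intro i
    have h1 := (Finset.sum_eq_zero_iff_of_nonneg (fun i _ => mul_self_nonneg (κ i))).mp htr i
      (Finset.mem_univ i)
    exact mul_self_eq_zero.mp h1
  have hPt : IsUnit (P.transpose).det := by rw [Matrix.det_transpose]; exact hPu
  have hz : P.transpose * H * P = 0 := by
    rw [hPH]
    ext i j
    by_cases hij : i = j
    · subst hij; simp [hκ]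
    · simp [hij]
  calc H = (P.transpose)⁻¹ * (P.transpose * H * P) * P⁻¹ := by
        rw [Matrix.mul_assoc, Matrix.mul_assoc, Matrix.mul_assoc, Matrix.mul_nonsing_inv _ hPu,
          Matrix.mul_one, ← Matrix.mul_assoc, Matrix.nonsing_inv_mul _ hPt, Matrix.one_mul]
    _ = 0 := by rw [hz]; simp

lemma fderiv_nu_zero (h : Imm f T) {u : EuclideanSpace ℝ (Fin m)} (hu : u ∈ T)
    (hH : H f u = 0) : fderiv ℝ (nu f) u = 0 := by
  have hd : ∀ i, dnu f i u = 0 := by
    intro i
    have h1 := eq_smul_nu h hu (dnu f i u) (h.inner_f_dnu hu i) (by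
      intro j
      rw [h.inner_D1_dnu hu, hH]
      simp)
    rw [h1, real_inner_comm, h.inner_dnu_nu hu, zero_smul]
  ext1 v
  have hx : v = ∑ b, v b • EuclideanSpace.single b (1 : ℝ) := by
    ext j
    simp [Finset.sum_apply, Pi.single_apply]
  rw [hx, map_sum]
  simp only [map_smul]
  apply Finset.sum_eq_zero
  intro b _
  have := hd b
  unfold dnu at this
  rw [this, smul_zero]

end local_part

variable {V W M : Type*} [NormedAddCommGroup V] [InnerProductSpace ℝ V] [FiniteDimensional ℝ V]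
  [NormedAddCommGroup W] [InnerProductSpace ℝ W] [FiniteDimensional ℝ W]
  [TopologicalSpace M] [ChartedSpace V M] {F : M → W}

/-- the traces in the chart at x -/
lemma traces_of_global [IsManifold 𝓘(ℝ, V) ∞ M] (hW : finrank ℝ W = finrank ℝ V + 2)
    (hF : SphImm V F) (a b : M → ℝ)
    (hm : ∀ x n, IsUnitNormal V F x n → meanCurv V F x n = a x)
    (hs : ∀ x n, IsUnitNormal V F x n → normSqA V F x n = b x)
    (x : M) {u : V} (hu : u ∈ (chartAt V x).target) :
    Traces (tr hW (rep F x)) (iV V u) (a ((chartAt V x).symm u)) (b ((chartAt V x).symm u)) := by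
  intro n hn1 hn2 hn3
  set n' : W := (iW hW).symm n with hn'
  have hni : iW hW n' = n := (iW hW).apply_symm_apply n
  have h1 : ‖n'‖ = 1 := by rw [hn', (iW hW).symm.norm_map]; exact hn1
  have h2 : ⟪rep F x u, n'⟫ = 0 := by
    rw [← (iW hW).inner_map_map, hni]
    have : tr hW (rep F x) (iV V u) = iW hW (rep F x u) := by
      unfold tr; rw [(iV V).symm_apply_apply]
    rw [← this]; exact hn2
  have h3 : ∀ i, ⟪pd (rep F x) i u, n'⟫ = 0 := by
    intro i
    rw [← (iW hW).inner_map_map, hni]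
    have := hn3 i
    rw [D1_tr] at this
    unfold tr at this
    rwa [(iV V).symm_apply_apply] at this
  obtain ⟨q1, q2, q3⟩ := pointwise hW hF x hu n' h1 h2 h3
  have hG : Matrix.gram ℝ (fun i => D1 (tr hW (rep F x)) i (iV V u)) = metricMat (rep F x) u :=
    G_tr hW (rep F x) u
  have hH := sff_tr hW (rep F x) u n'
  rw [hni] at hH
  rw [hG, hH, ← q2, ← q3]
  exact ⟨hm _ _ q1, hs _ _ q1⟩

/-- uniqueness of the unit normal up to sign -/
lemma unitNormal_eq [IsManifold 𝓘(ℝ, V) ∞ M] (hW : finrank ℝ W = finrank ℝ V + 2)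
    (hF : SphImm V F) (x : M) (n : W) (hn : IsUnitNormal V F x n) :
    ∃ ε : ℝ, ε ^ 2 = 1 ∧ n = ε • nuW hW (rep F x) (chartAt V x x) := by
  set u := chartAt V x x with hu
  have hut : u ∈ (chartAt V x).target := (chartAt V x).map_source (mem_chart_source _ x)
  have hxu : rep F x u = F x := by
    unfold rep
    rw [hu, (chartAt V x).left_inv (mem_chart_source _ x)]
  have hI := (immV_rep hF x).imm hW
  have hmem : iV V u ∈ (iV V).symm ⁻¹' (chartAt V x).target := by
    rw [mem_preimage, (iV V).symm_apply_apply]; exact hut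
  obtain ⟨h1, h2, h3⟩ := hn
  have h4 := eq_smul_nu hI hmem (iW hW n) (by
      have : tr hW (rep F x) (iV V u) = iW hW (F x) := by
        unfold tr; rw [(iV V).symm_apply_apply, hxu]
      rw [this, (iW hW).inner_map_map]; exact h2) (by
      intro i
      rw [D1_tr]
      unfold tr
      rw [(iV V).symm_apply_apply, (iW hW).inner_map_map]; exact h3 i)
  set ε := ⟪iW hW n, nu (tr hW (rep F x)) (iV V u)⟫ with hε
  refine ⟨ε, ?_, ?_⟩
  · have h5 := congrArg norm h4
    rw [norm_smul, hI.norm_nu hmem, mul_one, (iW hW).norm_map, h1, Real.norm_eq_abs] at h5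
    rw [← sq_abs, ← h5]; norm_num
  · have h5 := congrArg (iW hW).symm h4
    rw [(iW hW).symm_apply_apply, map_smul] at h5
    exact h5

/-- A minimal immersion with vanishing second fundamental form is contained in a hyperplane. -/
lemma totally_geodesic [IsManifold 𝓘(ℝ, V) ∞ M] [ConnectedSpace M]
    (hW : finrank ℝ W = finrank ℝ V + 2) (hF : SphImm V F)
    (hs : ∀ x n, IsUnitNormal V F x n → normSqA V F x n = 0) :
    ∃ a : W, a ≠ 0 ∧ ∀ x, ⟪F x, a⟫ = 0 := by
  obtain ⟨x0⟩ : Nonempty M := inferInstance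
  set N : M → W := fun x => nuW hW (rep F x) (chartAt V x x) with hN
  have hNn : ∀ x, IsUnitNormal V F x (N x) := by
    intro x
    have hut : chartAt V x x ∈ (chartAt V x).target :=
      (chartAt V x).map_source (mem_chart_source _ x)
    have := (pointwise_nu hW hF x hut).1
    rwa [(chartAt V x).left_inv (mem_chart_source _ x)] at this
  set a := N x0 with ha
  -- local constancy
  have hloc : IsLocallyConstant (fun x => ⟪N x, a⟫ ^ 2) := by
    rw [IsLocallyConstant.iff_eventually_eq]
    intro x1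
    set χ := chartAt V x1 with hχ
    set f := tr hW (rep F x1) with hf
    have hI := (immV_rep hF x1).imm hW
    have hu1 : χ x1 ∈ χ.target := χ.map_source (mem_chart_source _ x1)
    have hmem : iV V (χ x1) ∈ (iV V).symm ⁻¹' χ.target := by
      rw [mem_preimage, (iV V).symm_apply_apply]; exact hu1
    obtain ⟨r, hr, hball⟩ := Metric.isOpen_iff.mp hI.isOpen _ hmem
    have hz : EqOn (fderiv ℝ (nu f)) 0 (ball (iV V (χ x1)) r) := by
      intro u hu
      have huT := hball hu
      apply fderiv_nu_zero hI huT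
      apply H_eq_zero _ _ (hI.G_posDef huT) (hI.H_symm huT)
      have hut : (iV V).symm u ∈ χ.target := huT
      have h3 := pointwise_nu hW hF x1 hut
      rw [(iV V).apply_symm_apply] at h3
      rw [← hf] at h3
      rw [← h3.2.2]
      exact hs _ _ h3.1
    have hconst : ∀ u ∈ ball (iV V (χ x1)) r, nu f u = nu f (iV V (χ x1)) := by
      intro u hu
      exact isOpen_ball.is_const_of_fderiv_eq_zero (convex_ball _ _).isPreconnected
        (fun v hv => (hI.diffAt_nu (hball hv)).differentiableWithinAt) hz hu (mem_ball_self hr)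
    have hev : ∀ᶠ x in 𝓝 x1, x ∈ χ.source ∧ iV V (χ x) ∈ ball (iV V (χ x1)) r := by
      have h1 : ∀ᶠ x in 𝓝 x1, x ∈ χ.source := χ.open_source.mem_nhds (mem_chart_source _ x1)
      have h2 : ContinuousAt (fun x => iV V (χ x)) x1 :=
        (iV V).continuous.continuousAt.comp (χ.continuousAt (mem_chart_source _ x1))
      exact h1.and (h2.eventually_mem (isOpen_ball.mem_nhds (mem_ball_self hr)))
    filter_upwards [hev] with x hx
    have hut : χ x ∈ χ.target := χ.map_source hx.1
    have h4 := (pointwise_nu hW hF x1 hut).1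
    rw [χ.left_inv hx.1] at h4
    have h5 : nuW hW (rep F x1) (χ x) = N x1 := by
      unfold nuW
      rw [← hf, hconst _ hx.2]
      rfl
    rw [h5] at h4
    obtain ⟨ε, hε, h6⟩ := unitNormal_eq hW hF x (N x1) h4
    have h7 : N x1 = ε • N x := h6
    rw [h7, inner_smul_left]
    simp only [conj_trivial]
    rw [mul_pow, hε, one_mul]
  have hone : ∀ x, ⟪N x, a⟫ ^ 2 = 1 := by
    intro x
    rw [hloc.apply_eq_of_preconnectedSpace x x0, ← ha, real_inner_self_eq_norm_sq, (hNn x0).1]
    norm_num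
  have ha1 : ‖a‖ = 1 := (hNn x0).1
  refine ⟨a, ?_, ?_⟩
  · intro h0
    rw [h0] at ha1
    simp at ha1
  · intro x
    have h1 := hone x
    have h2 := (hNn x).1
    -- a = ± N x
    have h3 : ‖a - ⟪N x, a⟫ • N x‖ ^ 2 = 0 := by
      rw [← real_inner_self_eq_norm_sq, inner_sub_left, inner_sub_right, inner_sub_right,
        inner_smul_left, inner_smul_right, inner_smul_left, inner_smul_right,
        real_inner_self_eq_norm_sq, real_inner_self_eq_norm_sq, ha1, h2,
        real_inner_comm (N x) a]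
      simp only [conj_trivial]
      linarith
    have h4 : a = ⟪N x, a⟫ • N x := by
      have := norm_eq_zero.mp (pow_eq_zero_iff (two_ne_zero) |>.mp h3)
      exact sub_eq_zero.mp this
    rw [h4, inner_smul_right, (hNn x).2.1, mul_zero]

theorem main_CSC [MeasurableSpace V] [BorelSpace V] [MeasurableSpace M] [BorelSpace M]
    [IsManifold 𝓘(ℝ, V) ∞ M] [CompactSpace M] [ConnectedSpace M]
    (hV : 2 ≤ finrank ℝ V) (hW : finrank ℝ W = finrank ℝ V + 2) (hF : SphImm V F)
    (hmin : ∀ x n, IsUnitNormal V F x n → meanCurv V F x n = 0) (S : ℝ)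
    (hS : ∀ x n, IsUnitNormal V F x n → normSqA V F x n = S)
    (hng : ¬ ∃ a : W, a ≠ 0 ∧ ∀ x, ⟪F x, a⟫ = 0) :
    ENNReal.ofReal (leastClifford (finrank ℝ V)) ≤ volM V F univ := by
  set m := finrank ℝ V with hm
  obtain ⟨x0⟩ : Nonempty M := inferInstance
  have hu : chartAt V x0 x0 ∈ (chartAt V x0).target :=
    (chartAt V x0).map_source (mem_chart_source _ x0)
  have hI := (immV_rep hF x0).imm hW
  have hmem : iV V (chartAt V x0 x0) ∈ (iV V).symm ⁻¹' (chartAt V x0).target := by
    rw [mem_preimage, (iV V).symm_apply_apply]; exact hu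
  have h1 : (m : ℝ) * S ≤ S ^ 2 := by
    apply simons_const hI hmem S
    intro u huT
    have := traces_of_global hW hF (fun _ => 0) (fun _ => S) hmin hS x0
      (u := (iV V).symm u) huT
    rwa [(iV V).apply_symm_apply] at this
  have hS0 : 0 ≤ S := by
    obtain ⟨h2, -, h3⟩ := pointwise_nu hW hF x0 hu
    obtain ⟨κ, -, hκ, -⟩ := exists_kappa _ _ (hI.G_posDef hmem) (hI.H_symm hmem)
    rw [← hS _ _ h2, h3, hκ]
    exact Finset.sum_nonneg fun i _ => sq_nonneg _
  rcases hS0.eq_or_lt with h0 | h0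
  · exfalso
    apply hng
    apply totally_geodesic hW hF
    intro x n hn
    rw [hS x n hn, h0]
  · have h4 : (m : ℝ) ≤ S := by
      by_contra hlt
      push Not at hlt
      nlinarith
    exact main_A hV hW hF hmin (fun x n hn => by rw [hS x n hn]; exact h4)

end Vale.Agent.P224
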