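import Mathlib
import Vale.Agent.P224.CSC

namespace Vale.Agent.P224

open scoped Manifold ContDiff RealInnerProductSpace Topology
open MeasureTheory Metric Module Set Filter

lemma theta_formula_zero (k : ℕ) (hk : 1 ≤ k) :
    Real.Gamma (((k : ℝ) + 1) / 2) * Real.sqrt Real.pi / 2 =
      Real.Gamma (((k : ℝ) + 2) / 2) / 2 *
        ∫ θ in Ioo (-Real.pi) Real.pi, max (Real.cos θ) 0 ^ k * max (Real.sin θ) 0 ^ 0 := by
  have h := polar_formula k 0 (fun s => Real.exp (- s))
  have e : ∫ z : EuclideanSpace ℝ (Fin 2), Real.exp (- (z 0 ^ 2 + z 1 ^ 2)) *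
      (max (z 0) 0 ^ k * max (z 1) 0 ^ 0) =
      Real.Gamma (((k : ℝ) + 1) / 2) * Real.sqrt Real.pi / 2 := by
    rw [integral_E2 (fun p => Real.exp (- (p.1 ^ 2 + p.2 ^ 2)) * (max p.1 0 ^ k * max p.2 0 ^ 0))]
    have : ∀ p : ℝ × ℝ, Real.exp (- (p.1 ^ 2 + p.2 ^ 2)) * (max p.1 0 ^ k * max p.2 0 ^ 0)
        = (Real.exp (- p.1 ^ 2) * max p.1 0 ^ k) * (Real.exp (- 1 * p.2 ^ 2)) := by
      intro p
      rw [neg_add, Real.exp_add, pow_zero, neg_one_mul]; ring
    simp_rw [this]
    rw [show (volume : Measure (ℝ × ℝ)) = (volume : Measure ℝ).prod volume from rfl,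
      integral_prod_mul (fun x : ℝ => Real.exp (- x ^ 2) * max x 0 ^ k)
      (fun y : ℝ => Real.exp (- 1 * y ^ 2)), gauss_max k hk, integral_gaussian]
    rw [div_one]
    ring
  rw [← e, h]
  have := gauss_Ioi (k + 0 + 1)
  rw [this]
  push_cast
  ring_nf

lemma disc_formula_zero (k : ℕ) (hk : 1 ≤ k) :
    ∫ z in closedBall (0 : EuclideanSpace ℝ (Fin 2)) 1, max (z 0) 0 ^ k =
      Real.Gamma (((k : ℝ) + 1) / 2) * Real.sqrt Real.pi /
        (2 * Real.Gamma ((k : ℝ) / 2 + 2)) := by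
  have h := polar_formula k 0 (fun s => if s ≤ 1 then 1 else 0)
  have e1 : ∫ z in closedBall (0 : EuclideanSpace ℝ (Fin 2)) 1, max (z 0) 0 ^ k
      = ∫ z : EuclideanSpace ℝ (Fin 2), (if z 0 ^ 2 + z 1 ^ 2 ≤ 1 then (1 : ℝ) else 0) *
        (max (z 0) 0 ^ k * max (z 1) 0 ^ 0) := by
    rw [← integral_indicator measurableSet_closedBall]
    congr 1
    funext z
    have : z ∈ closedBall (0 : EuclideanSpace ℝ (Fin 2)) 1 ↔ z 0 ^ 2 + z 1 ^ 2 ≤ 1 := by
      rw [mem_closedBall_zero_iff, EuclideanSpace.norm_eq, Real.sqrt_le_one]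
      simp [Fin.sum_univ_two]
    by_cases hz : z ∈ closedBall (0 : EuclideanSpace ℝ (Fin 2)) 1
    · rw [indicator_of_mem hz, if_pos (this.mp hz), one_mul, pow_zero, mul_one]
    · rw [indicator_of_notMem hz, if_neg (fun h => hz (this.mpr h)), zero_mul]
  have e2 : ∫ r in Ioi (0 : ℝ), r ^ (k + 0 + 1) * (if r ^ 2 ≤ 1 then (1 : ℝ) else 0)
      = 1 / ((k : ℝ) + 2) := by
    have : ∫ r in Ioi (0 : ℝ), r ^ (k + 0 + 1) * (if r ^ 2 ≤ 1 then (1 : ℝ) else 0)
        = ∫ r in (0 : ℝ)..1, r ^ (k + 0 + 1) := by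
      rw [intervalIntegral.integral_of_le zero_le_one, ← integral_indicator measurableSet_Ioi,
        ← integral_indicator measurableSet_Ioc]
      congr 1
      funext r
      by_cases hr : 0 < r
      · rw [indicator_of_mem (by exact hr)]
        by_cases hr1 : r ≤ 1
        · rw [indicator_of_mem (by exact ⟨hr, hr1⟩), if_pos (by nlinarith), mul_one]
        · rw [indicator_of_notMem (by intro h; exact hr1 h.2), if_neg (by push Not at *; nlinarith),
            mul_zero]
      · rw [indicator_of_notMem (by exact hr), indicator_of_notMem (by intro h; exact hr h.1)]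
    rw [this, integral_pow]
    push_cast
    norm_num
    ring_nf
  rw [e1, h, e2]
  have ht := theta_formula_zero k hk
  set Θ := ∫ θ in Ioo (-Real.pi) Real.pi, max (Real.cos θ) 0 ^ k * max (Real.sin θ) 0 ^ 0
  have hG : Real.Gamma ((k : ℝ) / 2 + 2)
      = ((k : ℝ) / 2 + 1) * Real.Gamma (((k : ℝ) + 2) / 2) := by
    rw [show (k : ℝ) / 2 + 2 = ((k : ℝ) / 2 + 1) + 1 by ring,
      Real.Gamma_add_one (by positivity)]
    congr 2
    ring
  have hpos : 0 < Real.Gamma (((k : ℝ) + 2) / 2) := Real.Gamma_pos_of_pos (by positivity)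
  rw [hG]
  have hk' : (0 : ℝ) < (k : ℝ) + 2 := by positivity
  field_simp
  field_simp at ht
  linarith [ht]

lemma J_zero {m : ℕ} (hm : 1 ≤ m) (κ : Fin m → ℝ) : J (fun i => 0 * κ i) = ballVol m / sphereVol m := by
  have h1 : J (fun i => 0 * κ i) = ∫ z in closedBall (0 : EuclideanSpace ℝ (Fin 2)) 1,
      max (z 0) 0 ^ m := by
    unfold J P
    simp
  rw [h1, disc_formula_zero m hm]
  unfold ballVol sphereVol
  have g1 : 0 < Real.Gamma (((m : ℝ) + 1) / 2) := Real.Gamma_pos_of_pos (by positivity)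
  have g2 : 0 < Real.Gamma ((m : ℝ) / 2 + 2) := Real.Gamma_pos_of_pos (by positivity)
  have hπ := Real.pi_pos
  have h2 : Real.pi ^ (((m : ℝ) + 2) / 2) = Real.pi ^ (((m : ℝ) + 1) / 2) * Real.sqrt Real.pi := by
    rw [Real.sqrt_eq_rpow, ← Real.rpow_add hπ]
    congr 1
    ring
  rw [h2]
  have h3 : 0 < Real.pi ^ (((m : ℝ) + 1) / 2) := Real.rpow_pos_of_pos hπ _
  field_simp

lemma leastClifford_pos {m : ℕ} (hm : 2 ≤ m) : 0 < leastClifford m := by
  unfold leastClifford
  have hne : Nonempty (Set.Ico 1 m) := ⟨⟨1, by simp; omega⟩⟩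
  have hfin : Finite (Set.Ico 1 m) := (Set.finite_Ico 1 m).to_subtype
  obtain ⟨k, hk⟩ := exists_eq_ciInf_of_finite (f := fun k : Set.Ico 1 m => cliffordVol m k)
  rw [← hk]
  exact cliffordVol_pos k.2.1 k.2.2

variable {V W M : Type*} [NormedAddCommGroup V] [InnerProductSpace ℝ V] [FiniteDimensional ℝ V]
  [NormedAddCommGroup W] [InnerProductSpace ℝ W] [FiniteDimensional ℝ W]
  [TopologicalSpace M] [ChartedSpace V M] {F : M → W}

omit [FiniteDimensional ℝ W] in
lemma normSqA_smul (F : M → W) (x : M) (n : W) (ε : ℝ) :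
    normSqA V F x (ε • n) = ε ^ 2 * normSqA V F x n := by
  unfold normSqA
  have : shapeMat (rep F x) (chartAt V x x) (ε • n)
      = ε • shapeMat (rep F x) (chartAt V x x) n := by
    unfold shapeMat
    rw [← Matrix.mul_smul]
    congr 1
    ext i j
    simp [inner_smul_right]
  rw [this, smul_pow, Matrix.trace_smul, smul_eq_mul]

/-- the squared norm of the second fundamental form as a function -/
noncomputable def nS (hW : finrank ℝ W = finrank ℝ V + 2) (F : M → W) (x : M) : ℝ :=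
  normSqA V F x (nuW hW (rep F x) (chartAt V x x))

lemma normSqA_eq_nS [IsManifold 𝓘(ℝ, V) ∞ M] (hW : finrank ℝ W = finrank ℝ V + 2)
    (hF : SphImm V F) {x : M} {n : W} (hn : IsUnitNormal V F x n) :
    normSqA V F x n = nS hW F x := by
  obtain ⟨ε, hε, h⟩ := unitNormal_eq hW hF x n hn
  rw [h, normSqA_smul, hε, one_mul]
  rfl

lemma isUnitNormal_nuW [IsManifold 𝓘(ℝ, V) ∞ M] (hW : finrank ℝ W = finrank ℝ V + 2)
    (hF : SphImm V F) (x : M) : IsUnitNormal V F x (nuW hW (rep F x) (chartAt V x x)) := by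
  have hut : chartAt V x x ∈ (chartAt V x).target :=
    (chartAt V x).map_source (mem_chart_source _ x)
  have := (pointwise_nu hW hF x hut).1
  rwa [(chartAt V x).left_inv (mem_chart_source _ x)] at this

lemma continuous_nS [IsManifold 𝓘(ℝ, V) ∞ M] (hW : finrank ℝ W = finrank ℝ V + 2)
    (hF : SphImm V F) : Continuous (nS hW F) := by
  rw [continuous_iff_continuousAt]
  intro x1
  set χ := chartAt V x1 with hχ
  set f := tr hW (rep F x1) with hf
  have hI := (immV_rep hF x1).imm hW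
  have hu1 : χ x1 ∈ χ.target := χ.map_source (mem_chart_source _ x1)
  have hmem : iV V (χ x1) ∈ (iV V).symm ⁻¹' χ.target := by
    rw [mem_preimage, (iV V).symm_apply_apply]; exact hu1
  have hev : (fun y => (((G f (iV V (χ y)))⁻¹ * H f (iV V (χ y))) *
        ((G f (iV V (χ y)))⁻¹ * H f (iV V (χ y)))).trace) =ᶠ[𝓝 x1] nS hW F := by
    filter_upwards [χ.open_source.mem_nhds (mem_chart_source _ x1)] with y hy
    have hut : χ y ∈ χ.target := χ.map_source hy
    obtain ⟨h1, -, h3⟩ := pointwise_nu hW hF x1 hut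
    rw [χ.left_inv hy] at h1 h3
    rw [← normSqA_eq_nS hW hF h1, h3]
  have hc : ContinuousOn (fun u => (((G f u)⁻¹ * H f u) * ((G f u)⁻¹ * H f u)).trace)
      ((iV V).symm ⁻¹' χ.target) := by
    have hG := hI.continuousOn_G
    have hH := hI.continuousOn_H
    have hGi : ContinuousOn (fun u => (G f u)⁻¹) ((iV V).symm ⁻¹' χ.target) := by
      intro u hu
      have hdet : (G f u).det ≠ 0 := (hI.G_posDef hu).det_pos.ne'
      have h1 : ContinuousWithinAt (fun u => (G f u).det) ((iV V).symm ⁻¹' χ.target) u :=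
        (continuous_id.matrix_det.continuousAt (x := G f u)).comp_continuousWithinAt (hG u hu)
      have h2 : ContinuousWithinAt (fun u => (G f u).adjugate) ((iV V).symm ⁻¹' χ.target) u :=
        (continuous_id.matrix_adjugate.continuousAt (x := G f u)).comp_continuousWithinAt (hG u hu)
      have h3 : ContinuousWithinAt (fun u => ((G f u).det)⁻¹ • (G f u).adjugate)
          ((iV V).symm ⁻¹' χ.target) u := (h1.inv₀ hdet).smul h2
      have e3 : (fun u => (G f u)⁻¹) = fun u => ((G f u).det)⁻¹ • (G f u).adjugate := by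
        funext v
        rw [Matrix.inv_def, Ring.inverse_eq_inv']
      rw [e3]
      exact h3
    have hK : ContinuousOn (fun u => (G f u)⁻¹ * H f u) ((iV V).symm ⁻¹' χ.target) :=
      hGi.mul hH
    have hKK : ContinuousOn (fun u => ((G f u)⁻¹ * H f u) * ((G f u)⁻¹ * H f u))
        ((iV V).symm ⁻¹' χ.target) := hK.mul hK
    exact (continuous_id.matrix_trace).comp_continuousOn hKK
  have h4 : ContinuousAt (fun y => iV V (χ y)) x1 :=
    (iV V).continuous.continuousAt.comp (χ.continuousAt (mem_chart_source _ x1))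
  have h5 : ContinuousAt (fun y => (((G f (iV V (χ y)))⁻¹ * H f (iV V (χ y))) *
        ((G f (iV V (χ y)))⁻¹ * H f (iV V (χ y)))).trace) x1 :=
    ContinuousAt.comp (f := fun y => iV V (χ y))
      (g := fun u => (((G f u)⁻¹ * H f u) * ((G f u)⁻¹ * H f u)).trace)
      (hc.continuousAt (hI.isOpen.mem_nhds hmem)) h4
  exact h5.congr hev

theorem main_B [MeasurableSpace V] [BorelSpace V] [MeasurableSpace M] [BorelSpace M]
    [IsManifold 𝓘(ℝ, V) ∞ M] [CompactSpace M] [Nonempty M]
    (hV : 2 ≤ finrank ℝ V) (hW : finrank ℝ W = finrank ℝ V + 2) (hF : SphImm V F)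
    (hmin : ∀ x n, IsUnitNormal V F x n → meanCurv V F x n = 0) :
    1 ≤ volM V F {x | ∀ n, IsUnitNormal V F x n → (finrank ℝ V : ℝ) ≤ normSqA V F x n} /
        ENNReal.ofReal (leastClifford (finrank ℝ V)) +
      volM V F {x | ∀ n, IsUnitNormal V F x n → (finrank ℝ V : ℝ) ≤ normSqA V F x n}ᶜ /
        ENNReal.ofReal (sphereVol (finrank ℝ V)) := by
  set m := finrank ℝ V with hm
  set A : Set M := {x | ∀ n, IsUnitNormal V F x n → (m : ℝ) ≤ normSqA V F x n} with hA
  have hA' : A = {x | (m : ℝ) ≤ nS hW F x} := by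
    ext x
    constructor
    · intro h
      exact h _ (isUnitNormal_nuW hW hF x)
    · intro h n hn
      rw [normSqA_eq_nS hW hF hn]
      exact h
  have hAm : MeasurableSet A := by
    rw [hA']
    exact (isClosed_le continuous_const (continuous_nS hW hF)).measurableSet
  have hb0 := ballVol_pos m
  have hs0 := sphereVol_pos m
  have hc0 := leastClifford_pos hV
  have key := ball_le hW hF A hAm (ballVol m / leastClifford m) (ballVol m / sphereVol m)
    (by
      intro x u hu hxA κ hκ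
      obtain ⟨h1, h2, h3⟩ := pointwise_nu hW hF x hu
      have hsum : ∑ i, κ i = 0 := by rw [← hκ.1, ← h2]; exact hmin _ _ h1
      have hsq : (m : ℝ) ≤ ∑ i, κ i ^ 2 := by rw [← hκ.2.1, ← h3]; exact hxA _ h1
      rw [le_div_iff₀ hc0]
      exact J_le hV κ hsum hsq)
    (by
      intro x u hu _ κ hκ
      obtain ⟨h1, h2, h3⟩ := pointwise_nu hW hF x hu
      have hsum : ∑ i, κ i = 0 := by rw [← hκ.1, ← h2]; exact hmin _ _ h1
      rw [← J_zero (by omega) κ]
      exact J_scale (by omega) κ hsum le_rfl zero_le_one)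
  have h1 : ENNReal.ofReal (ballVol m) ≠ 0 := by
    rw [ne_eq, ENNReal.ofReal_eq_zero, not_le]; exact hb0
  rw [ENNReal.ofReal_div_of_pos hc0, ENNReal.ofReal_div_of_pos hs0] at key
  have h2 : ENNReal.ofReal (ballVol m) * 1 ≤ ENNReal.ofReal (ballVol m) *
      (volM V F A / ENNReal.ofReal (leastClifford m) +
        volM V F Aᶜ / ENNReal.ofReal (sphereVol m)) := by
    rw [mul_one, mul_add]
    refine key.trans (le_of_eq ?_)
    simp only [div_eq_mul_inv]
    ring
  exact (ENNReal.mul_le_mul_iff_right h1 ENNReal.ofReal_ne_top).mp h2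

end Vale.Agent.P224
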