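import Mathlib
import Vale.Agent.P224.Flat

namespace Vale.Agent.P224

open scoped Manifold ContDiff RealInnerProductSpace Topology ENNReal
open MeasureTheory Metric Module Set Filter

variable {V W M : Type*} [NormedAddCommGroup V] [InnerProductSpace ℝ V] [FiniteDimensional ℝ V]
  [NormedAddCommGroup W] [InnerProductSpace ℝ W] [FiniteDimensional ℝ W]
  [TopologicalSpace M] [ChartedSpace V M] {F : M → W}

omit [FiniteDimensional ℝ W] in
lemma gram_comp_det (A : V →L[ℝ] W) (T : V →L[ℝ] V) :
    (Matrix.gram ℝ (fun i => A (T (stdOrthonormalBasis ℝ V i)))).det =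
      T.det ^ 2 * (Matrix.gram ℝ (fun i => A (stdOrthonormalBasis ℝ V i))).det := by
  set b := (stdOrthonormalBasis ℝ V).toBasis with hb
  set N := LinearMap.toMatrix b b (T : V →ₗ[ℝ] V) with hN
  have hT : ∀ i, T (stdOrthonormalBasis ℝ V i) = ∑ k, N k i • stdOrthonormalBasis ℝ V k := by
    intro i
    have h1 := (b.sum_repr (T (stdOrthonormalBasis ℝ V i))).symm
    rw [h1]
    apply Finset.sum_congr rfl
    intro k _
    rw [hN, LinearMap.toMatrix_apply]
    simp [hb]
  have hG : Matrix.gram ℝ (fun i => A (T (stdOrthonormalBasis ℝ V i))) =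
      N.transpose * Matrix.gram ℝ (fun i => A (stdOrthonormalBasis ℝ V i)) * N := by
    ext i j
    rw [Matrix.gram_apply, hT, hT]
    simp only [map_sum, map_smul, sum_inner, inner_sum, inner_smul_left, inner_smul_right,
      conj_trivial, Matrix.mul_apply, Matrix.transpose_apply, Matrix.gram_apply, Finset.sum_mul]
    apply Finset.sum_congr rfl
    intro k _
    rw [Finset.mul_sum]
    apply Finset.sum_congr rfl
    intro l _
    ring
  have hd : N.det = T.det := LinearMap.det_toMatrix b (T : V →ₗ[ℝ] V)
  rw [hG, Matrix.det_mul, Matrix.det_mul, Matrix.det_transpose, hd]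
  ring

/-- the measure in a chart -/
noncomputable def chartMeas [MeasurableSpace V] [BorelSpace V] [MeasurableSpace M] (F : M → W)
    (x : M) : Measure M :=
  ((volume.withDensity fun u : V =>
    ENNReal.ofReal (Real.sqrt (metricMat (rep F x) u).det)).restrict (chartAt V x).target).map
      (chartAt V x).symm

section

variable [MeasurableSpace V] [BorelSpace V] [MeasurableSpace M] [BorelSpace M]

omit [FiniteDimensional ℝ W] in
lemma chartMeas_apply (x : M) {E : Set M} (hE : MeasurableSet E) :
    chartMeas (V := V) F x E = ∫⁻ u in (chartAt V x).target ∩ (chartAt V x).symm ⁻¹' E,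
      ENNReal.ofReal (Real.sqrt (metricMat (rep F x) u).det) := by
  have hms := measurable_chart_preimage (V := V) x hE
  set φ := chartAt V x with hφ
  have hae : AEMeasurable φ.symm ((volume.withDensity fun u : V =>
    ENNReal.ofReal (Real.sqrt (metricMat (rep F x) u).det)).restrict φ.target) :=
    φ.continuousOn_symm.aemeasurable φ.open_target.measurableSet
  unfold chartMeas
  rw [← hφ, Measure.map_apply_of_aemeasurable hae hE,
      Measure.restrict_apply' φ.open_target.measurableSet, inter_comm, withDensity_apply _ hms]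

/-- Transition invariance. -/
lemma chartMeas_eq [IsManifold 𝓘(ℝ, V) ∞ M] (hF : SphImm V F) (x y : M) {E : Set M}
    (hE : MeasurableSet E) (hx : E ⊆ (chartAt V x).source) (hy : E ⊆ (chartAt V y).source) :
    chartMeas (V := V) F x E = chartMeas (V := V) F y E := by
  rw [chartMeas_apply x hE, chartMeas_apply y hE]
  set φ := chartAt V x with hφ
  set χ := chartAt V y with hχ
  set τ : V → V := φ ∘ χ.symm with hτ
  set s : Set V := χ.target ∩ χ.symm ⁻¹' E with hs
  have hsm : MeasurableSet s := measurable_chart_preimage (V := V) y hE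
  have himg : φ.target ∩ φ.symm ⁻¹' E = τ '' s := by
    ext u
    constructor
    · rintro ⟨hu, huE⟩
      have huE' : φ.symm u ∈ E := huE
      refine ⟨χ (φ.symm u), ⟨χ.map_source (hy huE'), ?_⟩, ?_⟩
      · rw [mem_preimage, χ.left_inv (hy huE')]; exact huE'
      · simp only [hτ, Function.comp_apply]
        rw [χ.left_inv (hy huE'), φ.right_inv hu]
    · rintro ⟨v, ⟨hv, hvE⟩, rfl⟩
      have hvE' : χ.symm v ∈ E := hvE
      refine ⟨φ.map_source (hx hvE'), ?_⟩
      rw [mem_preimage]
      simp only [hτ, Function.comp_apply]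
      rw [φ.left_inv (hx hvE')]
      exact hvE'
  have hcd : ∀ v ∈ s, ContDiffAt ℝ ∞ τ v := by
    intro v hv
    have hvE' : χ.symm v ∈ E := hv.2
    have h1 : ContMDiffAt 𝓘(ℝ, V) 𝓘(ℝ, V) ∞ χ.symm v :=
      contMDiffOn_chart_symm.contMDiffAt (χ.open_target.mem_nhds hv.1)
    have h2 : ContMDiffAt 𝓘(ℝ, V) 𝓘(ℝ, V) ∞ φ (χ.symm v) :=
      contMDiffOn_chart.contMDiffAt (φ.open_source.mem_nhds (hx hvE'))
    exact (h2.comp v h1).contDiffAt
  have hder : ∀ v ∈ s, HasFDerivWithinAt τ (fderiv ℝ τ v) s v := fun v hv =>
    ((hcd v hv).differentiableAt (by norm_num)).hasFDerivAt.hasFDerivWithinAt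
  have hinj : InjOn τ s := by
    intro v hv v' hv' h
    simp only [hτ, Function.comp_apply] at h
    have h1 : χ.symm v = χ.symm v' := φ.injOn (hx hv.2) (hx hv'.2) h
    exact χ.symm.injOn hv.1 hv'.1 h1
  rw [himg, lintegral_image_eq_lintegral_abs_det_fderiv_mul volume hsm hder hinj]
  apply setLIntegral_congr_fun hsm
  intro v hv
  have hvE' : χ.symm v ∈ E := hv.2
  -- the metric
  have hev : rep F y =ᶠ[𝓝 v] rep F x ∘ τ := by
    have h1 : ∀ᶠ v' in 𝓝 v, χ.symm v' ∈ φ.source := by
      have : ContinuousAt χ.symm v := χ.continuousAt_symm hv.1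
      exact this.eventually_mem (φ.open_source.mem_nhds (hx hvE'))
    filter_upwards [h1] with v' hv'
    simp only [Function.comp_apply, hτ]
    unfold rep
    rw [← hφ, ← hχ, φ.left_inv hv']
  have hfd : DifferentiableAt ℝ (rep F x) (τ v) := by
    have hI := immV_rep hF x
    have hmem : τ v ∈ φ.target := φ.map_source (hx hvE')
    exact (hI.smooth.differentiableOn (by norm_num)).differentiableAt (hI.isOpen.mem_nhds hmem)
  have hτd : DifferentiableAt ℝ τ v := (hcd v hv).differentiableAt (by norm_num)
  have hDF : fderiv ℝ (rep F y) v = (fderiv ℝ (rep F x) (τ v)).comp (fderiv ℝ τ v) := by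
    rw [hev.fderiv_eq, fderiv_comp v hfd hτd]
  have hmat : (metricMat (rep F y) v).det =
      (fderiv ℝ τ v).det ^ 2 * (metricMat (rep F x) (τ v)).det := by
    have := gram_comp_det (fderiv ℝ (rep F x) (τ v)) (fderiv ℝ τ v)
    rw [← show (metricMat (rep F y) v) = Matrix.gram ℝ (fun i => (fderiv ℝ (rep F x) (τ v))
      ((fderiv ℝ τ v) (stdOrthonormalBasis ℝ V i))) by
        unfold metricMat pd
        rw [hDF]
        rfl] at this
    exact this
  beta_reduce
  rw [hmat, Real.sqrt_mul (sq_nonneg _), Real.sqrt_sq_eq_abs, ENNReal.ofReal_mul (abs_nonneg _)]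

lemma chartMeas_compl (x : M) : chartMeas (V := V) F x ((chartAt V x).source)ᶜ = 0 := by
  rw [chartMeas_apply x (chartAt V x).open_source.measurableSet.compl]
  have : (chartAt V x).target ∩ (chartAt V x).symm ⁻¹' ((chartAt V x).source)ᶜ = ∅ := by
    ext u
    simp only [mem_inter_iff, mem_preimage, mem_compl_iff, mem_empty_iff_false, iff_false, not_and,
      not_not]
    intro hu
    exact (chartAt V x).map_target hu
  rw [this]
  simp

lemma chartMeas_restrict (x : M) : (chartMeas (V := V) F x).restrict (chartAt V x).source =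
    chartMeas (V := V) F x := by
  apply Measure.restrict_eq_self_of_ae_mem
  rw [ae_iff]
  exact chartMeas_compl x

/-- The volume measure restricted to a chart domain is the measure in the chart. -/
theorem volM_restrict_source [IsManifold 𝓘(ℝ, V) ∞ M] (hF : SphImm V F) (x : M) :
    (volM V F).restrict (chartAt V x).source = chartMeas (V := V) F x := by
  have hvol : volM V F = ⨆ y : M, chartMeas (V := V) F y := rfl
  have hsm : MeasurableSet (chartAt V x).source := (chartAt V x).open_source.measurableSet
  apply le_antisymm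
  · have h1 : volM V F ≤ chartMeas (V := V) F x + (volM V F).restrict ((chartAt V x).source)ᶜ := by
      conv_lhs => rw [hvol]
      apply iSup_le
      intro y
      rw [Measure.le_iff]
      intro E hE
      have h2 : chartMeas (V := V) F y E ≤ chartMeas (V := V) F y (E ∩ (chartAt V x).source) +
          chartMeas (V := V) F y (E ∩ ((chartAt V x).source)ᶜ) := by
        rw [← Set.sdiff_eq, measure_inter_add_sdiff _ hsm]
      refine h2.trans ?_
      rw [Measure.add_apply, Measure.restrict_apply hE]
      refine add_le_add ?_ ?_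
      · -- first piece
        have h3 : chartMeas (V := V) F y (E ∩ (chartAt V x).source) =
            chartMeas (V := V) F y (E ∩ (chartAt V x).source ∩ (chartAt V y).source) := by
          conv_lhs => rw [← chartMeas_restrict (V := V) (F := F) y]
          rw [Measure.restrict_apply (hE.inter hsm)]
        rw [h3, ← chartMeas_eq hF x y ((hE.inter hsm).inter
          (chartAt V y).open_source.measurableSet) (fun z hz => hz.1.2) (fun z hz => hz.2)]
        exact measure_mono (fun z hz => hz.1.1)
      · rw [hvol]
        exact (le_iSup (fun y : M => chartMeas (V := V) F y) y) _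
    calc (volM V F).restrict (chartAt V x).source
        ≤ (chartMeas (V := V) F x + (volM V F).restrict ((chartAt V x).source)ᶜ).restrict
          (chartAt V x).source := Measure.restrict_mono_measure h1 _
      _ = chartMeas (V := V) F x := by
          rw [Measure.restrict_add, Measure.restrict_restrict hsm, chartMeas_restrict,
            inter_compl_self, Measure.restrict_empty, add_zero]
  · rw [← chartMeas_restrict x]
    exact Measure.restrict_mono_measure (le_iSup (fun y : M => chartMeas (V := V) F y) x) _

lemma measurable_rep_det [IsManifold 𝓘(ℝ, V) ∞ M] (hF : SphImm V F) (x : M) :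
    ContinuousOn (fun u : V => Real.sqrt (metricMat (rep F x) u).det) (chartAt V x).target := by
  have hI := immV_rep hF x
  apply Real.continuous_sqrt.comp_continuousOn
  apply (continuous_id.matrix_det).comp_continuousOn
  apply continuousOn_matrix
  intro i j
  have h1 : ContinuousOn (fderiv ℝ (rep F x)) (chartAt V x).target :=
    hI.smooth.continuousOn_fderiv_of_isOpen hI.isOpen (by norm_num)
  exact (h1.clm_apply continuousOn_const).inner (𝕜 := ℝ) (h1.clm_apply continuousOn_const)

/-- The volume is finite. -/
theorem isFiniteMeasure_volM [IsManifold 𝓘(ℝ, V) ∞ M] [CompactSpace M] (hF : SphImm V F) :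
    IsFiniteMeasure (volM V F) := by
  have hloc : ∀ x : M, ∃ U : Set M, IsOpen U ∧ x ∈ U ∧ volM V F U < ⊤ := by
    intro x
    set φ := chartAt V x with hφ
    have hxs := mem_chart_source V x
    have hut : φ x ∈ φ.target := φ.map_source hxs
    obtain ⟨r, hr, hball⟩ := Metric.isOpen_iff.mp φ.open_target _ hut
    have hcb : closedBall (φ x) (r / 2) ⊆ φ.target :=
      (closedBall_subset_ball (by linarith)).trans hball
    set U : Set M := φ.source ∩ φ ⁻¹' ball (φ x) (r / 2) with hU
    have hUo : IsOpen U := φ.isOpen_inter_preimage isOpen_ball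
    refine ⟨U, hUo, ⟨hxs, mem_ball_self (by linarith)⟩, ?_⟩
    have h1 : volM V F U = chartMeas (V := V) F x U := by
      rw [← volM_restrict_source hF x, Measure.restrict_apply hUo.measurableSet,
        inter_eq_self_of_subset_left inter_subset_left]
    rw [h1, chartMeas_apply x hUo.measurableSet]
    have h2 : φ.target ∩ φ.symm ⁻¹' U ⊆ closedBall (φ x) (r / 2) := by
      rintro u ⟨hu, hu2⟩
      have := hu2.2
      rw [mem_preimage, φ.right_inv hu] at this
      exact ball_subset_closedBall this
    have hc := (measurable_rep_det hF x).mono hcb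
    obtain ⟨C, hC⟩ := (isCompact_closedBall (φ x) (r / 2)).exists_bound_of_continuousOn hc
    calc ∫⁻ u in φ.target ∩ φ.symm ⁻¹' U, ENNReal.ofReal (Real.sqrt (metricMat (rep F x) u).det)
        ≤ ∫⁻ u in closedBall (φ x) (r / 2),
          ENNReal.ofReal (Real.sqrt (metricMat (rep F x) u).det) := lintegral_mono_set h2
      _ ≤ ∫⁻ _ in closedBall (φ x) (r / 2), ENNReal.ofReal C := by
          apply setLIntegral_mono' isClosed_closedBall.measurableSet
          intro u hu
          apply ENNReal.ofReal_le_ofReal
          have := hC u hu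
          exact (le_abs_self _).trans this
      _ = ENNReal.ofReal C * volume (closedBall (φ x) (r / 2)) := by
          rw [setLIntegral_const]
      _ < ⊤ := ENNReal.mul_lt_top ENNReal.ofReal_lt_top measure_closedBall_lt_top
  choose U hUo hxU hfin using hloc
  obtain ⟨t, ht⟩ := (isCompact_univ (X := M)).elim_nhds_subcover U
    (fun x _ => (hUo x).mem_nhds (hxU x))
  refine ⟨?_⟩
  calc volM V F univ ≤ volM V F (⋃ x ∈ t, U x) := measure_mono ht.2
    _ ≤ ∑ x ∈ t, volM V F (U x) := measure_biUnion_finset_le _ _
    _ < ⊤ := ENNReal.sum_lt_top.mpr fun x _ => hfin x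

/-- Nonempty open sets have positive volume. -/
theorem volM_pos_of_isOpen [IsManifold 𝓘(ℝ, V) ∞ M] (hW : finrank ℝ W = finrank ℝ V + 2)
    (hF : SphImm V F) {U : Set M}
    (hU : IsOpen U) (hne : U.Nonempty) : 0 < volM V F U := by
  obtain ⟨x, hx⟩ := hne
  refine lt_of_lt_of_le ?_ (chartMeasure_le (V := V) (F := F) x hU.measurableSet)
  set φ := chartAt V x with hφ
  have hxs := mem_chart_source V x
  set s : Set V := φ.target ∩ φ.symm ⁻¹' U with hs
  have hso : IsOpen s := φ.symm.isOpen_inter_preimage hU
  have hsne : s.Nonempty := ⟨φ x, φ.map_source hxs, by rw [mem_preimage, φ.left_inv hxs]; exact hx⟩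
  have hsT : s ⊆ φ.target := inter_subset_left
  rw [pos_iff_ne_zero]
  intro h0
  have hae : AEMeasurable (fun u : V => ENNReal.ofReal (Real.sqrt (metricMat (rep F x) u).det))
      (volume.restrict s) :=
    (((measurable_rep_det hF x).mono hsT).aemeasurable hso.measurableSet).ennreal_ofReal
  rw [lintegral_eq_zero_iff' hae] at h0
  have h1 : ∀ᵐ u ∂(volume.restrict s), u ∈ (∅ : Set V) := by
    filter_upwards [h0, self_mem_ae_restrict hso.measurableSet] with u hu hus
    exfalso
    have hI := (immV_rep hF x).imm hW
    have hmem : iV V u ∈ (iV V).symm ⁻¹' φ.target := by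
      rw [mem_preimage, (iV V).symm_apply_apply]; exact hsT hus
    have hpos : 0 < (metricMat (rep F x) u).det := by
      rw [← G_tr hW (rep F x) u]
      exact (hI.G_posDef hmem).det_pos
    have h2 : 0 < ENNReal.ofReal (Real.sqrt (metricMat (rep F x) u).det) := by
      rw [ENNReal.ofReal_pos]
      exact Real.sqrt_pos.mpr hpos
    have h3 : ENNReal.ofReal (Real.sqrt (metricMat (rep F x) u).det) = 0 := hu
    rw [h3] at h2
    exact lt_irrefl _ h2
  have h2 : volume s = 0 := by
    have h3 : volume.restrict s univ = 0 := by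
      have := h1
      rw [ae_iff] at this
      simpa using this
    simpa using h3
  exact (hso.measure_pos volume hsne).ne' h2

end

end Vale.Agent.P224
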