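import Mathlib
import Vale.Agent.P224.Defs
import Vale.Agent.P224.LinAlg

namespace Vale.Agent.P224

open MeasureTheory Filter Topology Set
open scoped RealInnerProductSpace ContDiff ENNReal

section basic

variable {m : ℕ}

lemma lint_gauss (hm : 0 < m) {b : ℝ} (hb : 0 < b) :
    ∫⁻ w : EuclideanSpace ℝ (Fin m), ENNReal.ofReal (Real.exp (-b * ‖w‖ ^ 2))
      = ENNReal.ofReal ((Real.pi / b) ^ ((m : ℝ) / 2)) := by
  have h1 := GaussianFourier.integral_rexp_neg_mul_sq_norm (V := EuclideanSpace ℝ (Fin m)) hb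
  have hpos : 0 < (Real.pi / b) ^ ((Module.finrank ℝ (EuclideanSpace ℝ (Fin m)) : ℝ) / 2) :=
    Real.rpow_pos_of_pos (div_pos Real.pi_pos hb) _
  have hint : Integrable (fun w : EuclideanSpace ℝ (Fin m) => Real.exp (-b * ‖w‖ ^ 2)) := by
    by_contra h
    rw [integral_undef h] at h1
    rw [← h1] at hpos
    exact lt_irrefl _ hpos
  rw [← ofReal_integral_eq_lintegral_ofReal hint
    (Eventually.of_forall fun _ => (Real.exp_pos _).le), h1]
  simp

lemma lint_one_add (hm : 0 < m) :
    ∫⁻ w : EuclideanSpace ℝ (Fin m), ENNReal.ofReal ((2 / (1 + ‖w‖ ^ 2)) ^ m)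
      = ENNReal.ofReal (sphereVol m) := by
  have hm' : (0 : ℝ) < m := by exact_mod_cast hm
  have hG : 0 < Real.Gamma m := Real.Gamma_pos_of_pos hm'
  -- layer formula
  have h1 : ∀ w : EuclideanSpace ℝ (Fin m), ENNReal.ofReal ((2 / (1 + ‖w‖ ^ 2)) ^ m)
      = ∫⁻ t in Ioi (0 : ℝ), ENNReal.ofReal (2 ^ m / Real.Gamma m * (t ^ ((m : ℝ) - 1) *
        Real.exp (-((1 + ‖w‖ ^ 2) * t)))) := by
    intro w
    have hr : 0 < 1 + ‖w‖ ^ 2 := by positivity
    have h2 := Real.integral_rpow_mul_exp_neg_mul_Ioi hm' hr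
    have hpos : 0 < (1 / (1 + ‖w‖ ^ 2)) ^ (m : ℝ) * Real.Gamma m := by positivity
    have hint : IntegrableOn (fun t : ℝ => t ^ ((m : ℝ) - 1) *
        Real.exp (-((1 + ‖w‖ ^ 2) * t))) (Ioi 0) := by
      by_contra h
      rw [integral_undef h] at h2
      rw [← h2] at hpos
      exact lt_irrefl _ hpos
    rw [← ofReal_integral_eq_lintegral_ofReal (hint.const_mul _), integral_const_mul, h2]
    · congr 1
      rw [Real.rpow_natCast, div_pow, div_pow, one_pow]
      field_simp
    · filter_upwards [self_mem_ae_restrict measurableSet_Ioi] with t ht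
      have ht' : (0 : ℝ) < t := ht
      positivity
  simp_rw [h1]
  rw [lintegral_lintegral_swap]
  · have h3 : ∀ t ∈ Ioi (0 : ℝ), ∫⁻ w : EuclideanSpace ℝ (Fin m),
        ENNReal.ofReal (2 ^ m / Real.Gamma m * (t ^ ((m : ℝ) - 1) *
        Real.exp (-((1 + ‖w‖ ^ 2) * t)))) =
        ENNReal.ofReal (2 ^ m * Real.pi ^ ((m : ℝ) / 2) / Real.Gamma m *
          (t ^ ((m : ℝ) / 2 - 1) * Real.exp (-(1 * t)))) := by
      intro t ht
      have ht' : (0 : ℝ) < t := ht
      have h4 : ∀ w : EuclideanSpace ℝ (Fin m),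
          ENNReal.ofReal (2 ^ m / Real.Gamma m * (t ^ ((m : ℝ) - 1) *
          Real.exp (-((1 + ‖w‖ ^ 2) * t)))) =
          ENNReal.ofReal (2 ^ m / Real.Gamma m * (t ^ ((m : ℝ) - 1) * Real.exp (-t))) *
            ENNReal.ofReal (Real.exp (-t * ‖w‖ ^ 2)) := by
        intro w
        rw [← ENNReal.ofReal_mul (by positivity)]
        congr 1
        rw [show -((1 + ‖w‖ ^ 2) * t) = -t + -t * ‖w‖ ^ 2 by ring, Real.exp_add]
        ring
      simp_rw [h4]
      rw [lintegral_const_mul _ (by fun_prop), lint_gauss hm ht', ← ENNReal.ofReal_mul (by positivity)]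
      congr 1
      rw [Real.div_rpow Real.pi_pos.le ht'.le, one_mul]
      have h5 : t ^ ((m : ℝ) - 1) = t ^ ((m : ℝ) / 2 - 1) * t ^ ((m : ℝ) / 2) := by
        rw [← Real.rpow_add ht']; congr 1; ring
      rw [h5]
      have : 0 < t ^ ((m : ℝ) / 2) := Real.rpow_pos_of_pos ht' _
      field_simp
    rw [setLIntegral_congr_fun measurableSet_Ioi h3]
    have hm2 : (0 : ℝ) < (m : ℝ) / 2 := by positivity
    have h6 := Real.integral_rpow_mul_exp_neg_mul_Ioi hm2 (r := 1) zero_lt_one
    have hpos : 0 < (1 / 1 : ℝ) ^ ((m : ℝ) / 2) * Real.Gamma ((m : ℝ) / 2) := by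
      have := Real.Gamma_pos_of_pos hm2
      positivity
    have hint : IntegrableOn (fun t : ℝ => t ^ ((m : ℝ) / 2 - 1) * Real.exp (-(1 * t)))
        (Ioi 0) := by
      by_contra h
      rw [integral_undef h] at h6
      rw [← h6] at hpos
      exact lt_irrefl _ hpos
    rw [← ofReal_integral_eq_lintegral_ofReal (hint.const_mul _), integral_const_mul, h6]
    · congr 1
      unfold sphereVol
      have hd := Real.Gamma_mul_Gamma_add_half ((m : ℝ) / 2)
      have e1 : (m : ℝ) / 2 + 1 / 2 = ((m : ℝ) + 1) / 2 := by ring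
      have e2 : 2 * ((m : ℝ) / 2) = m := by ring
      rw [e1, e2] at hd
      have e3 : (2 : ℝ) ^ (1 - (m : ℝ)) = 2 / 2 ^ m := by
        rw [Real.rpow_sub (by norm_num), Real.rpow_one, Real.rpow_natCast]
      rw [e3] at hd
      have g1 : 0 < Real.Gamma (((m : ℝ) + 1) / 2) := Real.Gamma_pos_of_pos (by positivity)
      have g2 : 0 < Real.Gamma ((m : ℝ) / 2) := Real.Gamma_pos_of_pos (by positivity)
      have h7 : Real.pi ^ (((m : ℝ) + 1) / 2) = Real.pi ^ ((m : ℝ) / 2) * Real.sqrt Real.pi := by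
        rw [Real.sqrt_eq_rpow, ← Real.rpow_add Real.pi_pos]; congr 1; ring
      rw [h7, div_one, Real.one_rpow, one_mul]
      have hpi : 0 < Real.pi ^ ((m : ℝ) / 2) := Real.rpow_pos_of_pos Real.pi_pos _
      rw [div_mul_eq_mul_div, div_eq_div_iff hG.ne' g1.ne']
      have h8 : Real.Gamma ((m : ℝ) / 2) * Real.Gamma (((m : ℝ) + 1) / 2) * 2 ^ m
          = Real.Gamma m * 2 * Real.sqrt Real.pi := by
        rw [hd]; field_simp
      linear_combination Real.pi ^ ((m : ℝ) / 2) * h8
    · filter_upwards [self_mem_ae_restrict measurableSet_Ioi] with t ht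
      have ht' : (0 : ℝ) < t := ht
      have := Real.pi_pos
      positivity
  · apply Measurable.aemeasurable
    fun_prop

/-- linear change of variables -/
lemma lint_linear {n : ℕ} (hm : 0 < m)
    (L : EuclideanSpace ℝ (Fin m) →L[ℝ] EuclideanSpace ℝ (Fin n)) (hL : Function.Injective L) :
    ∫⁻ z : EuclideanSpace ℝ (Fin m), ENNReal.ofReal ((2 / (1 + ‖L z‖ ^ 2)) ^ m *
      Real.sqrt (Matrix.det (Matrix.of fun i j =>
        ⟪L (EuclideanSpace.single i 1), L (EuclideanSpace.single j 1)⟫)))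
      = ENNReal.ofReal (sphereVol m) := by
  set G0 : Matrix (Fin m) (Fin m) ℝ := Matrix.of fun i j =>
        ⟪L (EuclideanSpace.single i 1), L (EuclideanSpace.single j 1)⟫ with hG0
  have hG0' : G0 = Matrix.gram ℝ (fun i => L (EuclideanSpace.single i 1)) := by
    ext i j; rfl
  have hli : LinearIndependent ℝ (fun i => L (EuclideanSpace.single i (1 : ℝ))) := by
    have h1 := (EuclideanSpace.basisFun (Fin m) ℝ).toBasis.linearIndependent
    have hk : LinearMap.ker L.toLinearMap = ⊥ := by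
      rw [LinearMap.ker_eq_bot]
      exact hL
    have h2 := h1.map' _ hk
    have e : (fun i => L (EuclideanSpace.single i (1 : ℝ))) = (⇑L.toLinearMap ∘
        ⇑(EuclideanSpace.basisFun (Fin m) ℝ).toBasis) := by
      funext i
      simp
    rw [e]
    exact h2
  have hpd : G0.PosDef := by
    rw [hG0']; exact Matrix.posDef_gram_of_linearIndependent hli
  obtain ⟨T, κ, hTG, -⟩ := exists_simul_diag G0 0 hpd (by simp)
  have hdet : T.det * T.det * G0.det = 1 := by
    have := congrArg Matrix.det hTG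
    rw [Matrix.det_mul, Matrix.det_mul, Matrix.det_transpose, Matrix.det_one] at this
    linarith
  have hTdet : T.det ≠ 0 := by
    intro h
    rw [h] at hdet
    simp at hdet
  set TL : EuclideanSpace ℝ (Fin m) →ₗ[ℝ] EuclideanSpace ℝ (Fin m) :=
    Matrix.toLpLin 2 2 T with hTL
  have hTLd : LinearMap.det TL = T.det := LinearMap.det_toLpLin 2 T
  have hLsum : ∀ z : EuclideanSpace ℝ (Fin m), L z = ∑ b, z b • L (EuclideanSpace.single b 1) := by
    intro z
    have hx : z = ∑ b, z b • EuclideanSpace.single b (1 : ℝ) := by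
      ext j
      simp [Finset.sum_apply, Pi.single_apply]
    conv_lhs => rw [hx]
    rw [map_sum]
    simp only [map_smul]
  have hnorm : ∀ w, ‖L (TL w)‖ ^ 2 = ‖w‖ ^ 2 := by
    intro w
    have h1 : ‖L (TL w)‖ ^ 2 = (w : Fin m → ℝ) ⬝ᵥ ((T.transpose * G0 * T).mulVec w) := by
      rw [← real_inner_self_eq_norm_sq, hLsum (TL w)]
      simp only [sum_inner, inner_sum, inner_smul_left, inner_smul_right, conj_trivial]
      have h2 : ∀ b, (TL w) b = (T.mulVec w) b := by
        intro b
        rw [hTL, Matrix.toLpLin_apply]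
      simp only [h2]
      have h3 : (w : Fin m → ℝ) ⬝ᵥ ((T.transpose * G0 * T).mulVec w)
          = (T.mulVec w) ⬝ᵥ (G0.mulVec (T.mulVec w)) := by
        rw [← Matrix.mulVec_mulVec, ← Matrix.mulVec_mulVec, Matrix.dotProduct_mulVec,
          Matrix.vecMul_transpose]
      rw [h3]
      generalize T.mulVec (w : Fin m → ℝ) = v
      simp only [dotProduct, Matrix.mulVec, hG0, Matrix.of_apply, Finset.mul_sum]
      apply Finset.sum_congr rfl
      intro i _
      apply Finset.sum_congr rfl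
      intro j _
      rw [real_inner_comm (L (EuclideanSpace.single i 1)) (L (EuclideanSpace.single j 1))]
      ring
    rw [h1, hTG, Matrix.one_mulVec, EuclideanSpace.norm_eq, Real.sq_sqrt
      (Finset.sum_nonneg fun i _ => by positivity)]
    simp [dotProduct, pow_two]
  have hmap := Measure.map_linearMap_addHaar_eq_smul_addHaar (f := TL)
    (volume : Measure (EuclideanSpace ℝ (Fin m))) (by rw [hTLd]; exact hTdet)
  have hcont : Continuous TL := TL.continuous_of_finiteDimensional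
  set h : EuclideanSpace ℝ (Fin m) → ℝ≥0∞ := fun z =>
    ENNReal.ofReal ((2 / (1 + ‖L z‖ ^ 2)) ^ m * Real.sqrt G0.det) with hh
  have hmeas : Measurable h := by
    apply ENNReal.measurable_ofReal.comp
    apply Measurable.mul_const
    apply Measurable.pow_const
    apply Measurable.div measurable_const
    have : Continuous fun z : EuclideanSpace ℝ (Fin m) => 1 + ‖L z‖ ^ 2 := by fun_prop
    exact this.measurable
  have h1 : ∫⁻ w, h (TL w) = ∫⁻ z, h z ∂(Measure.map TL volume) :=
    (lintegral_map hmeas hcont.measurable).symm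
  rw [hmap, lintegral_smul_measure, hTLd, smul_eq_mul] at h1
  have h2 : ∫⁻ w, h (TL w) = ENNReal.ofReal (sphereVol m) * ENNReal.ofReal (Real.sqrt G0.det) := by
    have : ∀ w, h (TL w) = ENNReal.ofReal ((2 / (1 + ‖w‖ ^ 2)) ^ m) *
        ENNReal.ofReal (Real.sqrt G0.det) := by
      intro w
      simp only [hh]
      rw [hnorm, ENNReal.ofReal_mul (by positivity)]
    simp_rw [this]
    rw [lintegral_mul_const _ (by fun_prop), lint_one_add hm]
  rw [h2] at h1
  have hs : Real.sqrt G0.det = |T.det⁻¹| := by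
    have h3 : G0.det = (T.det⁻¹) ^ 2 := by
      field_simp
      linarith
    rw [h3, Real.sqrt_sq_eq_abs]
  rw [hs] at h1
  have hne : ENNReal.ofReal |T.det⁻¹| ≠ 0 := by
    rw [ne_eq, ENNReal.ofReal_eq_zero, not_le]
    exact abs_pos.mpr (inv_ne_zero hTdet)
  rw [mul_comm] at h1
  exact ((ENNReal.mul_right_inj hne ENNReal.ofReal_ne_top).mp h1).symm

lemma continuousOn_mat {X : Type*} [TopologicalSpace X] {A : X → Matrix (Fin m) (Fin m) ℝ}
    {s : Set X} (h : ∀ i j, ContinuousOn (fun x => A x i j) s) : ContinuousOn A s := by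
  rw [continuousOn_iff_continuous_domRestrict]
  exact continuous_matrix fun i j => continuousOn_iff_continuous_domRestrict.mp (h i j)

/-- scaling -/
lemma lint_scale (u₀ : EuclideanSpace ℝ (Fin m)) {c : ℝ} (hc : 0 < c)
    (h : EuclideanSpace ℝ (Fin m) → ℝ≥0∞) :
    ∫⁻ u, h u = ENNReal.ofReal (c ^ m) * ∫⁻ z, h (u₀ + c • z) := by
  have hmap := Measure.map_addHaar_smul (volume : Measure (EuclideanSpace ℝ (Fin m))) hc.ne'
  have h1 : ∫⁻ z, h (u₀ + c • z) = ∫⁻ v, h (u₀ + v) ∂(Measure.map (fun z => c • z) volume) := by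
    have := (Homeomorph.smulOfNeZero c hc.ne' (α := EuclideanSpace ℝ (Fin m))).measurableEmbedding
    exact (this.lintegral_map (fun v => h (u₀ + v))).symm
  rw [hmap, lintegral_smul_measure] at h1
  have h2 : ∫⁻ v, h (u₀ + v) = ∫⁻ u, h u := lintegral_add_left_eq_self h u₀
  rw [h2] at h1
  rw [h1, smul_eq_mul, ← mul_assoc, ← ENNReal.ofReal_mul (by positivity)]
  have : c ^ m * |(c ^ Module.finrank ℝ (EuclideanSpace ℝ (Fin m)))⁻¹| = 1 := by
    rw [finrank_euclideanSpace_fin, abs_of_pos (by positivity)]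
    field_simp
  rw [this]
  simp

end basic

/-- The conformal density of an immersed piece at one of its points is at least the volume of the
unit sphere. -/
theorem density_local {m n : ℕ} (hm : 0 < m)
    (f : EuclideanSpace ℝ (Fin m) → EuclideanSpace ℝ (Fin n))
    (U : Set (EuclideanSpace ℝ (Fin m))) (hU : IsOpen U) (u₀ : EuclideanSpace ℝ (Fin m))
    (hu : u₀ ∈ U) (hf : ContDiffOn ℝ 1 f U) (hn : ∀ u ∈ U, ‖f u‖ = 1)
    (hinj : Function.Injective (fderiv ℝ f u₀)) {δ : ℝ} (hδ : 0 < δ)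
    (hsub : Metric.ball u₀ δ ⊆ U) {ε : ℝ} (hε : 0 < ε) :
    ∀ᶠ φ in nhdsWithin (Real.pi / 2) (Set.Iio (Real.pi / 2)),
      ENNReal.ofReal ((1 - ε) * sphereVol m) ≤ ∫⁻ u in Metric.ball u₀ δ,
        ENNReal.ofReal (Real.cos φ ^ m / (1 - Real.sin φ * ⟪f u, f u₀⟫) ^ m *
          Real.sqrt (Matrix.det (Matrix.of fun i j => ⟪fderiv ℝ f u (EuclideanSpace.single i 1),
            fderiv ℝ f u (EuclideanSpace.single j 1)⟫))) := by
  set L := fderiv ℝ f u₀ with hL
  set D : EuclideanSpace ℝ (Fin m) → ℝ := fun u => Real.sqrt (Matrix.det (Matrix.of fun i j =>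
    ⟪fderiv ℝ f u (EuclideanSpace.single i 1), fderiv ℝ f u (EuclideanSpace.single j 1)⟫)) with hD
  set g : ℝ → EuclideanSpace ℝ (Fin m) → ℝ≥0∞ := fun φ u =>
    ENNReal.ofReal (Real.cos φ ^ m / (1 - Real.sin φ * ⟪f u, f u₀⟫) ^ m * D u) with hg
  set cc : ℝ → ℝ := fun φ => Real.sqrt (2 * (1 - Real.sin φ)) with hcc
  set K : ℝ → EuclideanSpace ℝ (Fin m) → ℝ≥0∞ := fun φ z =>
    ENNReal.ofReal (cc φ ^ m) * (Metric.ball u₀ δ).indicator (g φ) (u₀ + cc φ • z) with hK
  have hfc : ContinuousOn f (Metric.ball u₀ δ) := (hf.continuousOn).mono hsub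
  have hfdc : ContinuousOn (fderiv ℝ f) U := by
    have := hf.fderiv_of_isOpen (m := 0) hU (by norm_num)
    exact this.continuousOn
  have hDc : ContinuousOn D U := by
    apply Continuous.comp_continuousOn Real.continuous_sqrt
    apply (continuous_id.matrix_det).comp_continuousOn
    apply continuousOn_mat
    intro i j
    exact (hfdc.clm_apply continuousOn_const).inner (𝕜 := ℝ) (hfdc.clm_apply continuousOn_const)
  -- measurability
  have hmeas : ∀ φ, AEMeasurable (K φ) volume := by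
    intro φ
    have h1 : AEMeasurable ((Metric.ball u₀ δ).indicator (g φ)) volume := by
      rw [aemeasurable_indicator_iff Metric.isOpen_ball.measurableSet]
      apply ENNReal.measurable_ofReal.comp_aemeasurable
      apply AEMeasurable.mul
      · apply AEMeasurable.div aemeasurable_const
        apply AEMeasurable.pow_const
        have h2 : ContinuousOn (fun u => 1 - Real.sin φ * ⟪f u, f u₀⟫) (Metric.ball u₀ δ) :=
          continuousOn_const.sub (continuousOn_const.mul (hfc.inner (𝕜 := ℝ) continuousOn_const))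
        exact h2.aemeasurable Metric.isOpen_ball.measurableSet
      · exact (hDc.mono hsub).aemeasurable Metric.isOpen_ball.measurableSet
    by_cases hc : cc φ = 0
    · have : K φ = fun _ => ENNReal.ofReal (cc φ ^ m) *
          (Metric.ball u₀ δ).indicator (g φ) u₀ := by
        funext z
        simp only [hK, hc, zero_smul, add_zero]
      rw [this]
      exact aemeasurable_const
    · apply AEMeasurable.const_mul
      have hmap := Measure.map_addHaar_smul (volume : Measure (EuclideanSpace ℝ (Fin m))) hc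
      have hq1 : Measure.QuasiMeasurePreserving (fun z : EuclideanSpace ℝ (Fin m) => cc φ • z)
          volume volume := by
        refine ⟨by fun_prop, ?_⟩
        rw [hmap]
        exact Measure.smul_absolutelyContinuous
      have hq2 : Measure.QuasiMeasurePreserving (fun z : EuclideanSpace ℝ (Fin m) => u₀ + z)
          volume volume := (measurePreserving_add_left volume u₀).quasiMeasurePreserving
      exact h1.comp_quasiMeasurePreserving (hq2.comp hq1)
  -- pointwise limits
  have hsin : ∀ᶠ φ in nhdsWithin (Real.pi / 2) (Set.Iio (Real.pi / 2)),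
      0 < Real.sin φ ∧ Real.sin φ < 1 ∧ 0 < Real.cos φ := by
    have h1 : ∀ᶠ φ in nhdsWithin (Real.pi / 2) (Set.Iio (Real.pi / 2)), 0 < φ :=
      nhdsWithin_le_nhds (lt_mem_nhds (by have := Real.pi_pos; linarith))
    filter_upwards [h1, self_mem_nhdsWithin] with φ hp1 hp2
    have hp2' : φ < Real.pi / 2 := hp2
    have hcos : 0 < Real.cos φ := Real.cos_pos_of_mem_Ioo ⟨by linarith, hp2'⟩
    refine ⟨Real.sin_pos_of_pos_of_lt_pi hp1 (by linarith), ?_, hcos⟩
    have := Real.sin_sq_add_cos_sq φ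
    nlinarith
  have hsint : Tendsto Real.sin (nhdsWithin (Real.pi / 2) (Set.Iio (Real.pi / 2))) (𝓝 1) := by
    have := (Real.continuous_sin.tendsto (Real.pi / 2)).mono_left
      (nhdsWithin_le_nhds (s := Set.Iio (Real.pi / 2)))
    rwa [Real.sin_pi_div_two] at this
  have hcct : Tendsto cc (nhdsWithin (Real.pi / 2) (Set.Iio (Real.pi / 2))) (𝓝 0) := by
    have h1 : Tendsto (fun φ => Real.sqrt (2 * (1 - Real.sin φ)))
        (nhdsWithin (Real.pi / 2) (Set.Iio (Real.pi / 2))) (𝓝 (Real.sqrt (2 * (1 - 1)))) :=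
      (Real.continuous_sqrt.tendsto _).comp ((hsint.const_sub 1).const_mul 2)
    have h0 : Real.sqrt (2 * (1 - 1)) = 0 := by norm_num
    rw [h0] at h1
    exact h1
  have hccpos : ∀ᶠ φ in nhdsWithin (Real.pi / 2) (Set.Iio (Real.pi / 2)), 0 < cc φ := by
    filter_upwards [hsin] with φ hφ
    exact Real.sqrt_pos.mpr (by linarith [hφ.2.1])
  have hfd : HasFDerivAt f L u₀ :=
    ((hf.differentiableOn (by norm_num)).differentiableAt (hU.mem_nhds hu)).hasFDerivAt
  have hlim : ∀ z, Tendsto (fun φ => K φ z) (nhdsWithin (Real.pi / 2) (Set.Iio (Real.pi / 2)))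
      (𝓝 (ENNReal.ofReal ((2 / (1 + ‖L z‖ ^ 2)) ^ m * D u₀))) := by
    intro z
    have hu' : Tendsto (fun φ => u₀ + cc φ • z) (nhdsWithin (Real.pi / 2) (Set.Iio (Real.pi / 2)))
        (𝓝 u₀) := by
      have := (tendsto_const_nhds (x := u₀)).add (hcct.smul_const z)
      simpa using this
    have hball : ∀ᶠ φ in nhdsWithin (Real.pi / 2) (Set.Iio (Real.pi / 2)),
        u₀ + cc φ • z ∈ Metric.ball u₀ δ := hu'.eventually (Metric.ball_mem_nhds u₀ hδ)
    have hquot : Tendsto (fun φ => (cc φ)⁻¹ • (f (u₀ + cc φ • z) - f u₀))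
        (nhdsWithin (Real.pi / 2) (Set.Iio (Real.pi / 2))) (𝓝 (L z)) := by
      have hne : ∀ᶠ φ in nhdsWithin (Real.pi / 2) (Set.Iio (Real.pi / 2)), cc φ ≠ 0 :=
        hccpos.mono fun φ h => h.ne'
      have h2 : Tendsto (fun φ => (cc φ)⁻¹ • (f (u₀ + cc φ • z) - f u₀))
          (nhdsWithin (Real.pi / 2) (Set.Iio (Real.pi / 2))) (𝓝 (L z)) := by
        have hder : HasDerivAt (fun t : ℝ => f (u₀ + t • z)) (L z) 0 := by
          have h3 : HasDerivAt (fun t : ℝ => u₀ + t • z) z 0 := by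
            have := ((hasDerivAt_id (0 : ℝ)).smul_const z).const_add u₀
            simpa using this
          have h4 : HasFDerivAt f L (u₀ + (0 : ℝ) • z) := by simpa using hfd
          exact h4.comp_hasDerivAt 0 h3
        have h5 := hder.tendsto_slope_zero
        simp only [zero_add, zero_smul, add_zero] at h5
        have h6 : Tendsto cc (nhdsWithin (Real.pi / 2) (Set.Iio (Real.pi / 2)))
            (nhdsWithin 0 {0}ᶜ) := tendsto_nhdsWithin_iff.mpr ⟨hcct, hne⟩
        exact h5.comp h6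
      exact h2
    have hreal : Tendsto (fun φ => (2 * (1 + Real.sin φ)) ^ ((m : ℝ) / 2) /
        (1 + Real.sin φ * ‖(cc φ)⁻¹ • (f (u₀ + cc φ • z) - f u₀)‖ ^ 2) ^ m *
        D (u₀ + cc φ • z)) (nhdsWithin (Real.pi / 2) (Set.Iio (Real.pi / 2)))
        (𝓝 ((2 * (1 + 1)) ^ ((m : ℝ) / 2) / (1 + 1 * ‖L z‖ ^ 2) ^ m * D u₀)) := by
      apply Tendsto.mul
      · apply Tendsto.div
        · exact ((hsint.const_add 1).const_mul 2).rpow_const (Or.inl (by norm_num))
        · exact ((hsint.mul (hquot.norm.pow 2)).const_add 1).pow m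
        · positivity
      · exact ((hDc.continuousAt (hU.mem_nhds hu)).tendsto).comp hu'
    have hval : (2 * (1 + 1) : ℝ) ^ ((m : ℝ) / 2) / (1 + 1 * ‖L z‖ ^ 2) ^ m * D u₀
        = (2 / (1 + ‖L z‖ ^ 2)) ^ m * D u₀ := by
      have : (2 * (1 + 1) : ℝ) ^ ((m : ℝ) / 2) = 2 ^ m := by
        rw [show (2 * (1 + 1) : ℝ) = 2 ^ (2 : ℝ) by norm_num, ← Real.rpow_mul (by norm_num)]
        rw [show (2 : ℝ) * ((m : ℝ) / 2) = m by ring, Real.rpow_natCast]
      rw [this, one_mul, div_pow]
    rw [hval] at hreal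
    refine (ENNReal.tendsto_ofReal hreal).congr' ?_
    filter_upwards [hsin, hball, hccpos] with φ hφ hb hc
    simp only [hK]
    rw [indicator_of_mem hb]
    simp only [hg]
    rw [← ENNReal.ofReal_mul (pow_nonneg hc.le m), ← mul_assoc]
    congr 2
    -- algebra
    set κ : ℝ := 1 - Real.sin φ with hκ
    have hκ0 : 0 < κ := by rw [hκ]; linarith [hφ.2.1]
    have hc2 : cc φ ^ 2 = 2 * κ := Real.sq_sqrt (by positivity)
    have hcos2 : Real.cos φ ^ 2 = κ * (1 + Real.sin φ) := by
      rw [hκ]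
      have := Real.sin_sq_add_cos_sq φ
      linear_combination this
    have hs : 1 - Real.sin φ * ⟪f (u₀ + cc φ • z), f u₀⟫ = κ * (1 + Real.sin φ *
        ‖(cc φ)⁻¹ • (f (u₀ + cc φ • z) - f u₀)‖ ^ 2) := by
      rw [norm_smul, mul_pow, norm_inv, Real.norm_eq_abs, inv_pow, sq_abs, hc2,
        @norm_sub_sq ℝ, hn _ (hsub hb), hn _ hu]
      simp only [RCLike.re_to_real]
      rw [hκ] at hκ0 ⊢
      field_simp
      ring
    rw [hs, mul_pow]
    have h7 : (2 * (1 + Real.sin φ)) ^ ((m : ℝ) / 2) = cc φ ^ m * Real.cos φ ^ m / κ ^ m := by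
      have h8 : 2 * (1 + Real.sin φ) = (cc φ * Real.cos φ / κ) ^ (2 : ℝ) := by
        rw [Real.rpow_two, div_pow, mul_pow, hc2, hcos2]
        field_simp
      rw [h8, ← Real.rpow_mul (div_nonneg (mul_nonneg hc.le hφ.2.2.le) hκ0.le),
        show (2 : ℝ) * ((m : ℝ) / 2) = m by ring,
        Real.rpow_natCast, div_pow, mul_pow]
    rw [h7]
    field_simp
  -- Fatou
  have hfatou := lintegral_liminf_le' (μ := (volume : Measure (EuclideanSpace ℝ (Fin m))))
    (f := K) (u := nhdsWithin (Real.pi / 2) (Set.Iio (Real.pi / 2))) hmeas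
  have hne : (nhdsWithin (Real.pi / 2) (Set.Iio (Real.pi / 2))).NeBot := inferInstance
  have hlim' : ∀ z, liminf (fun φ => K φ z) (nhdsWithin (Real.pi / 2) (Set.Iio (Real.pi / 2)))
      = ENNReal.ofReal ((2 / (1 + ‖L z‖ ^ 2)) ^ m * D u₀) := fun z => (hlim z).liminf_eq
  simp_rw [hlim'] at hfatou
  rw [lint_linear hm L hinj] at hfatou
  have hs0 : 0 < sphereVol m := by
    unfold sphereVol
    have := Real.Gamma_pos_of_pos (s := ((m : ℝ) + 1) / 2) (by positivity)
    have := Real.pi_pos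
    positivity
  have hlt : ENNReal.ofReal ((1 - ε) * sphereVol m) < liminf (fun φ => ∫⁻ z, K φ z)
      (nhdsWithin (Real.pi / 2) (Set.Iio (Real.pi / 2))) := by
    refine lt_of_lt_of_le ?_ hfatou
    rw [ENNReal.ofReal_lt_ofReal_iff hs0]
    nlinarith
  have hev := eventually_lt_of_lt_liminf hlt
  filter_upwards [hev, hccpos] with φ h1 hc
  have h2 : ∫⁻ z, K φ z = ∫⁻ u in Metric.ball u₀ δ, g φ u := by
    rw [← lintegral_indicator Metric.isOpen_ball.measurableSet]
    rw [lint_scale u₀ hc ((Metric.ball u₀ δ).indicator (g φ)),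
      ← lintegral_const_mul' _ _ ENNReal.ofReal_ne_top]
  rw [h2] at h1
  exact h1.le

end Vale.Agent.P224
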