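import Mathlib
import Vale.Agent.P224.Charts
import Vale.Agent.P224.Density
import Vale.Agent.P224.FV.Global

namespace Vale.Agent.P224

open scoped Manifold ContDiff RealInnerProductSpace Topology ENNReal
open MeasureTheory Metric Module Set Filter

variable {V W M : Type*} [NormedAddCommGroup V] [InnerProductSpace ℝ V] [FiniteDimensional ℝ V]
  [NormedAddCommGroup W] [InnerProductSpace ℝ W] [FiniteDimensional ℝ W]
  [TopologicalSpace M] [ChartedSpace V M] {F : M → W}
  [MeasurableSpace V] [BorelSpace V] [MeasurableSpace M] [BorelSpace M]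

/-- The volume measure restricted to a chart domain is the chart measure. -/
theorem volChart_of_sphImm [IsManifold 𝓘(ℝ, V) ∞ M] (hF : SphImm V F) : FV.VolChart V F :=
  fun x => volM_restrict_source hF x

/-- The conformal density at one point. -/
theorem density_at [IsManifold 𝓘(ℝ, V) ∞ M] (hm : 0 < finrank ℝ V)
    (hW : finrank ℝ W = finrank ℝ V + 2) (hF : SphImm V F) (p : M) {N : Set M}
    (hN : IsOpen N) (hp : p ∈ N) {ε : ℝ} (hε : 0 < ε) :
    ∀ᶠ φ in 𝓝[<] (Real.pi / 2),
      ENNReal.ofReal ((1 - ε) * sphereVol (finrank ℝ V)) ≤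
        ∫⁻ x in N, ENNReal.ofReal ((Real.cos φ / (1 - ⟪F x, F p⟫ * Real.sin φ)) ^ (finrank ℝ V))
          ∂(volM V F) := by
  set χ := chartAt V p with hχ
  have hps := mem_chart_source V p
  have hut : χ p ∈ χ.target := χ.map_source hps
  set T : Set V := χ.target ∩ χ.symm ⁻¹' N with hT
  have hTo : IsOpen T := χ.symm.isOpen_inter_preimage hN
  have huT : χ p ∈ T := ⟨hut, by rw [mem_preimage, χ.left_inv hps]; exact hp⟩
  obtain ⟨δ, hδ, hball⟩ := Metric.isOpen_iff.mp hTo _ huT
  have hI := (immV_rep hF p)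
  have hI' := hI.imm hW
  have hsub : Metric.ball (iV V (χ p)) δ ⊆ (iV V).symm ⁻¹' χ.target := by
    intro u hu
    rw [mem_preimage]
    have : (iV V).symm u ∈ Metric.ball (χ p) δ := by
      rw [mem_ball] at hu ⊢
      rw [← (iV V).symm.dist_map] at hu
      simpa using hu
    exact (hball this).1
  have hmem : iV V (χ p) ∈ (iV V).symm ⁻¹' χ.target := by
    rw [mem_preimage, (iV V).symm_apply_apply]; exact hut
  have hd := density_local hm (tr hW (rep (V := V) F p)) ((iV V).symm ⁻¹' χ.target) hI'.isOpen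
    (iV V (χ p)) hmem (hI'.smooth.of_le (by norm_cast)) hI'.unit (hI'.inj _ hmem) hδ hsub hε
  filter_upwards [hd] with φ hφ
  refine hφ.trans ?_
  have hNm := hN.measurableSet
  -- lower bound by the chart measure
  have hle : chartMeas (V := V) F p ≤ volM V F := by
    rw [← volM_restrict_source hF p]
    exact Measure.restrict_le_self
  set K : M → ℝ≥0∞ := fun x =>
    ENNReal.ofReal ((Real.cos φ / (1 - ⟪F x, F p⟫ * Real.sin φ)) ^ (finrank ℝ V)) with hK
  have hKm : Measurable K := by
    have hFc : Continuous F := hF.1.continuous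
    exact ENNReal.measurable_ofReal.comp ((measurable_const.div
      (measurable_const.sub ((hFc.inner continuous_const).measurable.mul_const _))).pow_const _)
  have h1 : ∫⁻ x in N, K x ∂(chartMeas (V := V) F p) ≤ ∫⁻ x in N, K x ∂(volM V F) :=
    lintegral_mono' (Measure.restrict_mono_measure hle _) le_rfl
  refine le_trans ?_ h1
  rw [← lintegral_indicator hNm]
  have hTm := χ.open_target.measurableSet
  unfold chartMeas
  rw [lintegral_map' (hKm.indicator hNm).aemeasurable
      (χ.continuousOn_symm.aemeasurable hTm), restrict_withDensity hTm,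
      lintegral_withDensity_eq_lintegral_mul₀]
  · -- compare on the ball
    have h2 : ∫⁻ u in Metric.ball (χ p) δ, ((fun u : V =>
        ENNReal.ofReal (Real.sqrt (metricMat (rep F p) u).det)) *
          fun a => N.indicator K (χ.symm a)) u ≤
        ∫⁻ u in χ.target, ((fun u : V =>
        ENNReal.ofReal (Real.sqrt (metricMat (rep F p) u).det)) *
          fun a => N.indicator K (χ.symm a)) u :=
      lintegral_mono_set (hball.trans inter_subset_left)
    refine le_trans ?_ h2
    have hmp : MeasurePreserving (iV V) := (iV V).measurePreserving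
    have hme : MeasurableEmbedding (iV V) := (iV V).toHomeomorph.measurableEmbedding
    have hpre : (iV V) ⁻¹' (Metric.ball (iV V (χ p)) δ) = Metric.ball (χ p) δ := by
      ext u
      rw [mem_preimage, mem_ball, mem_ball, (iV V).dist_map]
    rw [← hmp.setLIntegral_comp_preimage_emb hme, hpre]
    apply setLIntegral_mono_ae' measurableSet_ball
    refine Eventually.of_forall fun u hu => ?_
    have huN : χ.symm u ∈ N := (hball hu).2
    rw [Pi.mul_apply, indicator_of_mem huN]
    have e1 : tr hW (rep (V := V) F p) (iV V u) = iW hW (F (χ.symm u)) := by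
      unfold tr rep
      rw [(iV V).symm_apply_apply]
    have e2 : tr hW (rep (V := V) F p) (iV V (χ p)) = iW hW (F p) := by
      unfold tr rep
      rw [(iV V).symm_apply_apply, χ.left_inv hps]
    have e3 : (Matrix.of fun i j => ⟪fderiv ℝ (tr hW (rep (V := V) F p)) (iV V u)
        (EuclideanSpace.single i 1), fderiv ℝ (tr hW (rep (V := V) F p)) (iV V u)
        (EuclideanSpace.single j 1)⟫) = metricMat (rep F p) u := by
      rw [← G_tr hW (rep F p) u]
      rfl
    rw [e1, e2, e3, (iW hW).inner_map_map, hK]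
    beta_reduce
    rw [mul_comm (Real.cos φ ^ finrank ℝ V / _), ENNReal.ofReal_mul (Real.sqrt_nonneg _),
      div_pow, mul_comm (Real.sin φ)]
  · exact ((measurable_rep_det hF p).aemeasurable hTm).ennreal_ofReal
  · exact (hKm.indicator hNm).comp_aemeasurable (χ.continuousOn_symm.aemeasurable hTm)

/-- The conformal density of a compact immersed submanifold at a point with at least q
preimages is at least q times the volume of the unit sphere. -/
theorem density_global [IsManifold 𝓘(ℝ, V) ∞ M] [CompactSpace M] [T2Space M]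
    (hm : 0 < finrank ℝ V) (hW : finrank ℝ W = finrank ℝ V + 2) (hF : SphImm V F)
    (q : Finset M) (y : W) (hq : ∀ p ∈ q, F p = y) (hy : ‖y‖ = 1) {ε : ℝ} (hε : 0 < ε) :
    ∀ᶠ φ in 𝓝[<] (Real.pi / 2),
      (q.card : ℝ) * sphereVol (finrank ℝ V) - ε ≤
        ∫ x, (Real.cos φ / (1 - ⟪F x, y⟫ * Real.sin φ)) ^ (finrank ℝ V) ∂(volM V F) := by
  classical
  have hsv : 0 < sphereVol (finrank ℝ V) := by
    unfold sphereVol
    have := Real.pi_pos
    have := Real.Gamma_pos_of_pos (s := ((finrank ℝ V : ℝ) + 1) / 2) (by positivity)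
    positivity
  have := isFiniteMeasure_volM (V := V) hF
  obtain ⟨U, hU, hdis⟩ := (Set.Finite.t2_separation (X := M) q.finite_toSet)
  set ε' : ℝ := min (1 / 2) (ε / ((q.card : ℝ) * sphereVol (finrank ℝ V) + 1)) with hε'
  have hden : 0 < (q.card : ℝ) * sphereVol (finrank ℝ V) + 1 := by positivity
  have hε'0 : 0 < ε' := lt_min (by norm_num) (by positivity)
  have hε'1 : ε' ≤ 1 / 2 := min_le_left _ _
  have hall : ∀ᶠ φ in 𝓝[<] (Real.pi / 2), ∀ p ∈ q,
      ENNReal.ofReal ((1 - ε') * sphereVol (finrank ℝ V)) ≤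
        ∫⁻ x in U p, ENNReal.ofReal ((Real.cos φ / (1 - ⟪F x, F p⟫ * Real.sin φ)) ^ (finrank ℝ V))
          ∂(volM V F) := by
    rw [Filter.eventually_all_finset]
    intro p hp
    exact density_at hm hW hF p (hU p).2 (hU p).1 hε'0
  have h0 : ∀ᶠ φ in 𝓝[<] (Real.pi / 2), φ ∈ Ioo 0 (Real.pi / 2) :=
    Ioo_mem_nhdsLT (by positivity)
  filter_upwards [hall, h0] with φ hφ hφ0
  have hcos : 0 < Real.cos φ := Real.cos_pos_of_mem_Ioo ⟨by linarith [hφ0.1, Real.pi_pos], hφ0.2⟩
  have hsin : Real.sin φ < 1 := by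
    nlinarith [Real.sin_sq_add_cos_sq φ, Real.sin_le_one φ]
  have hsin0 : 0 < Real.sin φ := Real.sin_pos_of_pos_of_lt_pi hφ0.1 (by linarith [hφ0.2, Real.pi_pos])
  have hFc : Continuous F := hF.1.continuous
  have hden' : ∀ x, 0 < 1 - ⟪F x, y⟫ * Real.sin φ := by
    intro x
    have h1 : ⟪F x, y⟫ ≤ 1 := by
      have := real_inner_le_norm (F x) y
      rwa [hF.unit x, hy, one_mul] at this
    nlinarith
  set k : M → ℝ := fun x => (Real.cos φ / (1 - ⟪F x, y⟫ * Real.sin φ)) ^ (finrank ℝ V) with hk
  have hkc : Continuous k := by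
    apply Continuous.pow
    apply continuous_const.div₀
    · exact continuous_const.sub ((hFc.inner continuous_const).mul continuous_const)
    · intro x; exact (hden' x).ne'
  have hk0 : ∀ x, 0 ≤ k x := fun x => pow_nonneg (div_nonneg hcos.le (hden' x).le) _
  have hki : Integrable k (volM V F) := by
    obtain ⟨C, hC⟩ := (isCompact_univ (X := M)).exists_bound_of_continuousOn hkc.continuousOn
    exact Integrable.mono' (integrable_const C) hkc.aestronglyMeasurable
      (Eventually.of_forall fun x => hC x (mem_univ x))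
  have hsum : ∑ p ∈ q, ENNReal.ofReal ((1 - ε') * sphereVol (finrank ℝ V)) ≤
      ∫⁻ x, ENNReal.ofReal (k x) ∂(volM V F) := by
    calc ∑ p ∈ q, ENNReal.ofReal ((1 - ε') * sphereVol (finrank ℝ V))
        ≤ ∑ p ∈ q, ∫⁻ x in U p, ENNReal.ofReal (k x) ∂(volM V F) := by
          apply Finset.sum_le_sum
          intro p hp
          have := hφ p hp
          rw [hq p hp] at this
          exact this
      _ = ∫⁻ x in ⋃ p ∈ q, U p, ENNReal.ofReal (k x) ∂(volM V F) := by
          rw [lintegral_biUnion_finset]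
          · exact hdis
          · intro p _
            exact (hU p).2.measurableSet
      _ ≤ ∫⁻ x, ENNReal.ofReal (k x) ∂(volM V F) := setLIntegral_le_lintegral _ _
  rw [← ofReal_integral_eq_lintegral_ofReal hki (Eventually.of_forall hk0),
    Finset.sum_const, nsmul_eq_mul, ← ENNReal.ofReal_natCast, ← ENNReal.ofReal_mul (by positivity),
    ENNReal.ofReal_le_ofReal_iff (integral_nonneg hk0)] at hsum
  refine le_trans ?_ hsum
  have h3 : ε' * ((q.card : ℝ) * sphereVol (finrank ℝ V) + 1) ≤ ε := by
    rw [← le_div_iff₀ hden]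
    exact min_le_right _ _
  linarith

end Vale.Agent.P224
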