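import Mathlib
import Vale.Agent.P224.Defs

namespace Vale.Agent.P224

lemma sphereVol_pos' (k : ℕ) : 0 < sphereVol k := by
  unfold sphereVol
  have := Real.Gamma_pos_of_pos (s := ((k : ℝ) + 1) / 2) (by positivity)
  have := Real.pi_pos
  positivity

lemma cliffordVol_nonneg' (m k : ℕ) : 0 ≤ cliffordVol m k := by
  unfold cliffordVol
  have h1 := sphereVol_pos' k
  have h2 := sphereVol_pos' (m - k)
  positivity

lemma leastClifford_le {m k : ℕ} (hk : 1 ≤ k) (hkm : k < m) :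
    leastClifford m ≤ cliffordVol m k := by
  unfold leastClifford
  have hb : BddBelow (Set.range fun k : Set.Ico 1 m => cliffordVol m k) := by
    refine ⟨0, ?_⟩
    rintro _ ⟨k, rfl⟩
    exact cliffordVol_nonneg' m k
  exact ciInf_le hb ⟨k, hk, hkm⟩

/-- ratio for even dimension -/
noncomputable def evenRatio (k : ℕ) : ℝ :=
  2 / 2 ^ k * Real.sqrt Real.pi * Real.Gamma ((k : ℝ) + 1 / 2) / Real.Gamma (((k : ℝ) + 1) / 2) ^ 2

lemma clifford_even {k : ℕ} (hk : 1 ≤ k) :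
    cliffordVol (2 * k) k = evenRatio k * sphereVol (2 * k) := by
  have hk' : (0 : ℝ) < k := by exact_mod_cast hk
  unfold cliffordVol evenRatio sphereVol
  have e0 : (2 * k - k : ℕ) = k := by omega
  rw [e0]
  have h1 : ((k : ℝ) / ((2 * k : ℕ) : ℝ)) = 1 / 2 := by
    push_cast
    field_simp
  rw [h1]
  have h2 : ((1 : ℝ) / 2) ^ ((k : ℝ) / 2) * ((1 : ℝ) / 2) ^ ((k : ℝ) / 2) = 1 / 2 ^ k := by
    rw [← Real.rpow_add (by norm_num)]
    rw [show (k : ℝ) / 2 + (k : ℝ) / 2 = (k : ℝ) by ring, Real.rpow_natCast, one_div_pow]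
  have g1 : 0 < Real.Gamma (((k : ℝ) + 1) / 2) := Real.Gamma_pos_of_pos (by positivity)
  have g2 : 0 < Real.Gamma (((2 * k : ℕ) : ℝ) / 2 + 1 / 2) := Real.Gamma_pos_of_pos (by positivity)
  have e1 : (((2 * k : ℕ) : ℝ) + 1) / 2 = (k : ℝ) + 1 / 2 := by push_cast; ring
  rw [e1]
  have g3 : 0 < Real.Gamma ((k : ℝ) + 1 / 2) := Real.Gamma_pos_of_pos (by positivity)
  have hπ := Real.pi_pos
  have h3 : Real.pi ^ (((k : ℝ) + 1) / 2) * Real.pi ^ (((k : ℝ) + 1) / 2)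
      = Real.sqrt Real.pi * Real.pi ^ ((k : ℝ) + 1 / 2) := by
    rw [Real.sqrt_eq_rpow, ← Real.rpow_add hπ, ← Real.rpow_add hπ]
    congr 1
    ring
  have h4 : 0 < Real.pi ^ ((k : ℝ) + 1 / 2) := Real.rpow_pos_of_pos hπ _
  calc (1 / 2 : ℝ) ^ ((k : ℝ) / 2) * (1 / 2) ^ ((k : ℝ) / 2) *
        (2 * Real.pi ^ (((k : ℝ) + 1) / 2) / Real.Gamma (((k : ℝ) + 1) / 2)) *
        (2 * Real.pi ^ (((k : ℝ) + 1) / 2) / Real.Gamma (((k : ℝ) + 1) / 2))
      = ((1 / 2 : ℝ) ^ ((k : ℝ) / 2) * (1 / 2) ^ ((k : ℝ) / 2)) *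
        (4 * (Real.pi ^ (((k : ℝ) + 1) / 2) * Real.pi ^ (((k : ℝ) + 1) / 2))
          / Real.Gamma (((k : ℝ) + 1) / 2) ^ 2) := by ring
    _ = _ := by
        rw [h2, h3]
        field_simp
        norm_num

lemma evenRatio_rec (k : ℕ) : evenRatio (k + 2) =
    evenRatio k * (((k : ℝ) + 3 / 2) * ((k : ℝ) + 1 / 2) / ((k : ℝ) + 1) ^ 2) := by
  unfold evenRatio
  have e1 : ((k + 2 : ℕ) : ℝ) + 1 / 2 = ((k : ℝ) + 1 / 2 + 1) + 1 := by push_cast; ring
  have e2 : (((k + 2 : ℕ) : ℝ) + 1) / 2 = ((k : ℝ) + 1) / 2 + 1 := by push_cast; ring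
  have g1 : 0 < Real.Gamma (((k : ℝ) + 1) / 2) := Real.Gamma_pos_of_pos (by positivity)
  rw [e1, e2, Real.Gamma_add_one (by positivity), Real.Gamma_add_one (by positivity),
    Real.Gamma_add_one (by positivity)]
  rw [pow_add]
  field_simp
  ring

lemma evenRatio_pos (k : ℕ) : 0 < evenRatio k := by
  unfold evenRatio
  have g1 : 0 < Real.Gamma (((k : ℝ) + 1) / 2) := Real.Gamma_pos_of_pos (by positivity)
  have g2 : 0 < Real.Gamma ((k : ℝ) + 1 / 2) := Real.Gamma_pos_of_pos (by positivity)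
  have hπ := Real.pi_pos
  positivity

lemma evenRatio_anti (k : ℕ) : evenRatio (k + 2) ≤ evenRatio k := by
  rw [evenRatio_rec]
  have h := evenRatio_pos k
  have : ((k : ℝ) + 3 / 2) * ((k : ℝ) + 1 / 2) / ((k : ℝ) + 1) ^ 2 ≤ 1 := by
    rw [div_le_one (by positivity)]
    linarith
  calc evenRatio k * (((k : ℝ) + 3 / 2) * ((k : ℝ) + 1 / 2) / ((k : ℝ) + 1) ^ 2)
      ≤ evenRatio k * 1 := by gcongr
    _ = evenRatio k := mul_one _

lemma evenRatio_one : evenRatio 1 = Real.pi / 2 := by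
  unfold evenRatio
  have e1 : ((1 : ℕ) : ℝ) + 1 / 2 = 1 / 2 + 1 := by norm_num
  have e2 : (((1 : ℕ) : ℝ) + 1) / 2 = 1 := by norm_num
  rw [e1, e2, Real.Gamma_one, Real.Gamma_add_one (by norm_num), Real.Gamma_one_half_eq]
  have := Real.mul_self_sqrt Real.pi_pos.le
  norm_num
  linear_combination (1 / 2) * this

lemma evenRatio_two : evenRatio 2 = 3 / 2 := by
  unfold evenRatio
  have e1 : ((2 : ℕ) : ℝ) + 1 / 2 = (1 / 2 + 1) + 1 := by norm_num
  have e2 : (((2 : ℕ) : ℝ) + 1) / 2 = 1 / 2 + 1 := by norm_num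
  rw [e1, e2, Real.Gamma_add_one (by norm_num), Real.Gamma_add_one (by norm_num),
    Real.Gamma_one_half_eq]
  have h := Real.mul_self_sqrt Real.pi_pos.le
  have hp : 0 < Real.sqrt Real.pi := Real.sqrt_pos.mpr Real.pi_pos
  field_simp
  norm_num

lemma evenRatio_three : evenRatio 3 = 15 * Real.pi / 32 := by
  rw [show (3 : ℕ) = 1 + 2 by norm_num, evenRatio_rec, evenRatio_one]
  norm_num
  ring

lemma evenRatio_four : evenRatio 4 = 35 / 24 := by
  rw [show (4 : ℕ) = 2 + 2 by norm_num, evenRatio_rec, evenRatio_two]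
  norm_num

lemma evenRatio_five : evenRatio 5 = 945 * Real.pi / 2048 := by
  rw [show (5 : ℕ) = 3 + 2 by norm_num, evenRatio_rec, evenRatio_three]
  norm_num
  ring

lemma evenRatio_six : evenRatio 6 = 231 / 160 := by
  rw [show (6 : ℕ) = 4 + 2 by norm_num, evenRatio_rec, evenRatio_four]
  norm_num

lemma evenRatio_seven : evenRatio 7 ≤ 1.4447 := by
  rw [show (7 : ℕ) = 5 + 2 by norm_num, evenRatio_rec, evenRatio_five]
  have := Real.pi_lt_d6
  norm_num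
  linarith

lemma evenRatio_eight : evenRatio 8 ≤ 1.4447 := by
  rw [show (8 : ℕ) = 6 + 2 by norm_num, evenRatio_rec, evenRatio_six]
  norm_num

lemma evenRatio_ge_seven (k : ℕ) : evenRatio (k + 7) ≤ 1.4447 ∧ evenRatio (k + 8) ≤ 1.4447 := by
  induction k with
  | zero => exact ⟨evenRatio_seven, evenRatio_eight⟩
  | succ k ih =>
    refine ⟨?_, ?_⟩
    · rw [show k + 1 + 7 = k + 8 by ring]; exact ih.2
    · rw [show k + 1 + 8 = (k + 7) + 2 by ring]
      exact (evenRatio_anti _).trans ih.1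

/-- ratio for odd dimension -/
noncomputable def oddRatio (k : ℕ) : ℝ :=
  2 ^ (k + 1) * (((k : ℝ) / (2 * k + 1)) ^ ((k : ℝ) / 2) *
    (((k : ℝ) + 1) / (2 * k + 1)) ^ (((k : ℝ) + 1) / 2))

lemma clifford_odd (k : ℕ) :
    cliffordVol (2 * k + 1) k = oddRatio k * sphereVol (2 * k + 1) := by
  unfold cliffordVol oddRatio sphereVol
  have e0 : (2 * k + 1 - k : ℕ) = k + 1 := by omega
  rw [e0]
  push_cast
  have hπ := Real.pi_pos
  have hd := Real.Gamma_mul_Gamma_add_half (((k : ℝ) + 1) / 2)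
  have e1 : ((k : ℝ) + 1) / 2 + 1 / 2 = ((k : ℝ) + 1 + 1) / 2 := by ring
  have e2 : 2 * (((k : ℝ) + 1) / 2) = (k : ℝ) + 1 := by ring
  have e3 : (2 * (k : ℝ) + 1 + 1) / 2 = (k : ℝ) + 1 := by ring
  rw [e1, e2] at hd
  rw [e3]
  have g1 : 0 < Real.Gamma (((k : ℝ) + 1) / 2) := Real.Gamma_pos_of_pos (by positivity)
  have g2 : 0 < Real.Gamma (((k : ℝ) + 1 + 1) / 2) := Real.Gamma_pos_of_pos (by positivity)
  have g3 : 0 < Real.Gamma ((k : ℝ) + 1) := Real.Gamma_pos_of_pos (by positivity)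
  have h3 : Real.pi ^ (((k : ℝ) + 1) / 2) * Real.pi ^ (((k : ℝ) + 1 + 1) / 2)
      = Real.sqrt Real.pi * Real.pi ^ ((k : ℝ) + 1) := by
    rw [Real.sqrt_eq_rpow, ← Real.rpow_add hπ, ← Real.rpow_add hπ]
    congr 1
    ring
  have h4 : 0 < Real.pi ^ ((k : ℝ) + 1) := Real.rpow_pos_of_pos hπ _
  have h5 : (2 : ℝ) ^ (1 - ((k : ℝ) + 1)) = 1 / 2 ^ k := by
    rw [show 1 - ((k : ℝ) + 1) = -(k : ℝ) by ring, Real.rpow_neg (by norm_num),
      Real.rpow_natCast, one_div]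
  rw [h5] at hd
  have hs : 0 < Real.sqrt Real.pi := Real.sqrt_pos.mpr hπ
  set A := ((k : ℝ) / (2 * k + 1)) ^ ((k : ℝ) / 2)
  set B := (((k : ℝ) + 1) / (2 * k + 1)) ^ (((k : ℝ) + 1) / 2)
  have key : 2 * Real.pi ^ (((k : ℝ) + 1) / 2) / Real.Gamma (((k : ℝ) + 1) / 2) *
      (2 * Real.pi ^ (((k : ℝ) + 1 + 1) / 2) / Real.Gamma (((k : ℝ) + 1 + 1) / 2))
      = 2 ^ (k + 1) * (2 * Real.pi ^ ((k : ℝ) + 1) / Real.Gamma ((k : ℝ) + 1)) := by
    have h6 : 2 * Real.pi ^ (((k : ℝ) + 1) / 2) / Real.Gamma (((k : ℝ) + 1) / 2) *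
        (2 * Real.pi ^ (((k : ℝ) + 1 + 1) / 2) / Real.Gamma (((k : ℝ) + 1 + 1) / 2))
        = 4 * (Real.pi ^ (((k : ℝ) + 1) / 2) * Real.pi ^ (((k : ℝ) + 1 + 1) / 2)) /
          (Real.Gamma (((k : ℝ) + 1) / 2) * Real.Gamma (((k : ℝ) + 1 + 1) / 2)) := by
      field_simp
      norm_num
    rw [h6, h3, hd, pow_succ]
    field_simp
    norm_num
  calc A * B * (2 * Real.pi ^ (((k : ℝ) + 1) / 2) / Real.Gamma (((k : ℝ) + 1) / 2)) *
        (2 * Real.pi ^ (((k : ℝ) + 1 + 1) / 2) / Real.Gamma (((k : ℝ) + 1 + 1) / 2))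
      = A * B * (2 * Real.pi ^ (((k : ℝ) + 1) / 2) / Real.Gamma (((k : ℝ) + 1) / 2) *
        (2 * Real.pi ^ (((k : ℝ) + 1 + 1) / 2) / Real.Gamma (((k : ℝ) + 1 + 1) / 2))) := by ring
    _ = _ := by rw [key]; ring

lemma oddRatio_nonneg (k : ℕ) : 0 ≤ oddRatio k := by
  unfold oddRatio
  positivity

lemma oddRatio_pow_four (k : ℕ) :
    oddRatio k ^ 4 = 4 * ((2 * (k : ℝ) / (2 * k + 1)) ^ (2 * k) *
      ((2 * (k : ℝ) + 2) / (2 * k + 1)) ^ (2 * k + 2)) := by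
  unfold oddRatio
  rw [mul_pow, mul_pow]
  have h1 : (((k : ℝ) / (2 * k + 1)) ^ ((k : ℝ) / 2)) ^ 4 = ((k : ℝ) / (2 * k + 1)) ^ (2 * k) := by
    rw [← Real.rpow_natCast, ← Real.rpow_mul (by positivity), ← Real.rpow_natCast]
    congr 1
    push_cast
    ring
  have h2 : ((((k : ℝ) + 1) / (2 * k + 1)) ^ (((k : ℝ) + 1) / 2)) ^ 4
      = (((k : ℝ) + 1) / (2 * k + 1)) ^ (2 * k + 2) := by
    rw [← Real.rpow_natCast, ← Real.rpow_mul (by positivity), ← Real.rpow_natCast]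
    congr 1
    push_cast
    ring
  rw [h1, h2]
  have h3 : (2 * (k : ℝ) / (2 * k + 1)) ^ (2 * k) = 2 ^ (2 * k) * ((k : ℝ) / (2 * k + 1)) ^ (2 * k) := by
    rw [← mul_pow]; congr 1; ring
  have h4 : ((2 * (k : ℝ) + 2) / (2 * k + 1)) ^ (2 * k + 2)
      = 2 ^ (2 * k + 2) * (((k : ℝ) + 1) / (2 * k + 1)) ^ (2 * k + 2) := by
    rw [← mul_pow]; congr 1; ring
  rw [h3, h4]
  have h5 : ((2 : ℝ) ^ (k + 1)) ^ 4 = 4 * (2 ^ (2 * k) * 2 ^ (2 * k + 2)) := by
    rw [← pow_mul, ← pow_add]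
    rw [show (k + 1) * 4 = 2 + (2 * k + (2 * k + 2)) by ring, pow_add]
    norm_num
  rw [h5]
  ring

/-- main bound in odd dimension -/
lemma oddRatio_pow_four_le (k : ℕ) :
    oddRatio k ^ 4 ≤ 4 * Real.exp (1 / (2 * (k : ℝ) + 1) + 1 / (2 * (k : ℝ) + 1) ^ 2) := by
  rw [oddRatio_pow_four]
  set x : ℝ := 1 / (2 * (k : ℝ) + 1) with hx
  have hm : (0 : ℝ) < 2 * (k : ℝ) + 1 := by positivity
  have hx0 : 0 < x := by positivity
  have hx1 : x ≤ 1 := by rw [hx, div_le_one hm]; linarith [Nat.cast_nonneg (α := ℝ) k]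
  have e1 : 2 * (k : ℝ) / (2 * k + 1) = 1 - x := by rw [hx]; field_simp; ring
  have e2 : (2 * (k : ℝ) + 2) / (2 * k + 1) = 1 + x := by rw [hx]; field_simp; ring
  have e3 : 1 / (2 * (k : ℝ) + 1) ^ 2 = x ^ 2 := by rw [hx, one_div_pow]
  rw [e1, e2, e3]
  have h1 : (1 - x) ^ (2 * k) * (1 + x) ^ (2 * k + 2) = (1 - x ^ 2) ^ (2 * k) * (1 + x) ^ 2 := by
    rw [pow_add, ← mul_assoc, ← mul_pow]
    congr 2
    ring
  rw [h1]
  have h2 : (1 - x ^ 2) ^ (2 * k) ≤ Real.exp (- (x ^ 2)) ^ (2 * k) := by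
    apply pow_le_pow_left₀
    · nlinarith
    · have := Real.add_one_le_exp (- (x ^ 2)); linarith
  have h3 : (1 + x) ^ 2 ≤ Real.exp x ^ 2 := by
    apply pow_le_pow_left₀ (by positivity)
    have := Real.add_one_le_exp x; linarith
  have h4 : Real.exp (- (x ^ 2)) ^ (2 * k) * Real.exp x ^ 2 = Real.exp (x + x ^ 2) := by
    rw [← Real.exp_nat_mul, ← Real.exp_nat_mul, ← Real.exp_add]
    congr 1
    push_cast
    have : x * (2 * (k : ℝ) + 1) = 1 := by rw [hx]; field_simp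
    have h5 : 2 * (k : ℝ) * x ^ 2 = x - x ^ 2 := by
      linear_combination x * this
    linear_combination - h5
  have h0 : 0 ≤ (1 + x) ^ 2 := by positivity
  calc 4 * ((1 - x ^ 2) ^ (2 * k) * (1 + x) ^ 2)
      ≤ 4 * (Real.exp (- (x ^ 2)) ^ (2 * k) * Real.exp x ^ 2) := by gcongr
    _ = _ := by rw [h4]

lemma exp_le_of {x B : ℝ} (n : ℕ) (hx0 : 0 ≤ x) (hx : x < n) (hn : 0 < n)
    (h : 1 ≤ B * (1 - x / n) ^ n) (hB : 0 < B) : Real.exp x ≤ B := by
  have hn' : (0 : ℝ) < n := by exact_mod_cast hn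
  have h1 : 0 < 1 - x / n := by
    rw [sub_pos, div_lt_one hn']; exact hx
  have h2 : (1 - x / n) ^ n ≤ Real.exp (- x) := by
    have := Real.one_sub_div_pow_le_exp_neg (n := n) (t := x) hx.le
    exact this
  have h3 : 1 ≤ B * Real.exp (- x) := by
    calc (1 : ℝ) ≤ B * (1 - x / n) ^ n := h
      _ ≤ B * Real.exp (- x) := by gcongr
  have h4 : Real.exp x = Real.exp x * 1 := by ring
  have h5 : Real.exp x * Real.exp (- x) = 1 := by rw [← Real.exp_add]; simp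
  calc Real.exp x = Real.exp x * 1 := by ring
    _ ≤ Real.exp x * (B * Real.exp (- x)) := by gcongr
    _ = B * (Real.exp x * Real.exp (- x)) := by ring
    _ = B := by rw [h5, mul_one]

lemma oddRatio_le {k : ℕ} {B : ℝ} (hB : 0 ≤ B) {K : ℕ} (hK : K ≤ k)
    (h : 4 * Real.exp (1 / (2 * (K : ℝ) + 1) + 1 / (2 * (K : ℝ) + 1) ^ 2) ≤ B ^ 4) :
    oddRatio k ≤ B := by
  have hk : (K : ℝ) ≤ k := by exact_mod_cast hK
  have h1 : 4 * Real.exp (1 / (2 * (k : ℝ) + 1) + 1 / (2 * (k : ℝ) + 1) ^ 2) ≤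
      4 * Real.exp (1 / (2 * (K : ℝ) + 1) + 1 / (2 * (K : ℝ) + 1) ^ 2) := by
    gcongr
  have h2 := (oddRatio_pow_four_le k).trans (h1.trans h)
  exact le_of_pow_le_pow_left₀ (by norm_num) hB h2

theorem ratio2 : leastClifford 2 ≤ (1 + 0.5931) * sphereVol 2 := by
  have h := leastClifford_le (m := 2) (k := 1) (by norm_num) (by norm_num)
  have h2 := clifford_even (k := 1) (by norm_num)
  rw [show 2 * 1 = 2 by norm_num, evenRatio_one] at h2
  rw [h2] at h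
  have hp := Real.pi_lt_d4
  have hs := sphereVol_pos' 2
  refine h.trans ?_
  gcongr
  norm_num
  linarith

theorem ratio3 : leastClifford 3 ≤ (1 + 0.5525) * sphereVol 3 := by
  have h := leastClifford_le (m := 3) (k := 1) (by norm_num) (by norm_num)
  have h2 := clifford_odd 1
  rw [show 2 * 1 + 1 = 3 by norm_num] at h2
  rw [h2] at h
  refine h.trans ?_
  have hs := sphereVol_pos' 3
  have h3 : oddRatio 1 ≤ 1 + 0.5525 := by
    have h4 := oddRatio_pow_four 1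
    have h5 : oddRatio 1 ^ 4 ≤ (1 + 0.5525) ^ 4 := by
      rw [h4]
      norm_num
    exact le_of_pow_le_pow_left₀ (by norm_num) (by norm_num) h5
  gcongr

lemma even_bound {k : ℕ} (hk : 1 ≤ k) {B : ℝ} (h : evenRatio k ≤ B) :
    leastClifford (2 * k) ≤ B * sphereVol (2 * k) := by
  refine (leastClifford_le hk (by omega)).trans ?_
  rw [clifford_even hk]
  have hs := sphereVol_pos' (2 * k)
  gcongr

lemma odd_bound {k : ℕ} (hk : 1 ≤ k) {B : ℝ} (h : oddRatio k ≤ B) :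
    leastClifford (2 * k + 1) ≤ B * sphereVol (2 * k + 1) := by
  refine (leastClifford_le hk (by omega)).trans ?_
  rw [clifford_odd]
  have hs := sphereVol_pos' (2 * k + 1)
  gcongr

lemma exp5 : 4 * Real.exp (1 / (2 * ((2 : ℕ) : ℝ) + 1) + 1 / (2 * ((2 : ℕ) : ℝ) + 1) ^ 2)
    ≤ 1.5036 ^ 4 := by
  have : Real.exp (1 / (2 * ((2 : ℕ) : ℝ) + 1) + 1 / (2 * ((2 : ℕ) : ℝ) + 1) ^ 2) ≤ 1.277 := by
    apply exp_le_of 16 (by positivity) (by norm_num) (by norm_num) _ (by norm_num)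
    norm_num
  calc _ ≤ 4 * (1.277 : ℝ) := by gcongr
    _ ≤ _ := by norm_num

lemma exp9 : 4 * Real.exp (1 / (2 * ((4 : ℕ) : ℝ) + 1) + 1 / (2 * ((4 : ℕ) : ℝ) + 1) ^ 2)
    ≤ 1.484 ^ 4 := by
  have : Real.exp (1 / (2 * ((4 : ℕ) : ℝ) + 1) + 1 / (2 * ((4 : ℕ) : ℝ) + 1) ^ 2) ≤ 1.2 := by
    apply exp_le_of 4 (by positivity) (by norm_num) (by norm_num) _ (by norm_num)
    norm_num
  calc _ ≤ 4 * (1.2 : ℝ) := by gcongr
    _ ≤ _ := by norm_num

lemma exp13 : 4 * Real.exp (1 / (2 * ((6 : ℕ) : ℝ) + 1) + 1 / (2 * ((6 : ℕ) : ℝ) + 1) ^ 2)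
    ≤ 1.4447 ^ 4 := by
  have : Real.exp (1 / (2 * ((6 : ℕ) : ℝ) + 1) + 1 / (2 * ((6 : ℕ) : ℝ) + 1) ^ 2) ≤ 1.0889 := by
    apply exp_le_of 4 (by positivity) (by norm_num) (by norm_num) _ (by norm_num)
    norm_num
  calc _ ≤ 4 * (1.0889 : ℝ) := by gcongr
    _ ≤ _ := by norm_num

theorem ratio4to8 : ∀ m, 4 ≤ m → m ≤ 8 → leastClifford m ≤ 1.5036 * sphereVol m := by
  intro m h4 h8
  have hp := Real.pi_lt_d4
  interval_cases m
  · exact even_bound (k := 2) (by norm_num) (by rw [evenRatio_two]; norm_num)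
  · exact odd_bound (k := 2) (by norm_num) (oddRatio_le (by norm_num) le_rfl exp5)
  · exact even_bound (k := 3) (by norm_num) (by rw [evenRatio_three]; linarith)
  · exact odd_bound (k := 3) (by norm_num) (oddRatio_le (by norm_num) (by norm_num) exp5)
  · exact even_bound (k := 4) (by norm_num) (by rw [evenRatio_four]; norm_num)

theorem ratio9to12 : ∀ m, 9 ≤ m → m ≤ 12 → leastClifford m ≤ 1.484 * sphereVol m := by
  intro m h4 h8
  have hp := Real.pi_lt_d4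
  interval_cases m
  · exact odd_bound (k := 4) (by norm_num) (oddRatio_le (by norm_num) le_rfl exp9)
  · exact even_bound (k := 5) (by norm_num) (by rw [evenRatio_five]; linarith)
  · exact odd_bound (k := 5) (by norm_num) (oddRatio_le (by norm_num) (by norm_num) exp9)
  · exact even_bound (k := 6) (by norm_num) (by rw [evenRatio_six]; norm_num)

theorem ratio12 : ∀ m, 12 ≤ m → leastClifford m ≤ 1.4447 * sphereVol m := by
  intro m hm
  rcases Nat.even_or_odd' m with ⟨k, hk | hk⟩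
  · subst hk
    rcases Nat.lt_or_ge k 7 with h | h
    · have : k = 6 := by omega
      subst this
      exact even_bound (k := 6) (by norm_num) (by rw [evenRatio_six]; norm_num)
    · obtain ⟨j, rfl⟩ := Nat.exists_eq_add_of_le h
      apply even_bound (by omega)
      rw [add_comm 7 j]
      exact (evenRatio_ge_seven j).1
  · subst hk
    exact odd_bound (by omega) (oddRatio_le (K := 6) (by norm_num) (by omega) exp13)

theorem ratio13 : ∀ m, 13 ≤ m → leastClifford m ≤ 1.4447 * sphereVol m :=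
  fun m hm => ratio12 m (by omega)

end Vale.Agent.P224
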