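import Mathlib.Algebra.GroupWithZero.Action.Pointwise.Finset
import Mathlib.Algebra.MvPolynomial.Comap
import Mathlib.Algebra.MvPolynomial.Funext
import Mathlib.Algebra.Order.Archimedean.Real.Hom
import Mathlib.Algebra.Ring.Action.Pointwise.Finset
import Mathlib.Algebra.Ring.IsFormallyReal
import Mathlib.Analysis.Calculus.DerivativeTest
import Mathlib.Analysis.Calculus.FDeriv.Symmetric
import Mathlib.Analysis.Calculus.InverseFunctionTheorem.ContDiff
import Mathlib.Analysis.Calculus.LineDeriv.IntegrationByParts
import Mathlib.Analysis.InnerProductSpace.NormDet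
import Mathlib.Analysis.InnerProductSpace.Trace
import Mathlib.Analysis.Real.Pi.Bounds
import Mathlib.Analysis.SpecialFunctions.Gamma.Beta
import Mathlib.Analysis.SpecialFunctions.Gaussian.FourierTransform
import Mathlib.Data.Finset.DenselyOrdered
import Mathlib.Data.Real.Sign
import Mathlib.FieldTheory.Finite.Polynomial
import Mathlib.Geometry.Manifold.PartitionOfUnity
import Mathlib.LinearAlgebra.Matrix.Swap
import Mathlib.LinearAlgebra.Reflection
import Mathlib.MeasureTheory.Function.L2Space
import Mathlib.MeasureTheory.Function.SpecialFunctions.Inner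
import Mathlib.MeasureTheory.Measure.Lebesgue.VolumeOfBalls
import Mathlib.Order.CompletePartialOrder
import Mathlib.RingTheory.DedekindDomain.SInteger
import Mathlib.RingTheory.Etale.Weakly
import Mathlib.RingTheory.Flat.TorsionFree
import Mathlib.RingTheory.SimpleRing.Principal
import Mathlib.RingTheory.TotallySplit
import Mathlib.Tactic

/-! The part of Mathlib that the development of this folder uses. -/
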